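import Vale.Agent.Lib.P302.helper2.Step

/-!
Generated: the root instance of a refutation search that is cut into small kernel computations.
A sub-instance is coded by the decimal digits of a number: the digit of `10 ^ i` is the
multiplicity of the `i`-th type.
-/

namespace Vale.Agent.Lib.P302.helper2.BlkC2

open Vale.Agent.Lib.P302.helper49 Vale.Agent.Lib.P302.helper92 Vale.Agent.Lib.P302.helper2

/-- The lengths of the types, in decreasing order. -/
def lens : List ℕ := [1088032800, 1087030500, 1087022700, 1087019400, 1087019200, 1087019100, 1087019000, 1087018900, 1087018800, 1086952500, 1086944700, 1086936900, 1086929100, 1086921300, 1086913500, 1086897900, 1086874500, 1067183400, 1064866800, 1062550200, 1060233600, 1057917000, 1055600400, 1050967200, 1044017400, 1000000006, 888799200, 884166000, 874899600, 865633200, 826173000, 826157400, 826126200, 826095000, 825962200, 825961800, 825961600]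

/-- The first `k` decimal digits of `n`, lowest first. -/
def dec : ℕ → ℕ → List ℕ
  | 0, _ => []
  | k + 1, n => (n % 10) :: dec k (n / 10)

/-- The instance whose multiplicities are the decimal digits of `n`. -/
def st (n : ℕ) : List (ℕ × ℕ) := lens.zip (dec 37 n)

/-- The root instance: types `(length, multiplicity)` in decreasing order of length. -/
def root : List (ℕ × ℕ) := [(1088032800, 5), (1087030500, 1), (1087022700, 1), (1087019400, 1), (1087019200, 1), (1087019100, 1), (1087019000, 1), (1087018900, 1), (1087018800, 1), (1086952500, 1), (1086944700, 1), (1086936900, 1), (1086929100, 1), (1086921300, 1), (1086913500, 1), (1086897900, 1), (1086874500, 1), (1067183400, 2), (1064866800, 1), (1062550200, 1), (1060233600, 1), (1057917000, 1), (1055600400, 1), (1050967200, 1), (1044017400, 2), (1000000006, 2), (888799200, 3), (884166000, 1), (874899600, 1), (865633200, 2), (826173000, 2), (826157400, 1), (826126200, 1), (826095000, 1), (825962200, 1), (825961800, 1), (825961600, 1)]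

/-- Covering weights: every fitting triple contains a short item. -/
def ws : List (List ℕ × ℕ) := [([0, 0, 0, 0, 0, 0, 0, 0, 0, 0, 0, 0, 0, 0, 0, 0, 0, 0, 0, 0, 0, 0, 0, 0, 0, 0, 1, 1, 1, 1, 1, 1, 1, 1, 1, 1, 1], 1)]

theorem h0 : (sortedDesc root && ws.all (fun wd => validC3 3000000000 root wd)) = true := by
  decide +kernel

end Vale.Agent.Lib.P302.helper2.BlkC2
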