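import Vale.Agent.Lib.P302.helper2.BlkC2B0
import Vale.Agent.Lib.P302.helper2.BlkC2B1
import Vale.Agent.Lib.P302.helper2.BlkC2B2
import Vale.Agent.Lib.P302.helper2.BlkC2B3
import Vale.Agent.Lib.P302.helper2.BlkC2B4
import Vale.Agent.Lib.P302.helper2.BlkC2B5
import Vale.Agent.Lib.P302.helper2.BlkC2B6
import Vale.Agent.Lib.P302.helper2.BlkC2B7

/-!
Generated: the refutations of all states of the cut search, from the kernel computations.
-/

namespace Vale.Agent.Lib.P302.helper2.BlkC2

open Vale.Agent.Lib.P302.helper49 Vale.Agent.Lib.P302.helper92 Vale.Agent.Lib.P302.helper2

theorem n0 : ¬ TripleMatch 3000000000 (items (st 111211111100001111000000000000)) 5 :=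
  step (ws := ws) (ts0 := root) h0 (doms := []) (fuel := 8) doms_nil (and_l (and_l b0))
theorem n1 : ¬ TripleMatch 3000000000 (items (st 111321111100001111100000000000)) 6 :=
  step (ws := ws) (ts0 := root) h0 (doms := [((st 111211111100001111000000000000), 5)]) (fuel := 8) (doms_cons n0 doms_nil) (and_l (and_r (and_l b0)))
theorem n2 : ¬ TripleMatch 3000000000 (items (st 211102111100001111000000000000)) 5 :=
  step (ws := ws) (ts0 := root) h0 (doms := []) (fuel := 8) doms_nil (and_l (and_r (and_r (and_l b0))))
theorem n3 : ¬ TripleMatch 3000000000 (items (st 211212111100001111100000000000)) 6 :=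
  step (ws := ws) (ts0 := root) h0 (doms := [((st 111211111100001111000000000000), 5), ((st 211102111100001111000000000000), 5)]) (fuel := 8) (doms_cons n0 (doms_cons n2 doms_nil)) (and_l (and_r (and_r (and_r (and_l b0)))))
theorem n4 : ¬ TripleMatch 3000000000 (items (st 211322111100001111100100000000)) 7 :=
  step (ws := ws) (ts0 := root) h0 (doms := [((st 111321111100001111100000000000), 6), ((st 211212111100001111100000000000), 6)]) (fuel := 8) (doms_cons n1 (doms_cons n3 doms_nil)) (and_l (and_l (and_r b0)))
theorem n5 : ¬ TripleMatch 3000000000 (items (st 100011210111110001111000000000000)) 5 :=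
  step (ws := ws) (ts0 := root) h0 (doms := []) (fuel := 8) doms_nil (and_l (and_r (and_l (and_r b0))))
theorem n6 : ¬ TripleMatch 3000000000 (items (st 100011320111110001111100000000000)) 6 :=
  step (ws := ws) (ts0 := root) h0 (doms := [((st 100011210111110001111000000000000), 5)]) (fuel := 8) (doms_cons n5 doms_nil) (and_l (and_r (and_r (and_l (and_r b0)))))
theorem n7 : ¬ TripleMatch 3000000000 (items (st 111211111110001110000000000000)) 5 :=
  step (ws := ws) (ts0 := root) h0 (doms := []) (fuel := 8) doms_nil (and_l (and_r (and_r (and_r (and_l (and_r b0))))))
theorem n8 : ¬ TripleMatch 3000000000 (items (st 100111101111110001111000000000000)) 5 :=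
  step (ws := ws) (ts0 := root) h0 (doms := []) (fuel := 8) doms_nil (and_l (and_l (and_r (and_r b0))))
theorem n9 : ¬ TripleMatch 3000000000 (items (st 100111211111110001111100000000000)) 6 :=
  step (ws := ws) (ts0 := root) h0 (doms := [((st 111211111110001110000000000000), 5), ((st 100011210111110001111000000000000), 5), ((st 100111101111110001111000000000000), 5)]) (fuel := 8) (doms_cons n7 (doms_cons n5 (doms_cons n8 doms_nil))) (and_l (and_r (and_l (and_r (and_r b0)))))
theorem n10 : ¬ TripleMatch 3000000000 (items (st 100111321111110001111100100000000)) 7 :=
  step (ws := ws) (ts0 := root) h0 (doms := [((st 111321111100001111100000000000), 6), ((st 100011320111110001111100000000000), 6), ((st 100111211111110001111100000000000), 6)]) (fuel := 8) (doms_cons n1 (doms_cons n6 (doms_cons n9 doms_nil))) (and_l (and_r (and_r (and_l (and_r (and_r b0))))))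
theorem n11 : ¬ TripleMatch 3000000000 (items (st 211102111110001110000000000000)) 5 :=
  step (ws := ws) (ts0 := root) h0 (doms := []) (fuel := 8) doms_nil (and_l (and_r (and_r (and_r (and_l (and_r (and_r b0)))))))
theorem n12 : ¬ TripleMatch 3000000000 (items (st 100211102111110001111100000000000)) 6 :=
  step (ws := ws) (ts0 := root) h0 (doms := [((st 211102111110001110000000000000), 5), ((st 100111101111110001111000000000000), 5)]) (fuel := 8) (doms_cons n11 (doms_cons n8 doms_nil)) (and_l (and_l (and_r (and_r (and_r b0)))))
theorem n13 : ¬ TripleMatch 3000000000 (items (st 100211212111110001111100100000000)) 7 :=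
  step (ws := ws) (ts0 := root) h0 (doms := [((st 211212111100001111100000000000), 6), ((st 100111211111110001111100000000000), 6), ((st 100211102111110001111100000000000), 6)]) (fuel := 8) (doms_cons n3 (doms_cons n9 (doms_cons n12 doms_nil))) (and_l (and_r (and_l (and_r (and_r (and_r b0))))))
theorem n14 : ¬ TripleMatch 3000000000 (items (st 100211322111110001111100110000000)) 8 :=
  step (ws := ws) (ts0 := root) h0 (doms := [((st 211322111100001111100100000000), 7), ((st 100111321111110001111100100000000), 7), ((st 100211212111110001111100100000000), 7)]) (fuel := 8) (doms_cons n4 (doms_cons n10 (doms_cons n13 doms_nil))) (and_l (and_r (and_r (and_l (and_r (and_r (and_r b0)))))))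
theorem n15 : ¬ TripleMatch 3000000000 (items (st 11210111111001000000000000000)) 4 :=
  step (ws := ws) (ts0 := root) h0 (doms := []) (fuel := 8) doms_nil (and_l (and_r (and_r (and_r (and_l (and_r (and_r (and_r b0))))))))
theorem n16 : ¬ TripleMatch 3000000000 (items (st 10011100111111001100000000000000)) 4 :=
  step (ws := ws) (ts0 := root) h0 (doms := []) (fuel := 8) doms_nil (and_l (and_l b1))
theorem n17 : ¬ TripleMatch 3000000000 (items (st 10011210111111001110000000000000)) 5 :=
  step (ws := ws) (ts0 := root) h0 (doms := [((st 11210111111001000000000000000), 4), ((st 10011100111111001100000000000000), 4)]) (fuel := 8) (doms_cons n15 (doms_cons n16 doms_nil)) (and_l (and_r (and_l b1)))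
theorem n18 : ¬ TripleMatch 3000000000 (items (st 11210111111000100000000000000)) 4 :=
  step (ws := ws) (ts0 := root) h0 (doms := []) (fuel := 8) doms_nil (and_l (and_r (and_r (and_l b1))))
theorem n19 : ¬ TripleMatch 3000000000 (items (st 100011100111111000110000000000000)) 4 :=
  step (ws := ws) (ts0 := root) h0 (doms := []) (fuel := 8) doms_nil (and_l (and_r (and_r (and_r (and_l b1)))))
theorem n20 : ¬ TripleMatch 3000000000 (items (st 100011210111111000111000000000000)) 5 :=
  step (ws := ws) (ts0 := root) h0 (doms := [((st 11210111111000100000000000000), 4), ((st 100011100111111000110000000000000), 4)]) (fuel := 8) (doms_cons n18 (doms_cons n19 doms_nil)) (and_l (and_l (and_r b1)))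
theorem n21 : ¬ TripleMatch 3000000000 (items (st 100011100111111001010000000000000)) 4 :=
  step (ws := ws) (ts0 := root) h0 (doms := []) (fuel := 8) doms_nil (and_l (and_r (and_l (and_r b1))))
theorem n22 : ¬ TripleMatch 3000000000 (items (st 110011100111111001111000000000000)) 5 :=
  step (ws := ws) (ts0 := root) h0 (doms := [((st 10011100111111001100000000000000), 4), ((st 100011100111111001010000000000000), 4)]) (fuel := 8) (doms_cons n16 (doms_cons n21 doms_nil)) (and_l (and_r (and_r (and_l (and_r b1)))))
theorem n23 : ¬ TripleMatch 3000000000 (items (st 110011210111111001111100000000000)) 6 :=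
  step (ws := ws) (ts0 := root) h0 (doms := [((st 10011210111111001110000000000000), 5), ((st 100011210111111000111000000000000), 5), ((st 110011100111111001111000000000000), 5)]) (fuel := 8) (doms_cons n17 (doms_cons n20 (doms_cons n22 doms_nil))) (and_l (and_r (and_r (and_r (and_l (and_r b1))))))
theorem n24 : ¬ TripleMatch 3000000000 (items (st 110011320111111001111100100000000)) 7 :=
  step (ws := ws) (ts0 := root) h0 (doms := [((st 100011320111110001111100000000000), 6), ((st 110011210111111001111100000000000), 6)]) (fuel := 8) (doms_cons n6 (doms_cons n23 doms_nil)) (and_l (and_l (and_r (and_r b1))))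
theorem n25 : ¬ TripleMatch 3000000000 (items (st 111101111111001000000000000000)) 4 :=
  step (ws := ws) (ts0 := root) h0 (doms := []) (fuel := 8) doms_nil (and_l (and_r (and_l (and_r (and_r b1)))))
theorem n26 : ¬ TripleMatch 3000000000 (items (st 10111101111111001110000000000000)) 5 :=
  step (ws := ws) (ts0 := root) h0 (doms := [((st 111101111111001000000000000000), 4), ((st 10011100111111001100000000000000), 4)]) (fuel := 8) (doms_cons n25 (doms_cons n16 doms_nil)) (and_l (and_r (and_r (and_l (and_r (and_r b1))))))
theorem n27 : ¬ TripleMatch 3000000000 (items (st 111101111111000100000000000000)) 4 :=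
  step (ws := ws) (ts0 := root) h0 (doms := []) (fuel := 8) doms_nil (and_l (and_r (and_r (and_r (and_l (and_r (and_r b1)))))))
theorem n28 : ¬ TripleMatch 3000000000 (items (st 100111101111111000111000000000000)) 5 :=
  step (ws := ws) (ts0 := root) h0 (doms := [((st 111101111111000100000000000000), 4), ((st 100011100111111000110000000000000), 4)]) (fuel := 8) (doms_cons n27 (doms_cons n19 doms_nil)) (and_l (and_l (and_r (and_r (and_r b1)))))
theorem n29 : ¬ TripleMatch 3000000000 (items (st 110111101111111001111100000000000)) 6 :=
  step (ws := ws) (ts0 := root) h0 (doms := [((st 10111101111111001110000000000000), 5), ((st 100111101111111000111000000000000), 5), ((st 110011100111111001111000000000000), 5)]) (fuel := 8) (doms_cons n26 (doms_cons n28 (doms_cons n22 doms_nil))) (and_l (and_r (and_l (and_r (and_r (and_r b1))))))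
theorem n30 : ¬ TripleMatch 3000000000 (items (st 110111211111111001111100100000000)) 7 :=
  step (ws := ws) (ts0 := root) h0 (doms := [((st 100111211111110001111100000000000), 6), ((st 110011210111111001111100000000000), 6), ((st 110111101111111001111100000000000), 6)]) (fuel := 8) (doms_cons n9 (doms_cons n23 (doms_cons n29 doms_nil))) (and_l (and_r (and_r (and_l (and_r (and_r (and_r b1)))))))
theorem n31 : ¬ TripleMatch 3000000000 (items (st 110111321111111001111100110000000)) 8 :=
  step (ws := ws) (ts0 := root) h0 (doms := [((st 100111321111110001111100100000000), 7), ((st 110011320111111001111100100000000), 7), ((st 110111211111111001111100100000000), 7)]) (fuel := 8) (doms_cons n10 (doms_cons n24 (doms_cons n30 doms_nil))) (and_l (and_r (and_r (and_r (and_l (and_r (and_r (and_r b1))))))))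
theorem n32 : ¬ TripleMatch 3000000000 (items (st 110211102111111001111100100000000)) 7 :=
  step (ws := ws) (ts0 := root) h0 (doms := [((st 100211102111110001111100000000000), 6), ((st 110111101111111001111100000000000), 6)]) (fuel := 8) (doms_cons n12 (doms_cons n29 doms_nil)) (and_l (and_l b2))
theorem n33 : ¬ TripleMatch 3000000000 (items (st 110211212111111001111100110000000)) 8 :=
  step (ws := ws) (ts0 := root) h0 (doms := [((st 100211212111110001111100100000000), 7), ((st 110111211111111001111100100000000), 7), ((st 110211102111111001111100100000000), 7)]) (fuel := 8) (doms_cons n13 (doms_cons n30 (doms_cons n32 doms_nil))) (and_l (and_r (and_l b2)))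
theorem n34 : ¬ TripleMatch 3000000000 (items (st 110211322111111001111100110100000)) 9 :=
  step (ws := ws) (ts0 := root) h0 (doms := [((st 100211322111110001111100110000000), 8), ((st 110111321111111001111100110000000), 8), ((st 110211212111111001111100110000000), 8)]) (fuel := 8) (doms_cons n14 (doms_cons n31 (doms_cons n33 doms_nil))) (and_l (and_r (and_r (and_l b2))))
theorem n35 : ¬ TripleMatch 3000000000 (items (st 1000011210111100011111000000000000)) 5 :=
  step (ws := ws) (ts0 := root) h0 (doms := []) (fuel := 8) doms_nil (and_l (and_r (and_r (and_r (and_l b2)))))
theorem n36 : ¬ TripleMatch 3000000000 (items (st 1000011320111100011111100000000000)) 6 :=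
  step (ws := ws) (ts0 := root) h0 (doms := [((st 1000011210111100011111000000000000), 5)]) (fuel := 8) (doms_cons n35 doms_nil) (and_l (and_l (and_r b2)))
theorem n37 : ¬ TripleMatch 3000000000 (items (st 111211111100011110000000000000)) 5 :=
  step (ws := ws) (ts0 := root) h0 (doms := []) (fuel := 8) doms_nil (and_l (and_r (and_l (and_r b2))))
theorem n38 : ¬ TripleMatch 3000000000 (items (st 1000111101111100011111000000000000)) 5 :=
  step (ws := ws) (ts0 := root) h0 (doms := []) (fuel := 8) doms_nil (and_l (and_r (and_r (and_l (and_r b2)))))
theorem n39 : ¬ TripleMatch 3000000000 (items (st 1000111211111100011111100000000000)) 6 :=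
  step (ws := ws) (ts0 := root) h0 (doms := [((st 111211111100011110000000000000), 5), ((st 1000011210111100011111000000000000), 5), ((st 1000111101111100011111000000000000), 5)]) (fuel := 8) (doms_cons n37 (doms_cons n35 (doms_cons n38 doms_nil))) (and_l (and_r (and_r (and_r (and_l (and_r b2))))))
theorem n40 : ¬ TripleMatch 3000000000 (items (st 1000111321111100011111100100000000)) 7 :=
  step (ws := ws) (ts0 := root) h0 (doms := [((st 111321111100001111100000000000), 6), ((st 1000011320111100011111100000000000), 6), ((st 1000111211111100011111100000000000), 6)]) (fuel := 8) (doms_cons n1 (doms_cons n36 (doms_cons n39 doms_nil))) (and_l (and_l (and_r (and_r b2))))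
theorem n41 : ¬ TripleMatch 3000000000 (items (st 211102111100011110000000000000)) 5 :=
  step (ws := ws) (ts0 := root) h0 (doms := []) (fuel := 8) doms_nil (and_l (and_r (and_l (and_r (and_r b2)))))
theorem n42 : ¬ TripleMatch 3000000000 (items (st 1000211102111100011111100000000000)) 6 :=
  step (ws := ws) (ts0 := root) h0 (doms := [((st 211102111100011110000000000000), 5), ((st 1000111101111100011111000000000000), 5)]) (fuel := 8) (doms_cons n41 (doms_cons n38 doms_nil)) (and_l (and_r (and_r (and_l (and_r (and_r b2))))))
theorem n43 : ¬ TripleMatch 3000000000 (items (st 1000211212111100011111100100000000)) 7 :=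
  step (ws := ws) (ts0 := root) h0 (doms := [((st 211212111100001111100000000000), 6), ((st 1000111211111100011111100000000000), 6), ((st 1000211102111100011111100000000000), 6)]) (fuel := 8) (doms_cons n3 (doms_cons n39 (doms_cons n42 doms_nil))) (and_l (and_r (and_r (and_r (and_l (and_r (and_r b2)))))))
theorem n44 : ¬ TripleMatch 3000000000 (items (st 1000211322111100011111100110000000)) 8 :=
  step (ws := ws) (ts0 := root) h0 (doms := [((st 211322111100001111100100000000), 7), ((st 1000111321111100011111100100000000), 7), ((st 1000211212111100011111100100000000), 7)]) (fuel := 8) (doms_cons n4 (doms_cons n40 (doms_cons n43 doms_nil))) (and_l (and_l (and_r (and_r (and_r b2)))))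
theorem n45 : ¬ TripleMatch 3000000000 (items (st 1000011210111110011110000000000000)) 5 :=
  step (ws := ws) (ts0 := root) h0 (doms := []) (fuel := 8) doms_nil (and_l (and_r (and_l (and_r (and_r (and_r b2))))))
theorem n46 : ¬ TripleMatch 3000000000 (items (st 1100011100111110011111000000000000)) 5 :=
  step (ws := ws) (ts0 := root) h0 (doms := []) (fuel := 8) doms_nil (and_l (and_r (and_r (and_l (and_r (and_r (and_r b2)))))))
theorem n47 : ¬ TripleMatch 3000000000 (items (st 1100011210111110011111100000000000)) 6 :=
  step (ws := ws) (ts0 := root) h0 (doms := [((st 1000011210111110011110000000000000), 5), ((st 1100011100111110011111000000000000), 5)]) (fuel := 8) (doms_cons n45 (doms_cons n46 doms_nil)) (and_l (and_r (and_r (and_r (and_l (and_r (and_r (and_r b2))))))))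
theorem n48 : ¬ TripleMatch 3000000000 (items (st 1100011320111110011111100100000000)) 7 :=
  step (ws := ws) (ts0 := root) h0 (doms := [((st 100011320111110001111100000000000), 6), ((st 1000011320111100011111100000000000), 6), ((st 1100011210111110011111100000000000), 6)]) (fuel := 8) (doms_cons n6 (doms_cons n36 (doms_cons n47 doms_nil))) (and_l (and_l b3))
theorem n49 : ¬ TripleMatch 3000000000 (items (st 1000111101111110011110000000000000)) 5 :=
  step (ws := ws) (ts0 := root) h0 (doms := []) (fuel := 8) doms_nil (and_l (and_r (and_l b3)))
theorem n50 : ¬ TripleMatch 3000000000 (items (st 1100111101111110011111100000000000)) 6 :=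
  step (ws := ws) (ts0 := root) h0 (doms := [((st 1000111101111110011110000000000000), 5), ((st 1100011100111110011111000000000000), 5)]) (fuel := 8) (doms_cons n49 (doms_cons n46 doms_nil)) (and_l (and_r (and_r (and_l b3))))
theorem n51 : ¬ TripleMatch 3000000000 (items (st 1100111211111110011111100100000000)) 7 :=
  step (ws := ws) (ts0 := root) h0 (doms := [((st 100111211111110001111100000000000), 6), ((st 1000111211111100011111100000000000), 6), ((st 1100011210111110011111100000000000), 6), ((st 1100111101111110011111100000000000), 6)]) (fuel := 8) (doms_cons n9 (doms_cons n39 (doms_cons n47 (doms_cons n50 doms_nil)))) (and_l (and_r (and_r (and_r (and_l b3)))))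
theorem n52 : ¬ TripleMatch 3000000000 (items (st 1100111321111110011111100110000000)) 8 :=
  step (ws := ws) (ts0 := root) h0 (doms := [((st 100111321111110001111100100000000), 7), ((st 1000111321111100011111100100000000), 7), ((st 1100011320111110011111100100000000), 7), ((st 1100111211111110011111100100000000), 7)]) (fuel := 8) (doms_cons n10 (doms_cons n40 (doms_cons n48 (doms_cons n51 doms_nil)))) (and_l (and_l (and_r b3)))
theorem n53 : ¬ TripleMatch 3000000000 (items (st 1100211102111110011111100100000000)) 7 :=
  step (ws := ws) (ts0 := root) h0 (doms := [((st 100211102111110001111100000000000), 6), ((st 1000211102111100011111100000000000), 6), ((st 1100111101111110011111100000000000), 6)]) (fuel := 8) (doms_cons n12 (doms_cons n42 (doms_cons n50 doms_nil))) (and_l (and_r (and_l (and_r b3))))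
theorem n54 : ¬ TripleMatch 3000000000 (items (st 1100211212111110011111100110000000)) 8 :=
  step (ws := ws) (ts0 := root) h0 (doms := [((st 100211212111110001111100100000000), 7), ((st 1000211212111100011111100100000000), 7), ((st 1100111211111110011111100100000000), 7), ((st 1100211102111110011111100100000000), 7)]) (fuel := 8) (doms_cons n13 (doms_cons n43 (doms_cons n51 (doms_cons n53 doms_nil)))) (and_l (and_r (and_r (and_l (and_r b3)))))
theorem n55 : ¬ TripleMatch 3000000000 (items (st 1100211322111110011111100110100000)) 9 :=
  step (ws := ws) (ts0 := root) h0 (doms := [((st 100211322111110001111100110000000), 8), ((st 1000211322111100011111100110000000), 8), ((st 1100111321111110011111100110000000), 8), ((st 1100211212111110011111100110000000), 8)]) (fuel := 8) (doms_cons n14 (doms_cons n44 (doms_cons n52 (doms_cons n54 doms_nil)))) (and_l (and_r (and_r (and_r (and_l (and_r b3))))))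
theorem n56 : ¬ TripleMatch 3000000000 (items (st 1000011100111111011000000000000000)) 4 :=
  step (ws := ws) (ts0 := root) h0 (doms := []) (fuel := 8) doms_nil (and_l (and_l (and_r (and_r b3))))
theorem n57 : ¬ TripleMatch 3000000000 (items (st 1010011100111111011110000000000000)) 5 :=
  step (ws := ws) (ts0 := root) h0 (doms := [((st 1000011100111111011000000000000000), 4)]) (fuel := 8) (doms_cons n56 doms_nil) (and_l (and_r (and_l (and_r (and_r b3)))))
theorem n58 : ¬ TripleMatch 3000000000 (items (st 1000011100111111010100000000000000)) 4 :=
  step (ws := ws) (ts0 := root) h0 (doms := []) (fuel := 8) doms_nil (and_l (and_r (and_r (and_l (and_r (and_r b3))))))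
theorem n59 : ¬ TripleMatch 3000000000 (items (st 1100011100111111010111000000000000)) 5 :=
  step (ws := ws) (ts0 := root) h0 (doms := [((st 1000011100111111010100000000000000), 4)]) (fuel := 8) (doms_cons n58 doms_nil) (and_l (and_r (and_r (and_r (and_l (and_r (and_r b3)))))))
theorem n60 : ¬ TripleMatch 3000000000 (items (st 1110011100111111011111100000000000)) 6 :=
  step (ws := ws) (ts0 := root) h0 (doms := [((st 1010011100111111011110000000000000), 5), ((st 1100011100111111010111000000000000), 5)]) (fuel := 8) (doms_cons n57 (doms_cons n59 doms_nil)) (and_l (and_l (and_r (and_r (and_r b3)))))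
theorem n61 : ¬ TripleMatch 3000000000 (items (st 1110011210111111011111100100000000)) 7 :=
  step (ws := ws) (ts0 := root) h0 (doms := [((st 110011210111111001111100000000000), 6), ((st 1100011210111110011111100000000000), 6), ((st 1110011100111111011111100000000000), 6)]) (fuel := 8) (doms_cons n23 (doms_cons n47 (doms_cons n60 doms_nil))) (and_l (and_r (and_l (and_r (and_r (and_r b3))))))
theorem n62 : ¬ TripleMatch 3000000000 (items (st 1110011320111111011111100110000000)) 8 :=
  step (ws := ws) (ts0 := root) h0 (doms := [((st 110011320111111001111100100000000), 7), ((st 1100011320111110011111100100000000), 7), ((st 1110011210111111011111100100000000), 7)]) (fuel := 8) (doms_cons n24 (doms_cons n48 (doms_cons n61 doms_nil))) (and_l (and_r (and_r (and_l (and_r (and_r (and_r b3)))))))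
theorem n63 : ¬ TripleMatch 3000000000 (items (st 1110111101111111011111100100000000)) 7 :=
  step (ws := ws) (ts0 := root) h0 (doms := [((st 110111101111111001111100000000000), 6), ((st 1100111101111110011111100000000000), 6), ((st 1110011100111111011111100000000000), 6)]) (fuel := 8) (doms_cons n29 (doms_cons n50 (doms_cons n60 doms_nil))) (and_l (and_r (and_r (and_r (and_l (and_r (and_r (and_r b3))))))))
theorem n64 : ¬ TripleMatch 3000000000 (items (st 1110111211111111011111100110000000)) 8 :=
  step (ws := ws) (ts0 := root) h0 (doms := [((st 110111211111111001111100100000000), 7), ((st 1100111211111110011111100100000000), 7), ((st 1110011210111111011111100100000000), 7), ((st 1110111101111111011111100100000000), 7)]) (fuel := 8) (doms_cons n30 (doms_cons n51 (doms_cons n61 (doms_cons n63 doms_nil)))) (and_l (and_l b4))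
theorem n65 : ¬ TripleMatch 3000000000 (items (st 1110111321111111011111100110100000)) 9 :=
  step (ws := ws) (ts0 := root) h0 (doms := [((st 110111321111111001111100110000000), 8), ((st 1100111321111110011111100110000000), 8), ((st 1110011320111111011111100110000000), 8), ((st 1110111211111111011111100110000000), 8)]) (fuel := 8) (doms_cons n31 (doms_cons n52 (doms_cons n62 (doms_cons n64 doms_nil)))) (and_l (and_r (and_l b4)))
theorem n66 : ¬ TripleMatch 3000000000 (items (st 1110211102111111011111100110000000)) 8 :=
  step (ws := ws) (ts0 := root) h0 (doms := [((st 110211102111111001111100100000000), 7), ((st 1100211102111110011111100100000000), 7), ((st 1110111101111111011111100100000000), 7)]) (fuel := 8) (doms_cons n32 (doms_cons n53 (doms_cons n63 doms_nil))) (and_l (and_r (and_r (and_l b4))))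
theorem n67 : ¬ TripleMatch 3000000000 (items (st 1110211212111111011111100110100000)) 9 :=
  step (ws := ws) (ts0 := root) h0 (doms := [((st 110211212111111001111100110000000), 8), ((st 1100211212111110011111100110000000), 8), ((st 1110111211111111011111100110000000), 8), ((st 1110211102111111011111100110000000), 8)]) (fuel := 8) (doms_cons n33 (doms_cons n54 (doms_cons n64 (doms_cons n66 doms_nil)))) (and_l (and_r (and_r (and_r (and_l b4)))))
theorem n68 : ¬ TripleMatch 3000000000 (items (st 1110211322111111011111100110110000)) 10 :=
  step (ws := ws) (ts0 := root) h0 (doms := [((st 110211322111111001111100110100000), 9), ((st 1100211322111110011111100110100000), 9), ((st 1110111321111111011111100110100000), 9), ((st 1110211212111111011111100110100000), 9)]) (fuel := 8) (doms_cons n34 (doms_cons n55 (doms_cons n65 (doms_cons n67 doms_nil)))) (and_l (and_l (and_r b4)))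
theorem n69 : ¬ TripleMatch 3000000000 (items (st 110211322111111001111100111000000)) 9 :=
  step (ws := ws) (ts0 := root) h0 (doms := [((st 100211322111110001111100110000000), 8), ((st 110111321111111001111100110000000), 8), ((st 110211212111111001111100110000000), 8)]) (fuel := 8) (doms_cons n14 (doms_cons n31 (doms_cons n33 doms_nil))) (and_l (and_r (and_l (and_r b4))))
theorem n70 : ¬ TripleMatch 3000000000 (items (st 1000000011210111100001111100000000000)) 5 :=
  step (ws := ws) (ts0 := root) h0 (doms := []) (fuel := 8) doms_nil (and_l (and_r (and_r (and_l (and_r b4)))))
theorem n71 : ¬ TripleMatch 3000000000 (items (st 1000000011320111100001111100100000000)) 6 :=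
  step (ws := ws) (ts0 := root) h0 (doms := [((st 1000000011210111100001111100000000000), 5)]) (fuel := 8) (doms_cons n70 doms_nil) (and_l (and_r (and_r (and_r (and_l (and_r b4))))))
theorem n72 : ¬ TripleMatch 3000000000 (items (st 1000000111101111100001111100000000000)) 5 :=
  step (ws := ws) (ts0 := root) h0 (doms := []) (fuel := 8) doms_nil (and_l (and_l (and_r (and_r b4))))
theorem n73 : ¬ TripleMatch 3000000000 (items (st 1000000111211111100001111100100000000)) 6 :=
  step (ws := ws) (ts0 := root) h0 (doms := [((st 111211111100001111000000000000), 5), ((st 1000000011210111100001111100000000000), 5), ((st 1000000111101111100001111100000000000), 5)]) (fuel := 8) (doms_cons n0 (doms_cons n70 (doms_cons n72 doms_nil))) (and_l (and_r (and_l (and_r (and_r b4)))))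
theorem n74 : ¬ TripleMatch 3000000000 (items (st 1000000111321111100001111100110000000)) 7 :=
  step (ws := ws) (ts0 := root) h0 (doms := [((st 111321111100001111100000000000), 6), ((st 1000000011320111100001111100100000000), 6), ((st 1000000111211111100001111100100000000), 6)]) (fuel := 8) (doms_cons n1 (doms_cons n71 (doms_cons n73 doms_nil))) (and_l (and_r (and_r (and_l (and_r (and_r b4))))))
theorem n75 : ¬ TripleMatch 3000000000 (items (st 1000000211102111100001111100100000000)) 6 :=
  step (ws := ws) (ts0 := root) h0 (doms := [((st 211102111100001111000000000000), 5), ((st 1000000111101111100001111100000000000), 5)]) (fuel := 8) (doms_cons n2 (doms_cons n72 doms_nil)) (and_l (and_r (and_r (and_r (and_l (and_r (and_r b4)))))))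
theorem n76 : ¬ TripleMatch 3000000000 (items (st 1000000211212111100001111100110000000)) 7 :=
  step (ws := ws) (ts0 := root) h0 (doms := [((st 211212111100001111100000000000), 6), ((st 1000000111211111100001111100100000000), 6), ((st 1000000211102111100001111100100000000), 6)]) (fuel := 8) (doms_cons n3 (doms_cons n73 (doms_cons n75 doms_nil))) (and_l (and_l (and_r (and_r (and_r b4)))))
theorem n77 : ¬ TripleMatch 3000000000 (items (st 1000000211322111100001111100111000000)) 8 :=
  step (ws := ws) (ts0 := root) h0 (doms := [((st 211322111100001111100100000000), 7), ((st 1000000111321111100001111100110000000), 7), ((st 1000000211212111100001111100110000000), 7)]) (fuel := 8) (doms_cons n4 (doms_cons n74 (doms_cons n76 doms_nil))) (and_l (and_r (and_l (and_r (and_r (and_r b4))))))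
theorem n78 : ¬ TripleMatch 3000000000 (items (st 1000100011100111110001111100000000000)) 5 :=
  step (ws := ws) (ts0 := root) h0 (doms := []) (fuel := 8) doms_nil (and_l (and_r (and_r (and_l (and_r (and_r (and_r b4)))))))
theorem n79 : ¬ TripleMatch 3000000000 (items (st 1000100011210111110001111100100000000)) 6 :=
  step (ws := ws) (ts0 := root) h0 (doms := [((st 100011210111110001111000000000000), 5), ((st 1000000011210111100001111100000000000), 5), ((st 1000100011100111110001111100000000000), 5)]) (fuel := 8) (doms_cons n5 (doms_cons n70 (doms_cons n78 doms_nil))) (and_l (and_r (and_r (and_r (and_l (and_r (and_r (and_r b4))))))))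
theorem n80 : ¬ TripleMatch 3000000000 (items (st 1000100011320111110001111100110000000)) 7 :=
  step (ws := ws) (ts0 := root) h0 (doms := [((st 100011320111110001111100000000000), 6), ((st 1000000011320111100001111100100000000), 6), ((st 1000100011210111110001111100100000000), 6)]) (fuel := 8) (doms_cons n6 (doms_cons n71 (doms_cons n79 doms_nil))) (and_l (and_l b5))
theorem n81 : ¬ TripleMatch 3000000000 (items (st 1000100111101111110001111100100000000)) 6 :=
  step (ws := ws) (ts0 := root) h0 (doms := [((st 100111101111110001111000000000000), 5), ((st 1000000111101111100001111100000000000), 5), ((st 1000100011100111110001111100000000000), 5)]) (fuel := 8) (doms_cons n8 (doms_cons n72 (doms_cons n78 doms_nil))) (and_l (and_r (and_l b5)))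
theorem n82 : ¬ TripleMatch 3000000000 (items (st 1000100111211111110001111100110000000)) 7 :=
  step (ws := ws) (ts0 := root) h0 (doms := [((st 100111211111110001111100000000000), 6), ((st 1000000111211111100001111100100000000), 6), ((st 1000100011210111110001111100100000000), 6), ((st 1000100111101111110001111100100000000), 6)]) (fuel := 8) (doms_cons n9 (doms_cons n73 (doms_cons n79 (doms_cons n81 doms_nil)))) (and_l (and_r (and_r (and_l b5))))
theorem n83 : ¬ TripleMatch 3000000000 (items (st 1000100111321111110001111100111000000)) 8 :=
  step (ws := ws) (ts0 := root) h0 (doms := [((st 100111321111110001111100100000000), 7), ((st 1000000111321111100001111100110000000), 7), ((st 1000100011320111110001111100110000000), 7), ((st 1000100111211111110001111100110000000), 7)]) (fuel := 8) (doms_cons n10 (doms_cons n74 (doms_cons n80 (doms_cons n82 doms_nil)))) (and_l (and_r (and_r (and_r (and_l b5)))))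
theorem n84 : ¬ TripleMatch 3000000000 (items (st 1000100211102111110001111100110000000)) 7 :=
  step (ws := ws) (ts0 := root) h0 (doms := [((st 100211102111110001111100000000000), 6), ((st 1000000211102111100001111100100000000), 6), ((st 1000100111101111110001111100100000000), 6)]) (fuel := 8) (doms_cons n12 (doms_cons n75 (doms_cons n81 doms_nil))) (and_l (and_l (and_r b5)))
theorem n85 : ¬ TripleMatch 3000000000 (items (st 1000100211212111110001111100111000000)) 8 :=
  step (ws := ws) (ts0 := root) h0 (doms := [((st 100211212111110001111100100000000), 7), ((st 1000000211212111100001111100110000000), 7), ((st 1000100111211111110001111100110000000), 7), ((st 1000100211102111110001111100110000000), 7)]) (fuel := 8) (doms_cons n13 (doms_cons n76 (doms_cons n82 (doms_cons n84 doms_nil)))) (and_l (and_r (and_l (and_r b5))))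
theorem n86 : ¬ TripleMatch 3000000000 (items (st 1000100211322111110001111100111100000)) 9 :=
  step (ws := ws) (ts0 := root) h0 (doms := [((st 100211322111110001111100110000000), 8), ((st 1000000211322111100001111100111000000), 8), ((st 1000100111321111110001111100111000000), 8), ((st 1000100211212111110001111100111000000), 8)]) (fuel := 8) (doms_cons n14 (doms_cons n77 (doms_cons n83 (doms_cons n85 doms_nil)))) (and_l (and_r (and_r (and_l (and_r b5)))))
theorem n87 : ¬ TripleMatch 3000000000 (items (st 1000110011100111111001111100100000000)) 6 :=
  step (ws := ws) (ts0 := root) h0 (doms := [((st 110011100111111001111000000000000), 5), ((st 1000100011100111110001111100000000000), 5)]) (fuel := 8) (doms_cons n22 (doms_cons n78 doms_nil)) (and_l (and_r (and_r (and_r (and_l (and_r b5))))))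
theorem n88 : ¬ TripleMatch 3000000000 (items (st 1000110011210111111001111100110000000)) 7 :=
  step (ws := ws) (ts0 := root) h0 (doms := [((st 110011210111111001111100000000000), 6), ((st 1000100011210111110001111100100000000), 6), ((st 1000110011100111111001111100100000000), 6)]) (fuel := 8) (doms_cons n23 (doms_cons n79 (doms_cons n87 doms_nil))) (and_l (and_l (and_r (and_r b5))))
theorem n89 : ¬ TripleMatch 3000000000 (items (st 1000110011320111111001111100111000000)) 8 :=
  step (ws := ws) (ts0 := root) h0 (doms := [((st 110011320111111001111100100000000), 7), ((st 1000100011320111110001111100110000000), 7), ((st 1000110011210111111001111100110000000), 7)]) (fuel := 8) (doms_cons n24 (doms_cons n80 (doms_cons n88 doms_nil))) (and_l (and_r (and_l (and_r (and_r b5)))))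
theorem n90 : ¬ TripleMatch 3000000000 (items (st 1000110111101111111001111100110000000)) 7 :=
  step (ws := ws) (ts0 := root) h0 (doms := [((st 110111101111111001111100000000000), 6), ((st 1000100111101111110001111100100000000), 6), ((st 1000110011100111111001111100100000000), 6)]) (fuel := 8) (doms_cons n29 (doms_cons n81 (doms_cons n87 doms_nil))) (and_l (and_r (and_r (and_l (and_r (and_r b5))))))
theorem n91 : ¬ TripleMatch 3000000000 (items (st 1000110111211111111001111100111000000)) 8 :=
  step (ws := ws) (ts0 := root) h0 (doms := [((st 110111211111111001111100100000000), 7), ((st 1000100111211111110001111100110000000), 7), ((st 1000110011210111111001111100110000000), 7), ((st 1000110111101111111001111100110000000), 7)]) (fuel := 8) (doms_cons n30 (doms_cons n82 (doms_cons n88 (doms_cons n90 doms_nil)))) (and_l (and_r (and_r (and_r (and_l (and_r (and_r b5)))))))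
theorem n92 : ¬ TripleMatch 3000000000 (items (st 1000110111321111111001111100111100000)) 9 :=
  step (ws := ws) (ts0 := root) h0 (doms := [((st 110111321111111001111100110000000), 8), ((st 1000100111321111110001111100111000000), 8), ((st 1000110011320111111001111100111000000), 8), ((st 1000110111211111111001111100111000000), 8)]) (fuel := 8) (doms_cons n31 (doms_cons n83 (doms_cons n89 (doms_cons n91 doms_nil)))) (and_l (and_l (and_r (and_r (and_r b5)))))
theorem n93 : ¬ TripleMatch 3000000000 (items (st 1000110211102111111001111100111000000)) 8 :=
  step (ws := ws) (ts0 := root) h0 (doms := [((st 110211102111111001111100100000000), 7), ((st 1000100211102111110001111100110000000), 7), ((st 1000110111101111111001111100110000000), 7)]) (fuel := 8) (doms_cons n32 (doms_cons n84 (doms_cons n90 doms_nil))) (and_l (and_r (and_l (and_r (and_r (and_r b5))))))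
theorem n94 : ¬ TripleMatch 3000000000 (items (st 1000110211212111111001111100111100000)) 9 :=
  step (ws := ws) (ts0 := root) h0 (doms := [((st 110211212111111001111100110000000), 8), ((st 1000100211212111110001111100111000000), 8), ((st 1000110111211111111001111100111000000), 8), ((st 1000110211102111111001111100111000000), 8)]) (fuel := 8) (doms_cons n33 (doms_cons n85 (doms_cons n91 (doms_cons n93 doms_nil)))) (and_l (and_r (and_r (and_l (and_r (and_r (and_r b5)))))))
theorem n95 : ¬ TripleMatch 3000000000 (items (st 1000110211322111111001111100111110000)) 10 :=
  step (ws := ws) (ts0 := root) h0 (doms := [((st 110211322111111001111100111000000), 9), ((st 1000100211322111110001111100111100000), 9), ((st 1000110111321111111001111100111100000), 9), ((st 1000110211212111111001111100111100000), 9)]) (fuel := 8) (doms_cons n69 (doms_cons n86 (doms_cons n92 (doms_cons n94 doms_nil)))) (and_l (and_r (and_r (and_r (and_l (and_r (and_r (and_r b5))))))))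
theorem n96 : ¬ TripleMatch 3000000000 (items (st 1100211322111110011111100111000000)) 9 :=
  step (ws := ws) (ts0 := root) h0 (doms := [((st 100211322111110001111100110000000), 8), ((st 1000211322111100011111100110000000), 8), ((st 1100111321111110011111100110000000), 8), ((st 1100211212111110011111100110000000), 8)]) (fuel := 8) (doms_cons n14 (doms_cons n44 (doms_cons n52 (doms_cons n54 doms_nil)))) (and_l (and_l b6))
theorem n97 : ¬ TripleMatch 3000000000 (items (st 1001000011100111100011111100000000000)) 5 :=
  step (ws := ws) (ts0 := root) h0 (doms := []) (fuel := 8) doms_nil (and_l (and_r (and_l b6)))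
theorem n98 : ¬ TripleMatch 3000000000 (items (st 1001000011210111100011111100100000000)) 6 :=
  step (ws := ws) (ts0 := root) h0 (doms := [((st 1000011210111100011111000000000000), 5), ((st 1000000011210111100001111100000000000), 5), ((st 1001000011100111100011111100000000000), 5)]) (fuel := 8) (doms_cons n35 (doms_cons n70 (doms_cons n97 doms_nil))) (and_l (and_r (and_r (and_l b6))))
theorem n99 : ¬ TripleMatch 3000000000 (items (st 1001000011320111100011111100110000000)) 7 :=
  step (ws := ws) (ts0 := root) h0 (doms := [((st 1000011320111100011111100000000000), 6), ((st 1000000011320111100001111100100000000), 6), ((st 1001000011210111100011111100100000000), 6)]) (fuel := 8) (doms_cons n36 (doms_cons n71 (doms_cons n98 doms_nil))) (and_l (and_r (and_r (and_r (and_l b6)))))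
theorem n100 : ¬ TripleMatch 3000000000 (items (st 1001000111101111100011111100100000000)) 6 :=
  step (ws := ws) (ts0 := root) h0 (doms := [((st 1000111101111100011111000000000000), 5), ((st 1000000111101111100001111100000000000), 5), ((st 1001000011100111100011111100000000000), 5)]) (fuel := 8) (doms_cons n38 (doms_cons n72 (doms_cons n97 doms_nil))) (and_l (and_l (and_r b6)))
theorem n101 : ¬ TripleMatch 3000000000 (items (st 1001000111211111100011111100110000000)) 7 :=
  step (ws := ws) (ts0 := root) h0 (doms := [((st 1000111211111100011111100000000000), 6), ((st 1000000111211111100001111100100000000), 6), ((st 1001000011210111100011111100100000000), 6), ((st 1001000111101111100011111100100000000), 6)]) (fuel := 8) (doms_cons n39 (doms_cons n73 (doms_cons n98 (doms_cons n100 doms_nil)))) (and_l (and_r (and_l (and_r b6))))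
theorem n102 : ¬ TripleMatch 3000000000 (items (st 1001000111321111100011111100111000000)) 8 :=
  step (ws := ws) (ts0 := root) h0 (doms := [((st 1000111321111100011111100100000000), 7), ((st 1000000111321111100001111100110000000), 7), ((st 1001000011320111100011111100110000000), 7), ((st 1001000111211111100011111100110000000), 7)]) (fuel := 8) (doms_cons n40 (doms_cons n74 (doms_cons n99 (doms_cons n101 doms_nil)))) (and_l (and_r (and_r (and_l (and_r b6)))))
theorem n103 : ¬ TripleMatch 3000000000 (items (st 1001000211102111100011111100110000000)) 7 :=
  step (ws := ws) (ts0 := root) h0 (doms := [((st 1000211102111100011111100000000000), 6), ((st 1000000211102111100001111100100000000), 6), ((st 1001000111101111100011111100100000000), 6)]) (fuel := 8) (doms_cons n42 (doms_cons n75 (doms_cons n100 doms_nil))) (and_l (and_r (and_r (and_r (and_l (and_r b6))))))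
theorem n104 : ¬ TripleMatch 3000000000 (items (st 1001000211212111100011111100111000000)) 8 :=
  step (ws := ws) (ts0 := root) h0 (doms := [((st 1000211212111100011111100100000000), 7), ((st 1000000211212111100001111100110000000), 7), ((st 1001000111211111100011111100110000000), 7), ((st 1001000211102111100011111100110000000), 7)]) (fuel := 8) (doms_cons n43 (doms_cons n76 (doms_cons n101 (doms_cons n103 doms_nil)))) (and_l (and_l (and_r (and_r b6))))
theorem n105 : ¬ TripleMatch 3000000000 (items (st 1001000211322111100011111100111100000)) 9 :=
  step (ws := ws) (ts0 := root) h0 (doms := [((st 1000211322111100011111100110000000), 8), ((st 1000000211322111100001111100111000000), 8), ((st 1001000111321111100011111100111000000), 8), ((st 1001000211212111100011111100111000000), 8)]) (fuel := 8) (doms_cons n44 (doms_cons n77 (doms_cons n102 (doms_cons n104 doms_nil)))) (and_l (and_r (and_l (and_r (and_r b6)))))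
theorem n106 : ¬ TripleMatch 3000000000 (items (st 1001100011100111110011111100100000000)) 6 :=
  step (ws := ws) (ts0 := root) h0 (doms := [((st 1100011100111110011111000000000000), 5), ((st 1000100011100111110001111100000000000), 5), ((st 1001000011100111100011111100000000000), 5)]) (fuel := 8) (doms_cons n46 (doms_cons n78 (doms_cons n97 doms_nil))) (and_l (and_r (and_r (and_l (and_r (and_r b6))))))
theorem n107 : ¬ TripleMatch 3000000000 (items (st 1001100011210111110011111100110000000)) 7 :=
  step (ws := ws) (ts0 := root) h0 (doms := [((st 1100011210111110011111100000000000), 6), ((st 1000100011210111110001111100100000000), 6), ((st 1001000011210111100011111100100000000), 6), ((st 1001100011100111110011111100100000000), 6)]) (fuel := 8) (doms_cons n47 (doms_cons n79 (doms_cons n98 (doms_cons n106 doms_nil)))) (and_l (and_r (and_r (and_r (and_l (and_r (and_r b6)))))))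
theorem n108 : ¬ TripleMatch 3000000000 (items (st 1001100011320111110011111100111000000)) 8 :=
  step (ws := ws) (ts0 := root) h0 (doms := [((st 1100011320111110011111100100000000), 7), ((st 1000100011320111110001111100110000000), 7), ((st 1001000011320111100011111100110000000), 7), ((st 1001100011210111110011111100110000000), 7)]) (fuel := 8) (doms_cons n48 (doms_cons n80 (doms_cons n99 (doms_cons n107 doms_nil)))) (and_l (and_l (and_r (and_r (and_r b6)))))
theorem n109 : ¬ TripleMatch 3000000000 (items (st 1001100111101111110011111100110000000)) 7 :=
  step (ws := ws) (ts0 := root) h0 (doms := [((st 1100111101111110011111100000000000), 6), ((st 1000100111101111110001111100100000000), 6), ((st 1001000111101111100011111100100000000), 6), ((st 1001100011100111110011111100100000000), 6)]) (fuel := 8) (doms_cons n50 (doms_cons n81 (doms_cons n100 (doms_cons n106 doms_nil)))) (and_l (and_r (and_l (and_r (and_r (and_r b6))))))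
theorem n110 : ¬ TripleMatch 3000000000 (items (st 1001100111211111110011111100111000000)) 8 :=
  step (ws := ws) (ts0 := root) h0 (doms := [((st 1100111211111110011111100100000000), 7), ((st 1000100111211111110001111100110000000), 7), ((st 1001000111211111100011111100110000000), 7), ((st 1001100011210111110011111100110000000), 7), ((st 1001100111101111110011111100110000000), 7)]) (fuel := 8) (doms_cons n51 (doms_cons n82 (doms_cons n101 (doms_cons n107 (doms_cons n109 doms_nil))))) (and_l (and_r (and_r (and_l (and_r (and_r (and_r b6)))))))
theorem n111 : ¬ TripleMatch 3000000000 (items (st 1001100111321111110011111100111100000)) 9 :=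
  step (ws := ws) (ts0 := root) h0 (doms := [((st 1100111321111110011111100110000000), 8), ((st 1000100111321111110001111100111000000), 8), ((st 1001000111321111100011111100111000000), 8), ((st 1001100011320111110011111100111000000), 8), ((st 1001100111211111110011111100111000000), 8)]) (fuel := 8) (doms_cons n52 (doms_cons n83 (doms_cons n102 (doms_cons n108 (doms_cons n110 doms_nil))))) (and_l (and_r (and_r (and_r (and_l (and_r (and_r (and_r b6))))))))
theorem n112 : ¬ TripleMatch 3000000000 (items (st 1001100211102111110011111100111000000)) 8 :=
  step (ws := ws) (ts0 := root) h0 (doms := [((st 1100211102111110011111100100000000), 7), ((st 1000100211102111110001111100110000000), 7), ((st 1001000211102111100011111100110000000), 7), ((st 1001100111101111110011111100110000000), 7)]) (fuel := 8) (doms_cons n53 (doms_cons n84 (doms_cons n103 (doms_cons n109 doms_nil)))) (and_l (and_l b7))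
theorem n113 : ¬ TripleMatch 3000000000 (items (st 1001100211212111110011111100111100000)) 9 :=
  step (ws := ws) (ts0 := root) h0 (doms := [((st 1100211212111110011111100110000000), 8), ((st 1000100211212111110001111100111000000), 8), ((st 1001000211212111100011111100111000000), 8), ((st 1001100111211111110011111100111000000), 8), ((st 1001100211102111110011111100111000000), 8)]) (fuel := 8) (doms_cons n54 (doms_cons n85 (doms_cons n104 (doms_cons n110 (doms_cons n112 doms_nil))))) (and_l (and_r (and_l b7)))
theorem n114 : ¬ TripleMatch 3000000000 (items (st 1001100211322111110011111100111110000)) 10 :=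
  step (ws := ws) (ts0 := root) h0 (doms := [((st 1100211322111110011111100111000000), 9), ((st 1000100211322111110001111100111100000), 9), ((st 1001000211322111100011111100111100000), 9), ((st 1001100111321111110011111100111100000), 9), ((st 1001100211212111110011111100111100000), 9)]) (fuel := 8) (doms_cons n96 (doms_cons n86 (doms_cons n105 (doms_cons n111 (doms_cons n113 doms_nil))))) (and_l (and_r (and_r (and_l b7))))
theorem n115 : ¬ TripleMatch 3000000000 (items (st 1110111321111111011111100111000000)) 9 :=
  step (ws := ws) (ts0 := root) h0 (doms := [((st 110111321111111001111100110000000), 8), ((st 1100111321111110011111100110000000), 8), ((st 1110011320111111011111100110000000), 8), ((st 1110111211111111011111100110000000), 8)]) (fuel := 8) (doms_cons n31 (doms_cons n52 (doms_cons n62 (doms_cons n64 doms_nil)))) (and_l (and_r (and_r (and_r (and_l b7)))))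
theorem n116 : ¬ TripleMatch 3000000000 (items (st 1001110011100111111011111100110000000)) 7 :=
  step (ws := ws) (ts0 := root) h0 (doms := [((st 1110011100111111011111100000000000), 6), ((st 1000110011100111111001111100100000000), 6), ((st 1001100011100111110011111100100000000), 6)]) (fuel := 8) (doms_cons n60 (doms_cons n87 (doms_cons n106 doms_nil))) (and_l (and_l (and_r b7)))
theorem n117 : ¬ TripleMatch 3000000000 (items (st 1001110011210111111011111100111000000)) 8 :=
  step (ws := ws) (ts0 := root) h0 (doms := [((st 1110011210111111011111100100000000), 7), ((st 1000110011210111111001111100110000000), 7), ((st 1001100011210111110011111100110000000), 7), ((st 1001110011100111111011111100110000000), 7)]) (fuel := 8) (doms_cons n61 (doms_cons n88 (doms_cons n107 (doms_cons n116 doms_nil)))) (and_l (and_r (and_l (and_r b7))))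
theorem n118 : ¬ TripleMatch 3000000000 (items (st 1001110011320111111011111100111100000)) 9 :=
  step (ws := ws) (ts0 := root) h0 (doms := [((st 1110011320111111011111100110000000), 8), ((st 1000110011320111111001111100111000000), 8), ((st 1001100011320111110011111100111000000), 8), ((st 1001110011210111111011111100111000000), 8)]) (fuel := 8) (doms_cons n62 (doms_cons n89 (doms_cons n108 (doms_cons n117 doms_nil)))) (and_l (and_r (and_r (and_l (and_r b7)))))
theorem n119 : ¬ TripleMatch 3000000000 (items (st 1001110111101111111011111100111000000)) 8 :=
  step (ws := ws) (ts0 := root) h0 (doms := [((st 1110111101111111011111100100000000), 7), ((st 1000110111101111111001111100110000000), 7), ((st 1001100111101111110011111100110000000), 7), ((st 1001110011100111111011111100110000000), 7)]) (fuel := 8) (doms_cons n63 (doms_cons n90 (doms_cons n109 (doms_cons n116 doms_nil)))) (and_l (and_r (and_r (and_r (and_l (and_r b7))))))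
theorem n120 : ¬ TripleMatch 3000000000 (items (st 1001110111211111111011111100111100000)) 9 :=
  step (ws := ws) (ts0 := root) h0 (doms := [((st 1110111211111111011111100110000000), 8), ((st 1000110111211111111001111100111000000), 8), ((st 1001100111211111110011111100111000000), 8), ((st 1001110011210111111011111100111000000), 8), ((st 1001110111101111111011111100111000000), 8)]) (fuel := 8) (doms_cons n64 (doms_cons n91 (doms_cons n110 (doms_cons n117 (doms_cons n119 doms_nil))))) (and_l (and_l (and_r (and_r b7))))
theorem n121 : ¬ TripleMatch 3000000000 (items (st 1001110111321111111011111100111110000)) 10 :=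
  step (ws := ws) (ts0 := root) h0 (doms := [((st 1110111321111111011111100111000000), 9), ((st 1000110111321111111001111100111100000), 9), ((st 1001100111321111110011111100111100000), 9), ((st 1001110011320111111011111100111100000), 9), ((st 1001110111211111111011111100111100000), 9)]) (fuel := 8) (doms_cons n115 (doms_cons n92 (doms_cons n111 (doms_cons n118 (doms_cons n120 doms_nil))))) (and_l (and_r (and_l (and_r (and_r b7)))))
theorem n122 : ¬ TripleMatch 3000000000 (items (st 1110211212111111011111100111000000)) 9 :=
  step (ws := ws) (ts0 := root) h0 (doms := [((st 110211212111111001111100110000000), 8), ((st 1100211212111110011111100110000000), 8), ((st 1110111211111111011111100110000000), 8), ((st 1110211102111111011111100110000000), 8)]) (fuel := 8) (doms_cons n33 (doms_cons n54 (doms_cons n64 (doms_cons n66 doms_nil)))) (and_l (and_r (and_r (and_l (and_r (and_r b7))))))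
theorem n123 : ¬ TripleMatch 3000000000 (items (st 1001110211102111111011111100111100000)) 9 :=
  step (ws := ws) (ts0 := root) h0 (doms := [((st 1110211102111111011111100110000000), 8), ((st 1000110211102111111001111100111000000), 8), ((st 1001100211102111110011111100111000000), 8), ((st 1001110111101111111011111100111000000), 8)]) (fuel := 8) (doms_cons n66 (doms_cons n93 (doms_cons n112 (doms_cons n119 doms_nil)))) (and_l (and_r (and_r (and_r (and_l (and_r (and_r b7)))))))
theorem n124 : ¬ TripleMatch 3000000000 (items (st 1001110211212111111011111100111110000)) 10 :=
  step (ws := ws) (ts0 := root) h0 (doms := [((st 1110211212111111011111100111000000), 9), ((st 1000110211212111111001111100111100000), 9), ((st 1001100211212111110011111100111100000), 9), ((st 1001110111211111111011111100111100000), 9), ((st 1001110211102111111011111100111100000), 9)]) (fuel := 8) (doms_cons n122 (doms_cons n94 (doms_cons n113 (doms_cons n120 (doms_cons n123 doms_nil))))) (and_l (and_l (and_r (and_r (and_r b7)))))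
theorem n125 : ¬ TripleMatch 3000000000 (items (st 1001110211322111111011111100111111000)) 11 :=
  step (ws := ws) (ts0 := root) h0 (doms := [((st 1110211322111111011111100110110000), 10), ((st 1000110211322111111001111100111110000), 10), ((st 1001100211322111110011111100111110000), 10), ((st 1001110111321111111011111100111110000), 10), ((st 1001110211212111111011111100111110000), 10)]) (fuel := 8) (doms_cons n68 (doms_cons n95 (doms_cons n114 (doms_cons n121 (doms_cons n124 doms_nil))))) (and_l (and_r (and_l (and_r (and_r (and_r b7))))))
theorem n126 : ¬ TripleMatch 3000000000 (items (st 211322111100001111110000000000)) 7 :=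
  step (ws := ws) (ts0 := root) h0 (doms := [((st 111321111100001111100000000000), 6), ((st 211212111100001111100000000000), 6)]) (fuel := 8) (doms_cons n1 (doms_cons n3 doms_nil)) (and_l (and_r (and_r (and_l (and_r (and_r (and_r b7)))))))
theorem n127 : ¬ TripleMatch 3000000000 (items (st 111321111110001110100000000000)) 6 :=
  step (ws := ws) (ts0 := root) h0 (doms := [((st 111211111110001110000000000000), 5)]) (fuel := 8) (doms_cons n7 doms_nil) (and_l (and_r (and_r (and_r (and_l (and_r (and_r (and_r b7))))))))
theorem n128 : ¬ TripleMatch 3000000000 (items (st 100111321111110001111110000000000)) 7 :=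
  step (ws := ws) (ts0 := root) h0 (doms := [((st 111321111110001110100000000000), 6), ((st 100011320111110001111100000000000), 6), ((st 100111211111110001111100000000000), 6)]) (fuel := 8) (doms_cons n127 (doms_cons n6 (doms_cons n9 doms_nil))) (and_l (and_l b8))
theorem n129 : ¬ TripleMatch 3000000000 (items (st 211212111110001110100000000000)) 6 :=
  step (ws := ws) (ts0 := root) h0 (doms := [((st 111211111110001110000000000000), 5), ((st 211102111110001110000000000000), 5)]) (fuel := 8) (doms_cons n7 (doms_cons n11 doms_nil)) (and_l (and_r (and_l b8)))
theorem n130 : ¬ TripleMatch 3000000000 (items (st 100211212111110001111110000000000)) 7 :=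
  step (ws := ws) (ts0 := root) h0 (doms := [((st 211212111110001110100000000000), 6), ((st 100111211111110001111100000000000), 6), ((st 100211102111110001111100000000000), 6)]) (fuel := 8) (doms_cons n129 (doms_cons n9 (doms_cons n12 doms_nil))) (and_l (and_r (and_r (and_l b8))))
theorem n131 : ¬ TripleMatch 3000000000 (items (st 100211322111110001111110100000000)) 8 :=
  step (ws := ws) (ts0 := root) h0 (doms := [((st 211322111100001111110000000000), 7), ((st 100111321111110001111110000000000), 7), ((st 100211212111110001111110000000000), 7)]) (fuel := 8) (doms_cons n126 (doms_cons n128 (doms_cons n130 doms_nil))) (and_l (and_r (and_r (and_r (and_l b8)))))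
theorem n132 : ¬ TripleMatch 3000000000 (items (st 11320111111000110000000000000)) 5 :=
  step (ws := ws) (ts0 := root) h0 (doms := [((st 11210111111000100000000000000), 4)]) (fuel := 8) (doms_cons n18 doms_nil) (and_l (and_l (and_r b8)))
theorem n133 : ¬ TripleMatch 3000000000 (items (st 10011320111111001110100000000000)) 6 :=
  step (ws := ws) (ts0 := root) h0 (doms := [((st 11320111111000110000000000000), 5), ((st 10011210111111001110000000000000), 5)]) (fuel := 8) (doms_cons n132 (doms_cons n17 doms_nil)) (and_l (and_r (and_l (and_r b8))))
theorem n134 : ¬ TripleMatch 3000000000 (items (st 100011320111111000111100000000000)) 6 :=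
  step (ws := ws) (ts0 := root) h0 (doms := [((st 11320111111000110000000000000), 5), ((st 100011210111111000111000000000000), 5)]) (fuel := 8) (doms_cons n132 (doms_cons n20 doms_nil)) (and_l (and_r (and_r (and_l (and_r b8)))))
theorem n135 : ¬ TripleMatch 3000000000 (items (st 110011320111111001111110000000000)) 7 :=
  step (ws := ws) (ts0 := root) h0 (doms := [((st 10011320111111001110100000000000), 6), ((st 100011320111111000111100000000000), 6), ((st 110011210111111001111100000000000), 6)]) (fuel := 8) (doms_cons n133 (doms_cons n134 (doms_cons n23 doms_nil))) (and_l (and_r (and_r (and_r (and_l (and_r b8))))))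
theorem n136 : ¬ TripleMatch 3000000000 (items (st 111211111111000110000000000000)) 5 :=
  step (ws := ws) (ts0 := root) h0 (doms := [((st 11210111111000100000000000000), 4), ((st 111101111111000100000000000000), 4)]) (fuel := 8) (doms_cons n18 (doms_cons n27 doms_nil)) (and_l (and_l (and_r (and_r b8))))
theorem n137 : ¬ TripleMatch 3000000000 (items (st 10111211111111001110100000000000)) 6 :=
  step (ws := ws) (ts0 := root) h0 (doms := [((st 111211111111000110000000000000), 5), ((st 10011210111111001110000000000000), 5), ((st 10111101111111001110000000000000), 5)]) (fuel := 8) (doms_cons n136 (doms_cons n17 (doms_cons n26 doms_nil))) (and_l (and_r (and_l (and_r (and_r b8)))))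
theorem n138 : ¬ TripleMatch 3000000000 (items (st 100111211111111000111100000000000)) 6 :=
  step (ws := ws) (ts0 := root) h0 (doms := [((st 111211111111000110000000000000), 5), ((st 100011210111111000111000000000000), 5), ((st 100111101111111000111000000000000), 5)]) (fuel := 8) (doms_cons n136 (doms_cons n20 (doms_cons n28 doms_nil))) (and_l (and_r (and_r (and_l (and_r (and_r b8))))))
theorem n139 : ¬ TripleMatch 3000000000 (items (st 110111211111111001111110000000000)) 7 :=
  step (ws := ws) (ts0 := root) h0 (doms := [((st 10111211111111001110100000000000), 6), ((st 100111211111111000111100000000000), 6), ((st 110011210111111001111100000000000), 6), ((st 110111101111111001111100000000000), 6)]) (fuel := 8) (doms_cons n137 (doms_cons n138 (doms_cons n23 (doms_cons n29 doms_nil)))) (and_l (and_r (and_r (and_r (and_l (and_r (and_r b8)))))))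
theorem n140 : ¬ TripleMatch 3000000000 (items (st 110111321111111001111110100000000)) 8 :=
  step (ws := ws) (ts0 := root) h0 (doms := [((st 100111321111110001111110000000000), 7), ((st 110011320111111001111110000000000), 7), ((st 110111211111111001111110000000000), 7)]) (fuel := 8) (doms_cons n128 (doms_cons n135 (doms_cons n139 doms_nil))) (and_l (and_l (and_r (and_r (and_r b8)))))
theorem n141 : ¬ TripleMatch 3000000000 (items (st 211102111111000110000000000000)) 5 :=
  step (ws := ws) (ts0 := root) h0 (doms := [((st 111101111111000100000000000000), 4)]) (fuel := 8) (doms_cons n27 doms_nil) (and_l (and_r (and_l (and_r (and_r (and_r b8))))))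
theorem n142 : ¬ TripleMatch 3000000000 (items (st 10211102111111001110100000000000)) 6 :=
  step (ws := ws) (ts0 := root) h0 (doms := [((st 211102111111000110000000000000), 5), ((st 10111101111111001110000000000000), 5)]) (fuel := 8) (doms_cons n141 (doms_cons n26 doms_nil)) (and_l (and_r (and_r (and_l (and_r (and_r (and_r b8)))))))
theorem n143 : ¬ TripleMatch 3000000000 (items (st 100211102111111000111100000000000)) 6 :=
  step (ws := ws) (ts0 := root) h0 (doms := [((st 211102111111000110000000000000), 5), ((st 100111101111111000111000000000000), 5)]) (fuel := 8) (doms_cons n141 (doms_cons n28 doms_nil)) (and_l (and_r (and_r (and_r (and_l (and_r (and_r (and_r b8))))))))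
theorem n144 : ¬ TripleMatch 3000000000 (items (st 110211102111111001111110000000000)) 7 :=
  step (ws := ws) (ts0 := root) h0 (doms := [((st 10211102111111001110100000000000), 6), ((st 100211102111111000111100000000000), 6), ((st 110111101111111001111100000000000), 6)]) (fuel := 8) (doms_cons n142 (doms_cons n143 (doms_cons n29 doms_nil))) (and_l (and_l b9))
theorem n145 : ¬ TripleMatch 3000000000 (items (st 110211212111111001111110100000000)) 8 :=
  step (ws := ws) (ts0 := root) h0 (doms := [((st 100211212111110001111110000000000), 7), ((st 110111211111111001111110000000000), 7), ((st 110211102111111001111110000000000), 7)]) (fuel := 8) (doms_cons n130 (doms_cons n139 (doms_cons n144 doms_nil))) (and_l (and_r (and_l b9)))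
theorem n146 : ¬ TripleMatch 3000000000 (items (st 110211322111111001111110100100000)) 9 :=
  step (ws := ws) (ts0 := root) h0 (doms := [((st 100211322111110001111110100000000), 8), ((st 110111321111111001111110100000000), 8), ((st 110211212111111001111110100000000), 8)]) (fuel := 8) (doms_cons n131 (doms_cons n140 (doms_cons n145 doms_nil))) (and_l (and_r (and_r (and_l b9))))
theorem n147 : ¬ TripleMatch 3000000000 (items (st 100000011210111100001111100000000000)) 5 :=
  step (ws := ws) (ts0 := root) h0 (doms := []) (fuel := 8) doms_nil (and_l (and_r (and_r (and_r (and_l b9)))))
theorem n148 : ¬ TripleMatch 3000000000 (items (st 100000011320111100001111110000000000)) 6 :=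
  step (ws := ws) (ts0 := root) h0 (doms := [((st 100000011210111100001111100000000000), 5)]) (fuel := 8) (doms_cons n147 doms_nil) (and_l (and_l (and_r b9)))
theorem n149 : ¬ TripleMatch 3000000000 (items (st 100000111101111100001111100000000000)) 5 :=
  step (ws := ws) (ts0 := root) h0 (doms := []) (fuel := 8) doms_nil (and_l (and_r (and_l (and_r b9))))
theorem n150 : ¬ TripleMatch 3000000000 (items (st 100000111211111100001111110000000000)) 6 :=
  step (ws := ws) (ts0 := root) h0 (doms := [((st 111211111100001111000000000000), 5), ((st 100000011210111100001111100000000000), 5), ((st 100000111101111100001111100000000000), 5)]) (fuel := 8) (doms_cons n0 (doms_cons n147 (doms_cons n149 doms_nil))) (and_l (and_r (and_r (and_l (and_r b9)))))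
theorem n151 : ¬ TripleMatch 3000000000 (items (st 100000111321111100001111110100000000)) 7 :=
  step (ws := ws) (ts0 := root) h0 (doms := [((st 111321111100001111100000000000), 6), ((st 100000011320111100001111110000000000), 6), ((st 100000111211111100001111110000000000), 6)]) (fuel := 8) (doms_cons n1 (doms_cons n148 (doms_cons n150 doms_nil))) (and_l (and_r (and_r (and_r (and_l (and_r b9))))))
theorem n152 : ¬ TripleMatch 3000000000 (items (st 100000211102111100001111110000000000)) 6 :=
  step (ws := ws) (ts0 := root) h0 (doms := [((st 211102111100001111000000000000), 5), ((st 100000111101111100001111100000000000), 5)]) (fuel := 8) (doms_cons n2 (doms_cons n149 doms_nil)) (and_l (and_l (and_r (and_r b9))))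
theorem n153 : ¬ TripleMatch 3000000000 (items (st 100000211212111100001111110100000000)) 7 :=
  step (ws := ws) (ts0 := root) h0 (doms := [((st 211212111100001111100000000000), 6), ((st 100000111211111100001111110000000000), 6), ((st 100000211102111100001111110000000000), 6)]) (fuel := 8) (doms_cons n3 (doms_cons n150 (doms_cons n152 doms_nil))) (and_l (and_r (and_l (and_r (and_r b9)))))
theorem n154 : ¬ TripleMatch 3000000000 (items (st 100000211322111100001111110110000000)) 8 :=
  step (ws := ws) (ts0 := root) h0 (doms := [((st 211322111100001111110000000000), 7), ((st 100000111321111100001111110100000000), 7), ((st 100000211212111100001111110100000000), 7)]) (fuel := 8) (doms_cons n126 (doms_cons n151 (doms_cons n153 doms_nil))) (and_l (and_r (and_r (and_l (and_r (and_r b9))))))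
theorem n155 : ¬ TripleMatch 3000000000 (items (st 100000011210111110001110100000000000)) 5 :=
  step (ws := ws) (ts0 := root) h0 (doms := []) (fuel := 8) doms_nil (and_l (and_r (and_r (and_r (and_l (and_r (and_r b9)))))))
theorem n156 : ¬ TripleMatch 3000000000 (items (st 100100011100111110001111100000000000)) 5 :=
  step (ws := ws) (ts0 := root) h0 (doms := []) (fuel := 8) doms_nil (and_l (and_l (and_r (and_r (and_r b9)))))
theorem n157 : ¬ TripleMatch 3000000000 (items (st 100100011210111110001111110000000000)) 6 :=
  step (ws := ws) (ts0 := root) h0 (doms := [((st 100011210111110001111000000000000), 5), ((st 100000011210111110001110100000000000), 5), ((st 100100011100111110001111100000000000), 5)]) (fuel := 8) (doms_cons n5 (doms_cons n155 (doms_cons n156 doms_nil))) (and_l (and_r (and_l (and_r (and_r (and_r b9))))))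
theorem n158 : ¬ TripleMatch 3000000000 (items (st 100100011320111110001111110100000000)) 7 :=
  step (ws := ws) (ts0 := root) h0 (doms := [((st 100011320111110001111100000000000), 6), ((st 100000011320111100001111110000000000), 6), ((st 100100011210111110001111110000000000), 6)]) (fuel := 8) (doms_cons n6 (doms_cons n148 (doms_cons n157 doms_nil))) (and_l (and_r (and_r (and_l (and_r (and_r (and_r b9)))))))
theorem n159 : ¬ TripleMatch 3000000000 (items (st 100000111101111110001110100000000000)) 5 :=
  step (ws := ws) (ts0 := root) h0 (doms := []) (fuel := 8) doms_nil (and_l (and_r (and_r (and_r (and_l (and_r (and_r (and_r b9))))))))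
theorem n160 : ¬ TripleMatch 3000000000 (items (st 100100111101111110001111110000000000)) 6 :=
  step (ws := ws) (ts0 := root) h0 (doms := [((st 100111101111110001111000000000000), 5), ((st 100000111101111110001110100000000000), 5), ((st 100100011100111110001111100000000000), 5)]) (fuel := 8) (doms_cons n8 (doms_cons n159 (doms_cons n156 doms_nil))) (and_l (and_l b10))
theorem n161 : ¬ TripleMatch 3000000000 (items (st 100100111211111110001111110100000000)) 7 :=
  step (ws := ws) (ts0 := root) h0 (doms := [((st 100111211111110001111100000000000), 6), ((st 100000111211111100001111110000000000), 6), ((st 100100011210111110001111110000000000), 6), ((st 100100111101111110001111110000000000), 6)]) (fuel := 8) (doms_cons n9 (doms_cons n150 (doms_cons n157 (doms_cons n160 doms_nil)))) (and_l (and_r (and_l b10)))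
theorem n162 : ¬ TripleMatch 3000000000 (items (st 100100111321111110001111110110000000)) 8 :=
  step (ws := ws) (ts0 := root) h0 (doms := [((st 100111321111110001111110000000000), 7), ((st 100000111321111100001111110100000000), 7), ((st 100100011320111110001111110100000000), 7), ((st 100100111211111110001111110100000000), 7)]) (fuel := 8) (doms_cons n128 (doms_cons n151 (doms_cons n158 (doms_cons n161 doms_nil)))) (and_l (and_r (and_r (and_l b10))))
theorem n163 : ¬ TripleMatch 3000000000 (items (st 100100211102111110001111110100000000)) 7 :=
  step (ws := ws) (ts0 := root) h0 (doms := [((st 100211102111110001111100000000000), 6), ((st 100000211102111100001111110000000000), 6), ((st 100100111101111110001111110000000000), 6)]) (fuel := 8) (doms_cons n12 (doms_cons n152 (doms_cons n160 doms_nil))) (and_l (and_r (and_r (and_r (and_l b10)))))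
theorem n164 : ¬ TripleMatch 3000000000 (items (st 100100211212111110001111110110000000)) 8 :=
  step (ws := ws) (ts0 := root) h0 (doms := [((st 100211212111110001111110000000000), 7), ((st 100000211212111100001111110100000000), 7), ((st 100100111211111110001111110100000000), 7), ((st 100100211102111110001111110100000000), 7)]) (fuel := 8) (doms_cons n130 (doms_cons n153 (doms_cons n161 (doms_cons n163 doms_nil)))) (and_l (and_l (and_r b10)))
theorem n165 : ¬ TripleMatch 3000000000 (items (st 100100211322111110001111110110100000)) 9 :=
  step (ws := ws) (ts0 := root) h0 (doms := [((st 100211322111110001111110100000000), 8), ((st 100000211322111100001111110110000000), 8), ((st 100100111321111110001111110110000000), 8), ((st 100100211212111110001111110110000000), 8)]) (fuel := 8) (doms_cons n131 (doms_cons n154 (doms_cons n162 (doms_cons n164 doms_nil)))) (and_l (and_r (and_l (and_r b10))))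
theorem n166 : ¬ TripleMatch 3000000000 (items (st 100000011100111111000110000000000000)) 4 :=
  step (ws := ws) (ts0 := root) h0 (doms := []) (fuel := 8) doms_nil (and_l (and_r (and_r (and_l (and_r b10)))))
theorem n167 : ¬ TripleMatch 3000000000 (items (st 100010011100111111001110100000000000)) 5 :=
  step (ws := ws) (ts0 := root) h0 (doms := [((st 10011100111111001100000000000000), 4), ((st 100000011100111111000110000000000000), 4)]) (fuel := 8) (doms_cons n16 (doms_cons n166 doms_nil)) (and_l (and_r (and_r (and_r (and_l (and_r b10))))))
theorem n168 : ¬ TripleMatch 3000000000 (items (st 100100011100111111000111100000000000)) 5 :=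
  step (ws := ws) (ts0 := root) h0 (doms := [((st 100000011100111111000110000000000000), 4)]) (fuel := 8) (doms_cons n166 doms_nil) (and_l (and_l (and_r (and_r b10))))
theorem n169 : ¬ TripleMatch 3000000000 (items (st 100110011100111111001111110000000000)) 6 :=
  step (ws := ws) (ts0 := root) h0 (doms := [((st 110011100111111001111000000000000), 5), ((st 100010011100111111001110100000000000), 5), ((st 100100011100111111000111100000000000), 5)]) (fuel := 8) (doms_cons n22 (doms_cons n167 (doms_cons n168 doms_nil))) (and_l (and_r (and_l (and_r (and_r b10)))))
theorem n170 : ¬ TripleMatch 3000000000 (items (st 100110011210111111001111110100000000)) 7 :=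
  step (ws := ws) (ts0 := root) h0 (doms := [((st 110011210111111001111100000000000), 6), ((st 100100011210111110001111110000000000), 6), ((st 100110011100111111001111110000000000), 6)]) (fuel := 8) (doms_cons n23 (doms_cons n157 (doms_cons n169 doms_nil))) (and_l (and_r (and_r (and_l (and_r (and_r b10))))))
theorem n171 : ¬ TripleMatch 3000000000 (items (st 100110011320111111001111110110000000)) 8 :=
  step (ws := ws) (ts0 := root) h0 (doms := [((st 110011320111111001111110000000000), 7), ((st 100100011320111110001111110100000000), 7), ((st 100110011210111111001111110100000000), 7)]) (fuel := 8) (doms_cons n135 (doms_cons n158 (doms_cons n170 doms_nil))) (and_l (and_r (and_r (and_r (and_l (and_r (and_r b10)))))))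
theorem n172 : ¬ TripleMatch 3000000000 (items (st 100110111101111111001111110100000000)) 7 :=
  step (ws := ws) (ts0 := root) h0 (doms := [((st 110111101111111001111100000000000), 6), ((st 100100111101111110001111110000000000), 6), ((st 100110011100111111001111110000000000), 6)]) (fuel := 8) (doms_cons n29 (doms_cons n160 (doms_cons n169 doms_nil))) (and_l (and_l (and_r (and_r (and_r b10)))))
theorem n173 : ¬ TripleMatch 3000000000 (items (st 100110111211111111001111110110000000)) 8 :=
  step (ws := ws) (ts0 := root) h0 (doms := [((st 110111211111111001111110000000000), 7), ((st 100100111211111110001111110100000000), 7), ((st 100110011210111111001111110100000000), 7), ((st 100110111101111111001111110100000000), 7)]) (fuel := 8) (doms_cons n139 (doms_cons n161 (doms_cons n170 (doms_cons n172 doms_nil)))) (and_l (and_r (and_l (and_r (and_r (and_r b10))))))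
theorem n174 : ¬ TripleMatch 3000000000 (items (st 100110111321111111001111110110100000)) 9 :=
  step (ws := ws) (ts0 := root) h0 (doms := [((st 110111321111111001111110100000000), 8), ((st 100100111321111110001111110110000000), 8), ((st 100110011320111111001111110110000000), 8), ((st 100110111211111111001111110110000000), 8)]) (fuel := 8) (doms_cons n140 (doms_cons n162 (doms_cons n171 (doms_cons n173 doms_nil)))) (and_l (and_r (and_r (and_l (and_r (and_r (and_r b10)))))))
theorem n175 : ¬ TripleMatch 3000000000 (items (st 100110211102111111001111110110000000)) 8 :=
  step (ws := ws) (ts0 := root) h0 (doms := [((st 110211102111111001111110000000000), 7), ((st 100100211102111110001111110100000000), 7), ((st 100110111101111111001111110100000000), 7)]) (fuel := 8) (doms_cons n144 (doms_cons n163 (doms_cons n172 doms_nil))) (and_l (and_r (and_r (and_r (and_l (and_r (and_r (and_r b10))))))))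
theorem n176 : ¬ TripleMatch 3000000000 (items (st 100110211212111111001111110110100000)) 9 :=
  step (ws := ws) (ts0 := root) h0 (doms := [((st 110211212111111001111110100000000), 8), ((st 100100211212111110001111110110000000), 8), ((st 100110111211111111001111110110000000), 8), ((st 100110211102111111001111110110000000), 8)]) (fuel := 8) (doms_cons n145 (doms_cons n164 (doms_cons n173 (doms_cons n175 doms_nil)))) (and_l (and_l b11))
theorem n177 : ¬ TripleMatch 3000000000 (items (st 100110211322111111001111110110110000)) 10 :=
  step (ws := ws) (ts0 := root) h0 (doms := [((st 110211322111111001111110100100000), 9), ((st 100100211322111110001111110110100000), 9), ((st 100110111321111111001111110110100000), 9), ((st 100110211212111111001111110110100000), 9)]) (fuel := 8) (doms_cons n146 (doms_cons n165 (doms_cons n174 (doms_cons n176 doms_nil)))) (and_l (and_r (and_l b11)))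
theorem n178 : ¬ TripleMatch 3000000000 (items (st 100211322111110001111110010000000)) 8 :=
  step (ws := ws) (ts0 := root) h0 (doms := [((st 211322111100001111110000000000), 7), ((st 100111321111110001111110000000000), 7), ((st 100211212111110001111110000000000), 7)]) (fuel := 8) (doms_cons n126 (doms_cons n128 (doms_cons n130 doms_nil))) (and_l (and_r (and_r (and_l b11))))
theorem n179 : ¬ TripleMatch 3000000000 (items (st 110111321111111001111110010000000)) 8 :=
  step (ws := ws) (ts0 := root) h0 (doms := [((st 100111321111110001111110000000000), 7), ((st 110011320111111001111110000000000), 7), ((st 110111211111111001111110000000000), 7)]) (fuel := 8) (doms_cons n128 (doms_cons n135 (doms_cons n139 doms_nil))) (and_l (and_r (and_r (and_r (and_l b11)))))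
theorem n180 : ¬ TripleMatch 3000000000 (items (st 110211212111111001111110010000000)) 8 :=
  step (ws := ws) (ts0 := root) h0 (doms := [((st 100211212111110001111110000000000), 7), ((st 110111211111111001111110000000000), 7), ((st 110211102111111001111110000000000), 7)]) (fuel := 8) (doms_cons n130 (doms_cons n139 (doms_cons n144 doms_nil))) (and_l (and_l (and_r b11)))
theorem n181 : ¬ TripleMatch 3000000000 (items (st 110211322111111001111110011000000)) 9 :=
  step (ws := ws) (ts0 := root) h0 (doms := [((st 100211322111110001111110010000000), 8), ((st 110111321111111001111110010000000), 8), ((st 110211212111111001111110010000000), 8)]) (fuel := 8) (doms_cons n178 (doms_cons n179 (doms_cons n180 doms_nil))) (and_l (and_r (and_l (and_r b11))))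
theorem n182 : ¬ TripleMatch 3000000000 (items (st 1000000011320111100001111110000000000)) 6 :=
  step (ws := ws) (ts0 := root) h0 (doms := [((st 1000000011210111100001111100000000000), 5)]) (fuel := 8) (doms_cons n70 doms_nil) (and_l (and_r (and_r (and_l (and_r b11)))))
theorem n183 : ¬ TripleMatch 3000000000 (items (st 1000000111211111100001111110000000000)) 6 :=
  step (ws := ws) (ts0 := root) h0 (doms := [((st 111211111100001111000000000000), 5), ((st 1000000011210111100001111100000000000), 5), ((st 1000000111101111100001111100000000000), 5)]) (fuel := 8) (doms_cons n0 (doms_cons n70 (doms_cons n72 doms_nil))) (and_l (and_r (and_r (and_r (and_l (and_r b11))))))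
theorem n184 : ¬ TripleMatch 3000000000 (items (st 1000000111321111100001111110010000000)) 7 :=
  step (ws := ws) (ts0 := root) h0 (doms := [((st 111321111100001111100000000000), 6), ((st 1000000011320111100001111110000000000), 6), ((st 1000000111211111100001111110000000000), 6)]) (fuel := 8) (doms_cons n1 (doms_cons n182 (doms_cons n183 doms_nil))) (and_l (and_l (and_r (and_r b11))))
theorem n185 : ¬ TripleMatch 3000000000 (items (st 1000000211102111100001111110000000000)) 6 :=
  step (ws := ws) (ts0 := root) h0 (doms := [((st 211102111100001111000000000000), 5), ((st 1000000111101111100001111100000000000), 5)]) (fuel := 8) (doms_cons n2 (doms_cons n72 doms_nil)) (and_l (and_r (and_l (and_r (and_r b11)))))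
theorem n186 : ¬ TripleMatch 3000000000 (items (st 1000000211212111100001111110010000000)) 7 :=
  step (ws := ws) (ts0 := root) h0 (doms := [((st 211212111100001111100000000000), 6), ((st 1000000111211111100001111110000000000), 6), ((st 1000000211102111100001111110000000000), 6)]) (fuel := 8) (doms_cons n3 (doms_cons n183 (doms_cons n185 doms_nil))) (and_l (and_r (and_r (and_l (and_r (and_r b11))))))
theorem n187 : ¬ TripleMatch 3000000000 (items (st 1000000211322111100001111110011000000)) 8 :=
  step (ws := ws) (ts0 := root) h0 (doms := [((st 211322111100001111110000000000), 7), ((st 1000000111321111100001111110010000000), 7), ((st 1000000211212111100001111110010000000), 7)]) (fuel := 8) (doms_cons n126 (doms_cons n184 (doms_cons n186 doms_nil))) (and_l (and_r (and_r (and_r (and_l (and_r (and_r b11)))))))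
theorem n188 : ¬ TripleMatch 3000000000 (items (st 1000000011210111110001110100000000000)) 5 :=
  step (ws := ws) (ts0 := root) h0 (doms := []) (fuel := 8) doms_nil (and_l (and_l (and_r (and_r (and_r b11)))))
theorem n189 : ¬ TripleMatch 3000000000 (items (st 1000100011210111110001111110000000000)) 6 :=
  step (ws := ws) (ts0 := root) h0 (doms := [((st 100011210111110001111000000000000), 5), ((st 1000000011210111110001110100000000000), 5), ((st 1000100011100111110001111100000000000), 5)]) (fuel := 8) (doms_cons n5 (doms_cons n188 (doms_cons n78 doms_nil))) (and_l (and_r (and_l (and_r (and_r (and_r b11))))))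
theorem n190 : ¬ TripleMatch 3000000000 (items (st 1000100011320111110001111110010000000)) 7 :=
  step (ws := ws) (ts0 := root) h0 (doms := [((st 100011320111110001111100000000000), 6), ((st 1000000011320111100001111110000000000), 6), ((st 1000100011210111110001111110000000000), 6)]) (fuel := 8) (doms_cons n6 (doms_cons n182 (doms_cons n189 doms_nil))) (and_l (and_r (and_r (and_l (and_r (and_r (and_r b11)))))))
theorem n191 : ¬ TripleMatch 3000000000 (items (st 1000000111101111110001110100000000000)) 5 :=
  step (ws := ws) (ts0 := root) h0 (doms := []) (fuel := 8) doms_nil (and_l (and_r (and_r (and_r (and_l (and_r (and_r (and_r b11))))))))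
theorem n192 : ¬ TripleMatch 3000000000 (items (st 1000100111101111110001111110000000000)) 6 :=
  step (ws := ws) (ts0 := root) h0 (doms := [((st 100111101111110001111000000000000), 5), ((st 1000000111101111110001110100000000000), 5), ((st 1000100011100111110001111100000000000), 5)]) (fuel := 8) (doms_cons n8 (doms_cons n191 (doms_cons n78 doms_nil))) (and_l (and_l b12))
theorem n193 : ¬ TripleMatch 3000000000 (items (st 1000100111211111110001111110010000000)) 7 :=
  step (ws := ws) (ts0 := root) h0 (doms := [((st 100111211111110001111100000000000), 6), ((st 1000000111211111100001111110000000000), 6), ((st 1000100011210111110001111110000000000), 6), ((st 1000100111101111110001111110000000000), 6)]) (fuel := 8) (doms_cons n9 (doms_cons n183 (doms_cons n189 (doms_cons n192 doms_nil)))) (and_l (and_r (and_l b12)))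
theorem n194 : ¬ TripleMatch 3000000000 (items (st 1000100111321111110001111110011000000)) 8 :=
  step (ws := ws) (ts0 := root) h0 (doms := [((st 100111321111110001111110000000000), 7), ((st 1000000111321111100001111110010000000), 7), ((st 1000100011320111110001111110010000000), 7), ((st 1000100111211111110001111110010000000), 7)]) (fuel := 8) (doms_cons n128 (doms_cons n184 (doms_cons n190 (doms_cons n193 doms_nil)))) (and_l (and_r (and_r (and_l b12))))
theorem n195 : ¬ TripleMatch 3000000000 (items (st 1000100211102111110001111110010000000)) 7 :=
  step (ws := ws) (ts0 := root) h0 (doms := [((st 100211102111110001111100000000000), 6), ((st 1000000211102111100001111110000000000), 6), ((st 1000100111101111110001111110000000000), 6)]) (fuel := 8) (doms_cons n12 (doms_cons n185 (doms_cons n192 doms_nil))) (and_l (and_r (and_r (and_r (and_l b12)))))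
theorem n196 : ¬ TripleMatch 3000000000 (items (st 1000100211212111110001111110011000000)) 8 :=
  step (ws := ws) (ts0 := root) h0 (doms := [((st 100211212111110001111110000000000), 7), ((st 1000000211212111100001111110010000000), 7), ((st 1000100111211111110001111110010000000), 7), ((st 1000100211102111110001111110010000000), 7)]) (fuel := 8) (doms_cons n130 (doms_cons n186 (doms_cons n193 (doms_cons n195 doms_nil)))) (and_l (and_l (and_r b12)))
theorem n197 : ¬ TripleMatch 3000000000 (items (st 1000100211322111110001111110011100000)) 9 :=
  step (ws := ws) (ts0 := root) h0 (doms := [((st 100211322111110001111110010000000), 8), ((st 1000000211322111100001111110011000000), 8), ((st 1000100111321111110001111110011000000), 8), ((st 1000100211212111110001111110011000000), 8)]) (fuel := 8) (doms_cons n178 (doms_cons n187 (doms_cons n194 (doms_cons n196 doms_nil)))) (and_l (and_r (and_l (and_r b12))))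
theorem n198 : ¬ TripleMatch 3000000000 (items (st 1000000011100111111000110000000000000)) 4 :=
  step (ws := ws) (ts0 := root) h0 (doms := []) (fuel := 8) doms_nil (and_l (and_r (and_r (and_l (and_r b12)))))
theorem n199 : ¬ TripleMatch 3000000000 (items (st 1000010011100111111001110100000000000)) 5 :=
  step (ws := ws) (ts0 := root) h0 (doms := [((st 10011100111111001100000000000000), 4), ((st 1000000011100111111000110000000000000), 4)]) (fuel := 8) (doms_cons n16 (doms_cons n198 doms_nil)) (and_l (and_r (and_r (and_r (and_l (and_r b12))))))
theorem n200 : ¬ TripleMatch 3000000000 (items (st 1000100011100111111000111100000000000)) 5 :=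
  step (ws := ws) (ts0 := root) h0 (doms := [((st 1000000011100111111000110000000000000), 4)]) (fuel := 8) (doms_cons n198 doms_nil) (and_l (and_l (and_r (and_r b12))))
theorem n201 : ¬ TripleMatch 3000000000 (items (st 1000110011100111111001111110000000000)) 6 :=
  step (ws := ws) (ts0 := root) h0 (doms := [((st 110011100111111001111000000000000), 5), ((st 1000010011100111111001110100000000000), 5), ((st 1000100011100111111000111100000000000), 5)]) (fuel := 8) (doms_cons n22 (doms_cons n199 (doms_cons n200 doms_nil))) (and_l (and_r (and_l (and_r (and_r b12)))))
theorem n202 : ¬ TripleMatch 3000000000 (items (st 1000110011210111111001111110010000000)) 7 :=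
  step (ws := ws) (ts0 := root) h0 (doms := [((st 110011210111111001111100000000000), 6), ((st 1000100011210111110001111110000000000), 6), ((st 1000110011100111111001111110000000000), 6)]) (fuel := 8) (doms_cons n23 (doms_cons n189 (doms_cons n201 doms_nil))) (and_l (and_r (and_r (and_l (and_r (and_r b12))))))
theorem n203 : ¬ TripleMatch 3000000000 (items (st 1000110011320111111001111110011000000)) 8 :=
  step (ws := ws) (ts0 := root) h0 (doms := [((st 110011320111111001111110000000000), 7), ((st 1000100011320111110001111110010000000), 7), ((st 1000110011210111111001111110010000000), 7)]) (fuel := 8) (doms_cons n135 (doms_cons n190 (doms_cons n202 doms_nil))) (and_l (and_r (and_r (and_r (and_l (and_r (and_r b12)))))))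
theorem n204 : ¬ TripleMatch 3000000000 (items (st 1000110111101111111001111110010000000)) 7 :=
  step (ws := ws) (ts0 := root) h0 (doms := [((st 110111101111111001111100000000000), 6), ((st 1000100111101111110001111110000000000), 6), ((st 1000110011100111111001111110000000000), 6)]) (fuel := 8) (doms_cons n29 (doms_cons n192 (doms_cons n201 doms_nil))) (and_l (and_l (and_r (and_r (and_r b12)))))
theorem n205 : ¬ TripleMatch 3000000000 (items (st 1000110111211111111001111110011000000)) 8 :=
  step (ws := ws) (ts0 := root) h0 (doms := [((st 110111211111111001111110000000000), 7), ((st 1000100111211111110001111110010000000), 7), ((st 1000110011210111111001111110010000000), 7), ((st 1000110111101111111001111110010000000), 7)]) (fuel := 8) (doms_cons n139 (doms_cons n193 (doms_cons n202 (doms_cons n204 doms_nil)))) (and_l (and_r (and_l (and_r (and_r (and_r b12))))))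
theorem n206 : ¬ TripleMatch 3000000000 (items (st 1000110111321111111001111110011100000)) 9 :=
  step (ws := ws) (ts0 := root) h0 (doms := [((st 110111321111111001111110010000000), 8), ((st 1000100111321111110001111110011000000), 8), ((st 1000110011320111111001111110011000000), 8), ((st 1000110111211111111001111110011000000), 8)]) (fuel := 8) (doms_cons n179 (doms_cons n194 (doms_cons n203 (doms_cons n205 doms_nil)))) (and_l (and_r (and_r (and_l (and_r (and_r (and_r b12)))))))
theorem n207 : ¬ TripleMatch 3000000000 (items (st 1000110211102111111001111110011000000)) 8 :=
  step (ws := ws) (ts0 := root) h0 (doms := [((st 110211102111111001111110000000000), 7), ((st 1000100211102111110001111110010000000), 7), ((st 1000110111101111111001111110010000000), 7)]) (fuel := 8) (doms_cons n144 (doms_cons n195 (doms_cons n204 doms_nil))) (and_l (and_r (and_r (and_r (and_l (and_r (and_r (and_r b12))))))))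
theorem n208 : ¬ TripleMatch 3000000000 (items (st 1000110211212111111001111110011100000)) 9 :=
  step (ws := ws) (ts0 := root) h0 (doms := [((st 110211212111111001111110010000000), 8), ((st 1000100211212111110001111110011000000), 8), ((st 1000110111211111111001111110011000000), 8), ((st 1000110211102111111001111110011000000), 8)]) (fuel := 8) (doms_cons n180 (doms_cons n196 (doms_cons n205 (doms_cons n207 doms_nil)))) (and_l (and_l b13))
theorem n209 : ¬ TripleMatch 3000000000 (items (st 1000110211322111111001111110011110000)) 10 :=
  step (ws := ws) (ts0 := root) h0 (doms := [((st 110211322111111001111110011000000), 9), ((st 1000100211322111110001111110011100000), 9), ((st 1000110111321111111001111110011100000), 9), ((st 1000110211212111111001111110011100000), 9)]) (fuel := 8) (doms_cons n181 (doms_cons n197 (doms_cons n206 (doms_cons n208 doms_nil)))) (and_l (and_r (and_l b13)))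
theorem n210 : ¬ TripleMatch 3000000000 (items (st 100100211322111110001111110111000000)) 9 :=
  step (ws := ws) (ts0 := root) h0 (doms := [((st 100211322111110001111110100000000), 8), ((st 100000211322111100001111110110000000), 8), ((st 100100111321111110001111110110000000), 8), ((st 100100211212111110001111110110000000), 8)]) (fuel := 8) (doms_cons n131 (doms_cons n154 (doms_cons n162 (doms_cons n164 doms_nil)))) (and_l (and_r (and_r (and_l b13))))
theorem n211 : ¬ TripleMatch 3000000000 (items (st 1000000111321111100001111110100000000)) 7 :=
  step (ws := ws) (ts0 := root) h0 (doms := [((st 111321111100001111100000000000), 6), ((st 1000000011320111100001111110000000000), 6), ((st 1000000111211111100001111110000000000), 6)]) (fuel := 8) (doms_cons n1 (doms_cons n182 (doms_cons n183 doms_nil))) (and_l (and_r (and_r (and_r (and_l b13)))))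
theorem n212 : ¬ TripleMatch 3000000000 (items (st 1000000211212111100001111110100000000)) 7 :=
  step (ws := ws) (ts0 := root) h0 (doms := [((st 211212111100001111100000000000), 6), ((st 1000000111211111100001111110000000000), 6), ((st 1000000211102111100001111110000000000), 6)]) (fuel := 8) (doms_cons n3 (doms_cons n183 (doms_cons n185 doms_nil))) (and_l (and_l (and_r b13)))
theorem n213 : ¬ TripleMatch 3000000000 (items (st 1000000211322111100001111110110000000)) 8 :=
  step (ws := ws) (ts0 := root) h0 (doms := [((st 211322111100001111110000000000), 7), ((st 1000000111321111100001111110100000000), 7), ((st 1000000211212111100001111110100000000), 7)]) (fuel := 8) (doms_cons n126 (doms_cons n211 (doms_cons n212 doms_nil))) (and_l (and_r (and_l (and_r b13))))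
theorem n214 : ¬ TripleMatch 3000000000 (items (st 1000100011320111110001111110100000000)) 7 :=
  step (ws := ws) (ts0 := root) h0 (doms := [((st 100011320111110001111100000000000), 6), ((st 1000000011320111100001111110000000000), 6), ((st 1000100011210111110001111110000000000), 6)]) (fuel := 8) (doms_cons n6 (doms_cons n182 (doms_cons n189 doms_nil))) (and_l (and_r (and_r (and_l (and_r b13)))))
theorem n215 : ¬ TripleMatch 3000000000 (items (st 1000100111211111110001111110100000000)) 7 :=
  step (ws := ws) (ts0 := root) h0 (doms := [((st 100111211111110001111100000000000), 6), ((st 1000000111211111100001111110000000000), 6), ((st 1000100011210111110001111110000000000), 6), ((st 1000100111101111110001111110000000000), 6)]) (fuel := 8) (doms_cons n9 (doms_cons n183 (doms_cons n189 (doms_cons n192 doms_nil)))) (and_l (and_r (and_r (and_r (and_l (and_r b13))))))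
theorem n216 : ¬ TripleMatch 3000000000 (items (st 1000100111321111110001111110110000000)) 8 :=
  step (ws := ws) (ts0 := root) h0 (doms := [((st 100111321111110001111110000000000), 7), ((st 1000000111321111100001111110100000000), 7), ((st 1000100011320111110001111110100000000), 7), ((st 1000100111211111110001111110100000000), 7)]) (fuel := 8) (doms_cons n128 (doms_cons n211 (doms_cons n214 (doms_cons n215 doms_nil)))) (and_l (and_l (and_r (and_r b13))))
theorem n217 : ¬ TripleMatch 3000000000 (items (st 1000100211102111110001111110100000000)) 7 :=
  step (ws := ws) (ts0 := root) h0 (doms := [((st 100211102111110001111100000000000), 6), ((st 1000000211102111100001111110000000000), 6), ((st 1000100111101111110001111110000000000), 6)]) (fuel := 8) (doms_cons n12 (doms_cons n185 (doms_cons n192 doms_nil))) (and_l (and_r (and_l (and_r (and_r b13)))))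
theorem n218 : ¬ TripleMatch 3000000000 (items (st 1000100211212111110001111110110000000)) 8 :=
  step (ws := ws) (ts0 := root) h0 (doms := [((st 100211212111110001111110000000000), 7), ((st 1000000211212111100001111110100000000), 7), ((st 1000100111211111110001111110100000000), 7), ((st 1000100211102111110001111110100000000), 7)]) (fuel := 8) (doms_cons n130 (doms_cons n212 (doms_cons n215 (doms_cons n217 doms_nil)))) (and_l (and_r (and_r (and_l (and_r (and_r b13))))))
theorem n219 : ¬ TripleMatch 3000000000 (items (st 1000100211322111110001111110110100000)) 9 :=
  step (ws := ws) (ts0 := root) h0 (doms := [((st 100211322111110001111110100000000), 8), ((st 1000000211322111100001111110110000000), 8), ((st 1000100111321111110001111110110000000), 8), ((st 1000100211212111110001111110110000000), 8)]) (fuel := 8) (doms_cons n131 (doms_cons n213 (doms_cons n216 (doms_cons n218 doms_nil)))) (and_l (and_r (and_r (and_r (and_l (and_r (and_r b13)))))))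
theorem n220 : ¬ TripleMatch 3000000000 (items (st 1100000011100111100001111110000000000)) 5 :=
  step (ws := ws) (ts0 := root) h0 (doms := []) (fuel := 8) doms_nil (and_l (and_l (and_r (and_r (and_r b13)))))
theorem n221 : ¬ TripleMatch 3000000000 (items (st 1100000011210111100001111110100000000)) 6 :=
  step (ws := ws) (ts0 := root) h0 (doms := [((st 1000000011210111100001111100000000000), 5), ((st 1100000011100111100001111110000000000), 5)]) (fuel := 8) (doms_cons n70 (doms_cons n220 doms_nil)) (and_l (and_r (and_l (and_r (and_r (and_r b13))))))
theorem n222 : ¬ TripleMatch 3000000000 (items (st 1100000011320111100001111110110000000)) 7 :=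
  step (ws := ws) (ts0 := root) h0 (doms := [((st 1000000011320111100001111110000000000), 6), ((st 1100000011210111100001111110100000000), 6)]) (fuel := 8) (doms_cons n182 (doms_cons n221 doms_nil)) (and_l (and_r (and_r (and_l (and_r (and_r (and_r b13)))))))
theorem n223 : ¬ TripleMatch 3000000000 (items (st 1100000111101111100001111110100000000)) 6 :=
  step (ws := ws) (ts0 := root) h0 (doms := [((st 1000000111101111100001111100000000000), 5), ((st 1100000011100111100001111110000000000), 5)]) (fuel := 8) (doms_cons n72 (doms_cons n220 doms_nil)) (and_l (and_r (and_r (and_r (and_l (and_r (and_r (and_r b13))))))))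
theorem n224 : ¬ TripleMatch 3000000000 (items (st 1100000111211111100001111110110000000)) 7 :=
  step (ws := ws) (ts0 := root) h0 (doms := [((st 1000000111211111100001111110000000000), 6), ((st 1100000011210111100001111110100000000), 6), ((st 1100000111101111100001111110100000000), 6)]) (fuel := 8) (doms_cons n183 (doms_cons n221 (doms_cons n223 doms_nil))) (and_l (and_l b14))
theorem n225 : ¬ TripleMatch 3000000000 (items (st 1100000111321111100001111110111000000)) 8 :=
  step (ws := ws) (ts0 := root) h0 (doms := [((st 1000000111321111100001111110100000000), 7), ((st 1100000011320111100001111110110000000), 7), ((st 1100000111211111100001111110110000000), 7)]) (fuel := 8) (doms_cons n211 (doms_cons n222 (doms_cons n224 doms_nil))) (and_l (and_r (and_l b14)))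
theorem n226 : ¬ TripleMatch 3000000000 (items (st 1100000211102111100001111110110000000)) 7 :=
  step (ws := ws) (ts0 := root) h0 (doms := [((st 1000000211102111100001111110000000000), 6), ((st 1100000111101111100001111110100000000), 6)]) (fuel := 8) (doms_cons n185 (doms_cons n223 doms_nil)) (and_l (and_r (and_r (and_l b14))))
theorem n227 : ¬ TripleMatch 3000000000 (items (st 1100000211212111100001111110111000000)) 8 :=
  step (ws := ws) (ts0 := root) h0 (doms := [((st 1000000211212111100001111110100000000), 7), ((st 1100000111211111100001111110110000000), 7), ((st 1100000211102111100001111110110000000), 7)]) (fuel := 8) (doms_cons n212 (doms_cons n224 (doms_cons n226 doms_nil))) (and_l (and_r (and_r (and_r (and_l b14)))))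
theorem n228 : ¬ TripleMatch 3000000000 (items (st 1100000211322111100001111110111100000)) 9 :=
  step (ws := ws) (ts0 := root) h0 (doms := [((st 1000000211322111100001111110110000000), 8), ((st 1100000111321111100001111110111000000), 8), ((st 1100000211212111100001111110111000000), 8)]) (fuel := 8) (doms_cons n213 (doms_cons n225 (doms_cons n227 doms_nil))) (and_l (and_l (and_r b14)))
theorem n229 : ¬ TripleMatch 3000000000 (items (st 1100100011100111110001111110100000000)) 6 :=
  step (ws := ws) (ts0 := root) h0 (doms := [((st 1000100011100111110001111100000000000), 5), ((st 1100000011100111100001111110000000000), 5)]) (fuel := 8) (doms_cons n78 (doms_cons n220 doms_nil)) (and_l (and_r (and_l (and_r b14))))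
theorem n230 : ¬ TripleMatch 3000000000 (items (st 1100100011210111110001111110110000000)) 7 :=
  step (ws := ws) (ts0 := root) h0 (doms := [((st 1000100011210111110001111110000000000), 6), ((st 1100000011210111100001111110100000000), 6), ((st 1100100011100111110001111110100000000), 6)]) (fuel := 8) (doms_cons n189 (doms_cons n221 (doms_cons n229 doms_nil))) (and_l (and_r (and_r (and_l (and_r b14)))))
theorem n231 : ¬ TripleMatch 3000000000 (items (st 1100100011320111110001111110111000000)) 8 :=
  step (ws := ws) (ts0 := root) h0 (doms := [((st 1000100011320111110001111110100000000), 7), ((st 1100000011320111100001111110110000000), 7), ((st 1100100011210111110001111110110000000), 7)]) (fuel := 8) (doms_cons n214 (doms_cons n222 (doms_cons n230 doms_nil))) (and_l (and_r (and_r (and_r (and_l (and_r b14))))))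
theorem n232 : ¬ TripleMatch 3000000000 (items (st 1100100111101111110001111110110000000)) 7 :=
  step (ws := ws) (ts0 := root) h0 (doms := [((st 1000100111101111110001111110000000000), 6), ((st 1100000111101111100001111110100000000), 6), ((st 1100100011100111110001111110100000000), 6)]) (fuel := 8) (doms_cons n192 (doms_cons n223 (doms_cons n229 doms_nil))) (and_l (and_l (and_r (and_r b14))))
theorem n233 : ¬ TripleMatch 3000000000 (items (st 1100100111211111110001111110111000000)) 8 :=
  step (ws := ws) (ts0 := root) h0 (doms := [((st 1000100111211111110001111110100000000), 7), ((st 1100000111211111100001111110110000000), 7), ((st 1100100011210111110001111110110000000), 7), ((st 1100100111101111110001111110110000000), 7)]) (fuel := 8) (doms_cons n215 (doms_cons n224 (doms_cons n230 (doms_cons n232 doms_nil)))) (and_l (and_r (and_l (and_r (and_r b14)))))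
theorem n234 : ¬ TripleMatch 3000000000 (items (st 1100100111321111110001111110111100000)) 9 :=
  step (ws := ws) (ts0 := root) h0 (doms := [((st 1000100111321111110001111110110000000), 8), ((st 1100000111321111100001111110111000000), 8), ((st 1100100011320111110001111110111000000), 8), ((st 1100100111211111110001111110111000000), 8)]) (fuel := 8) (doms_cons n216 (doms_cons n225 (doms_cons n231 (doms_cons n233 doms_nil)))) (and_l (and_r (and_r (and_l (and_r (and_r b14))))))
theorem n235 : ¬ TripleMatch 3000000000 (items (st 1100100211102111110001111110111000000)) 8 :=
  step (ws := ws) (ts0 := root) h0 (doms := [((st 1000100211102111110001111110100000000), 7), ((st 1100000211102111100001111110110000000), 7), ((st 1100100111101111110001111110110000000), 7)]) (fuel := 8) (doms_cons n217 (doms_cons n226 (doms_cons n232 doms_nil))) (and_l (and_r (and_r (and_r (and_l (and_r (and_r b14)))))))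
theorem n236 : ¬ TripleMatch 3000000000 (items (st 1100100211212111110001111110111100000)) 9 :=
  step (ws := ws) (ts0 := root) h0 (doms := [((st 1000100211212111110001111110110000000), 8), ((st 1100000211212111100001111110111000000), 8), ((st 1100100111211111110001111110111000000), 8), ((st 1100100211102111110001111110111000000), 8)]) (fuel := 8) (doms_cons n218 (doms_cons n227 (doms_cons n233 (doms_cons n235 doms_nil)))) (and_l (and_l (and_r (and_r (and_r b14)))))
theorem n237 : ¬ TripleMatch 3000000000 (items (st 1100100211322111110001111110111110000)) 10 :=
  step (ws := ws) (ts0 := root) h0 (doms := [((st 100100211322111110001111110111000000), 9), ((st 1000100211322111110001111110110100000), 9), ((st 1100000211322111100001111110111100000), 9), ((st 1100100111321111110001111110111100000), 9), ((st 1100100211212111110001111110111100000), 9)]) (fuel := 8) (doms_cons n210 (doms_cons n219 (doms_cons n228 (doms_cons n234 (doms_cons n236 doms_nil))))) (and_l (and_r (and_l (and_r (and_r (and_r b14))))))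
theorem n238 : ¬ TripleMatch 3000000000 (items (st 100110111321111111001111110111000000)) 9 :=
  step (ws := ws) (ts0 := root) h0 (doms := [((st 110111321111111001111110100000000), 8), ((st 100100111321111110001111110110000000), 8), ((st 100110011320111111001111110110000000), 8), ((st 100110111211111111001111110110000000), 8)]) (fuel := 8) (doms_cons n140 (doms_cons n162 (doms_cons n171 (doms_cons n173 doms_nil)))) (and_l (and_r (and_r (and_l (and_r (and_r (and_r b14)))))))
theorem n239 : ¬ TripleMatch 3000000000 (items (st 1000110011210111111001111110100000000)) 7 :=
  step (ws := ws) (ts0 := root) h0 (doms := [((st 110011210111111001111100000000000), 6), ((st 1000100011210111110001111110000000000), 6), ((st 1000110011100111111001111110000000000), 6)]) (fuel := 8) (doms_cons n23 (doms_cons n189 (doms_cons n201 doms_nil))) (and_l (and_r (and_r (and_r (and_l (and_r (and_r (and_r b14))))))))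
theorem n240 : ¬ TripleMatch 3000000000 (items (st 1000110011320111111001111110110000000)) 8 :=
  step (ws := ws) (ts0 := root) h0 (doms := [((st 110011320111111001111110000000000), 7), ((st 1000100011320111110001111110100000000), 7), ((st 1000110011210111111001111110100000000), 7)]) (fuel := 8) (doms_cons n135 (doms_cons n214 (doms_cons n239 doms_nil))) (and_l (and_l b15))
theorem n241 : ¬ TripleMatch 3000000000 (items (st 1000110111101111111001111110100000000)) 7 :=
  step (ws := ws) (ts0 := root) h0 (doms := [((st 110111101111111001111100000000000), 6), ((st 1000100111101111110001111110000000000), 6), ((st 1000110011100111111001111110000000000), 6)]) (fuel := 8) (doms_cons n29 (doms_cons n192 (doms_cons n201 doms_nil))) (and_l (and_r (and_l b15)))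
theorem n242 : ¬ TripleMatch 3000000000 (items (st 1000110111211111111001111110110000000)) 8 :=
  step (ws := ws) (ts0 := root) h0 (doms := [((st 110111211111111001111110000000000), 7), ((st 1000100111211111110001111110100000000), 7), ((st 1000110011210111111001111110100000000), 7), ((st 1000110111101111111001111110100000000), 7)]) (fuel := 8) (doms_cons n139 (doms_cons n215 (doms_cons n239 (doms_cons n241 doms_nil)))) (and_l (and_r (and_r (and_l b15))))
theorem n243 : ¬ TripleMatch 3000000000 (items (st 1000110111321111111001111110110100000)) 9 :=
  step (ws := ws) (ts0 := root) h0 (doms := [((st 110111321111111001111110100000000), 8), ((st 1000100111321111110001111110110000000), 8), ((st 1000110011320111111001111110110000000), 8), ((st 1000110111211111111001111110110000000), 8)]) (fuel := 8) (doms_cons n140 (doms_cons n216 (doms_cons n240 (doms_cons n242 doms_nil)))) (and_l (and_r (and_r (and_r (and_l b15)))))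
theorem n244 : ¬ TripleMatch 3000000000 (items (st 1100110011100111111001111110110000000)) 7 :=
  step (ws := ws) (ts0 := root) h0 (doms := [((st 1000110011100111111001111110000000000), 6), ((st 1100100011100111110001111110100000000), 6)]) (fuel := 8) (doms_cons n201 (doms_cons n229 doms_nil)) (and_l (and_l (and_r b15)))
theorem n245 : ¬ TripleMatch 3000000000 (items (st 1100110011210111111001111110111000000)) 8 :=
  step (ws := ws) (ts0 := root) h0 (doms := [((st 1000110011210111111001111110100000000), 7), ((st 1100100011210111110001111110110000000), 7), ((st 1100110011100111111001111110110000000), 7)]) (fuel := 8) (doms_cons n239 (doms_cons n230 (doms_cons n244 doms_nil))) (and_l (and_r (and_l (and_r b15))))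
theorem n246 : ¬ TripleMatch 3000000000 (items (st 1100110011320111111001111110111100000)) 9 :=
  step (ws := ws) (ts0 := root) h0 (doms := [((st 1000110011320111111001111110110000000), 8), ((st 1100100011320111110001111110111000000), 8), ((st 1100110011210111111001111110111000000), 8)]) (fuel := 8) (doms_cons n240 (doms_cons n231 (doms_cons n245 doms_nil))) (and_l (and_r (and_r (and_l (and_r b15)))))
theorem n247 : ¬ TripleMatch 3000000000 (items (st 1100110111101111111001111110111000000)) 8 :=
  step (ws := ws) (ts0 := root) h0 (doms := [((st 1000110111101111111001111110100000000), 7), ((st 1100100111101111110001111110110000000), 7), ((st 1100110011100111111001111110110000000), 7)]) (fuel := 8) (doms_cons n241 (doms_cons n232 (doms_cons n244 doms_nil))) (and_l (and_r (and_r (and_r (and_l (and_r b15))))))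
theorem n248 : ¬ TripleMatch 3000000000 (items (st 1100110111211111111001111110111100000)) 9 :=
  step (ws := ws) (ts0 := root) h0 (doms := [((st 1000110111211111111001111110110000000), 8), ((st 1100100111211111110001111110111000000), 8), ((st 1100110011210111111001111110111000000), 8), ((st 1100110111101111111001111110111000000), 8)]) (fuel := 8) (doms_cons n242 (doms_cons n233 (doms_cons n245 (doms_cons n247 doms_nil)))) (and_l (and_l (and_r (and_r b15))))
theorem n249 : ¬ TripleMatch 3000000000 (items (st 1100110111321111111001111110111110000)) 10 :=
  step (ws := ws) (ts0 := root) h0 (doms := [((st 100110111321111111001111110111000000), 9), ((st 1000110111321111111001111110110100000), 9), ((st 1100100111321111110001111110111100000), 9), ((st 1100110011320111111001111110111100000), 9), ((st 1100110111211111111001111110111100000), 9)]) (fuel := 8) (doms_cons n238 (doms_cons n243 (doms_cons n234 (doms_cons n246 (doms_cons n248 doms_nil))))) (and_l (and_r (and_l (and_r (and_r b15)))))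
theorem n250 : ¬ TripleMatch 3000000000 (items (st 100110211212111111001111110111000000)) 9 :=
  step (ws := ws) (ts0 := root) h0 (doms := [((st 110211212111111001111110100000000), 8), ((st 100100211212111110001111110110000000), 8), ((st 100110111211111111001111110110000000), 8), ((st 100110211102111111001111110110000000), 8)]) (fuel := 8) (doms_cons n145 (doms_cons n164 (doms_cons n173 (doms_cons n175 doms_nil)))) (and_l (and_r (and_r (and_l (and_r (and_r b15))))))
theorem n251 : ¬ TripleMatch 3000000000 (items (st 1000110211102111111001111110110000000)) 8 :=
  step (ws := ws) (ts0 := root) h0 (doms := [((st 110211102111111001111110000000000), 7), ((st 1000100211102111110001111110100000000), 7), ((st 1000110111101111111001111110100000000), 7)]) (fuel := 8) (doms_cons n144 (doms_cons n217 (doms_cons n241 doms_nil))) (and_l (and_r (and_r (and_r (and_l (and_r (and_r b15)))))))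
theorem n252 : ¬ TripleMatch 3000000000 (items (st 1000110211212111111001111110110100000)) 9 :=
  step (ws := ws) (ts0 := root) h0 (doms := [((st 110211212111111001111110100000000), 8), ((st 1000100211212111110001111110110000000), 8), ((st 1000110111211111111001111110110000000), 8), ((st 1000110211102111111001111110110000000), 8)]) (fuel := 8) (doms_cons n145 (doms_cons n218 (doms_cons n242 (doms_cons n251 doms_nil)))) (and_l (and_l (and_r (and_r (and_r b15)))))
theorem n253 : ¬ TripleMatch 3000000000 (items (st 1100110211102111111001111110111100000)) 9 :=
  step (ws := ws) (ts0 := root) h0 (doms := [((st 1000110211102111111001111110110000000), 8), ((st 1100100211102111110001111110111000000), 8), ((st 1100110111101111111001111110111000000), 8)]) (fuel := 8) (doms_cons n251 (doms_cons n235 (doms_cons n247 doms_nil))) (and_l (and_r (and_l (and_r (and_r (and_r b15))))))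
theorem n254 : ¬ TripleMatch 3000000000 (items (st 1100110211212111111001111110111110000)) 10 :=
  step (ws := ws) (ts0 := root) h0 (doms := [((st 100110211212111111001111110111000000), 9), ((st 1000110211212111111001111110110100000), 9), ((st 1100100211212111110001111110111100000), 9), ((st 1100110111211111111001111110111100000), 9), ((st 1100110211102111111001111110111100000), 9)]) (fuel := 8) (doms_cons n250 (doms_cons n252 (doms_cons n236 (doms_cons n248 (doms_cons n253 doms_nil))))) (and_l (and_r (and_r (and_l (and_r (and_r (and_r b15)))))))
theorem n255 : ¬ TripleMatch 3000000000 (items (st 1100110211322111111001111110111111000)) 11 :=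
  step (ws := ws) (ts0 := root) h0 (doms := [((st 100110211322111111001111110110110000), 10), ((st 1000110211322111111001111110011110000), 10), ((st 1100100211322111110001111110111110000), 10), ((st 1100110111321111111001111110111110000), 10), ((st 1100110211212111111001111110111110000), 10)]) (fuel := 8) (doms_cons n177 (doms_cons n209 (doms_cons n237 (doms_cons n249 (doms_cons n254 doms_nil))))) (and_l (and_r (and_r (and_r (and_l (and_r (and_r (and_r b15))))))))
theorem n256 : ¬ TripleMatch 3000000000 (items (st 111321111100011111000000000000)) 6 :=
  step (ws := ws) (ts0 := root) h0 (doms := [((st 111211111100011110000000000000), 5)]) (fuel := 8) (doms_cons n37 doms_nil) (and_l (and_l b16))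
theorem n257 : ¬ TripleMatch 3000000000 (items (st 1000111321111100011111110000000000)) 7 :=
  step (ws := ws) (ts0 := root) h0 (doms := [((st 111321111100011111000000000000), 6), ((st 1000011320111100011111100000000000), 6), ((st 1000111211111100011111100000000000), 6)]) (fuel := 8) (doms_cons n256 (doms_cons n36 (doms_cons n39 doms_nil))) (and_l (and_r (and_l b16)))
theorem n258 : ¬ TripleMatch 3000000000 (items (st 211212111100011111000000000000)) 6 :=
  step (ws := ws) (ts0 := root) h0 (doms := [((st 111211111100011110000000000000), 5), ((st 211102111100011110000000000000), 5)]) (fuel := 8) (doms_cons n37 (doms_cons n41 doms_nil)) (and_l (and_r (and_r (and_l b16))))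
theorem n259 : ¬ TripleMatch 3000000000 (items (st 1000211212111100011111110000000000)) 7 :=
  step (ws := ws) (ts0 := root) h0 (doms := [((st 211212111100011111000000000000), 6), ((st 1000111211111100011111100000000000), 6), ((st 1000211102111100011111100000000000), 6)]) (fuel := 8) (doms_cons n258 (doms_cons n39 (doms_cons n42 doms_nil))) (and_l (and_r (and_r (and_r (and_l b16)))))
theorem n260 : ¬ TripleMatch 3000000000 (items (st 1000211322111100011111110100000000)) 8 :=
  step (ws := ws) (ts0 := root) h0 (doms := [((st 211322111100001111110000000000), 7), ((st 1000111321111100011111110000000000), 7), ((st 1000211212111100011111110000000000), 7)]) (fuel := 8) (doms_cons n126 (doms_cons n257 (doms_cons n259 doms_nil))) (and_l (and_l (and_r b16)))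
theorem n261 : ¬ TripleMatch 3000000000 (items (st 100011210111110011110000000000000)) 5 :=
  step (ws := ws) (ts0 := root) h0 (doms := []) (fuel := 8) doms_nil (and_l (and_r (and_l (and_r b16))))
theorem n262 : ¬ TripleMatch 3000000000 (items (st 100011320111110011111000000000000)) 6 :=
  step (ws := ws) (ts0 := root) h0 (doms := [((st 100011210111110011110000000000000), 5)]) (fuel := 8) (doms_cons n261 doms_nil) (and_l (and_r (and_r (and_l (and_r b16)))))
theorem n263 : ¬ TripleMatch 3000000000 (items (st 1000011320111110011110100000000000)) 6 :=
  step (ws := ws) (ts0 := root) h0 (doms := [((st 1000011210111110011110000000000000), 5)]) (fuel := 8) (doms_cons n45 doms_nil) (and_l (and_r (and_r (and_r (and_l (and_r b16))))))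
theorem n264 : ¬ TripleMatch 3000000000 (items (st 1100011320111110011111110000000000)) 7 :=
  step (ws := ws) (ts0 := root) h0 (doms := [((st 100011320111110011111000000000000), 6), ((st 1000011320111110011110100000000000), 6), ((st 1100011210111110011111100000000000), 6)]) (fuel := 8) (doms_cons n262 (doms_cons n263 (doms_cons n47 doms_nil))) (and_l (and_l (and_r (and_r b16))))
theorem n265 : ¬ TripleMatch 3000000000 (items (st 111211111110011100000000000000)) 5 :=
  step (ws := ws) (ts0 := root) h0 (doms := []) (fuel := 8) doms_nil (and_l (and_r (and_l (and_r (and_r b16)))))
theorem n266 : ¬ TripleMatch 3000000000 (items (st 100111101111110011110000000000000)) 5 :=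
  step (ws := ws) (ts0 := root) h0 (doms := []) (fuel := 8) doms_nil (and_l (and_r (and_r (and_l (and_r (and_r b16))))))
theorem n267 : ¬ TripleMatch 3000000000 (items (st 100111211111110011111000000000000)) 6 :=
  step (ws := ws) (ts0 := root) h0 (doms := [((st 111211111110011100000000000000), 5), ((st 100011210111110011110000000000000), 5), ((st 100111101111110011110000000000000), 5)]) (fuel := 8) (doms_cons n265 (doms_cons n261 (doms_cons n266 doms_nil))) (and_l (and_r (and_r (and_r (and_l (and_r (and_r b16)))))))
theorem n268 : ¬ TripleMatch 3000000000 (items (st 1000111211111110011110100000000000)) 6 :=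
  step (ws := ws) (ts0 := root) h0 (doms := [((st 111211111110011100000000000000), 5), ((st 1000011210111110011110000000000000), 5), ((st 1000111101111110011110000000000000), 5)]) (fuel := 8) (doms_cons n265 (doms_cons n45 (doms_cons n49 doms_nil))) (and_l (and_l (and_r (and_r (and_r b16)))))
theorem n269 : ¬ TripleMatch 3000000000 (items (st 1100111211111110011111110000000000)) 7 :=
  step (ws := ws) (ts0 := root) h0 (doms := [((st 100111211111110011111000000000000), 6), ((st 1000111211111110011110100000000000), 6), ((st 1100011210111110011111100000000000), 6), ((st 1100111101111110011111100000000000), 6)]) (fuel := 8) (doms_cons n267 (doms_cons n268 (doms_cons n47 (doms_cons n50 doms_nil)))) (and_l (and_r (and_l (and_r (and_r (and_r b16))))))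
theorem n270 : ¬ TripleMatch 3000000000 (items (st 1100111321111110011111110100000000)) 8 :=
  step (ws := ws) (ts0 := root) h0 (doms := [((st 100111321111110001111110000000000), 7), ((st 1000111321111100011111110000000000), 7), ((st 1100011320111110011111110000000000), 7), ((st 1100111211111110011111110000000000), 7)]) (fuel := 8) (doms_cons n128 (doms_cons n257 (doms_cons n264 (doms_cons n269 doms_nil)))) (and_l (and_r (and_r (and_l (and_r (and_r (and_r b16)))))))
theorem n271 : ¬ TripleMatch 3000000000 (items (st 211102111110011100000000000000)) 5 :=
  step (ws := ws) (ts0 := root) h0 (doms := []) (fuel := 8) doms_nil (and_l (and_r (and_r (and_r (and_l (and_r (and_r (and_r b16))))))))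
theorem n272 : ¬ TripleMatch 3000000000 (items (st 100211102111110011111000000000000)) 6 :=
  step (ws := ws) (ts0 := root) h0 (doms := [((st 211102111110011100000000000000), 5), ((st 100111101111110011110000000000000), 5)]) (fuel := 8) (doms_cons n271 (doms_cons n266 doms_nil)) (and_l (and_l b17))
theorem n273 : ¬ TripleMatch 3000000000 (items (st 1000211102111110011110100000000000)) 6 :=
  step (ws := ws) (ts0 := root) h0 (doms := [((st 211102111110011100000000000000), 5), ((st 1000111101111110011110000000000000), 5)]) (fuel := 8) (doms_cons n271 (doms_cons n49 doms_nil)) (and_l (and_r (and_l b17)))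
theorem n274 : ¬ TripleMatch 3000000000 (items (st 1100211102111110011111110000000000)) 7 :=
  step (ws := ws) (ts0 := root) h0 (doms := [((st 100211102111110011111000000000000), 6), ((st 1000211102111110011110100000000000), 6), ((st 1100111101111110011111100000000000), 6)]) (fuel := 8) (doms_cons n272 (doms_cons n273 (doms_cons n50 doms_nil))) (and_l (and_r (and_r (and_l b17))))
theorem n275 : ¬ TripleMatch 3000000000 (items (st 1100211212111110011111110100000000)) 8 :=
  step (ws := ws) (ts0 := root) h0 (doms := [((st 100211212111110001111110000000000), 7), ((st 1000211212111100011111110000000000), 7), ((st 1100111211111110011111110000000000), 7), ((st 1100211102111110011111110000000000), 7)]) (fuel := 8) (doms_cons n130 (doms_cons n259 (doms_cons n269 (doms_cons n274 doms_nil)))) (and_l (and_r (and_r (and_r (and_l b17)))))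
theorem n276 : ¬ TripleMatch 3000000000 (items (st 1100211322111110011111110100100000)) 9 :=
  step (ws := ws) (ts0 := root) h0 (doms := [((st 100211322111110001111110100000000), 8), ((st 1000211322111100011111110100000000), 8), ((st 1100111321111110011111110100000000), 8), ((st 1100211212111110011111110100000000), 8)]) (fuel := 8) (doms_cons n131 (doms_cons n260 (doms_cons n270 (doms_cons n275 doms_nil)))) (and_l (and_l (and_r b17)))
theorem n277 : ¬ TripleMatch 3000000000 (items (st 100000011210111100011111000000000000)) 5 :=
  step (ws := ws) (ts0 := root) h0 (doms := []) (fuel := 8) doms_nil (and_l (and_r (and_l (and_r b17))))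
theorem n278 : ¬ TripleMatch 3000000000 (items (st 101000011100111100011111100000000000)) 5 :=
  step (ws := ws) (ts0 := root) h0 (doms := []) (fuel := 8) doms_nil (and_l (and_r (and_r (and_l (and_r b17)))))
theorem n279 : ¬ TripleMatch 3000000000 (items (st 101000011210111100011111110000000000)) 6 :=
  step (ws := ws) (ts0 := root) h0 (doms := [((st 100000011210111100011111000000000000), 5), ((st 101000011100111100011111100000000000), 5)]) (fuel := 8) (doms_cons n277 (doms_cons n278 doms_nil)) (and_l (and_r (and_r (and_r (and_l (and_r b17))))))
theorem n280 : ¬ TripleMatch 3000000000 (items (st 101000011320111100011111110100000000)) 7 :=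
  step (ws := ws) (ts0 := root) h0 (doms := [((st 1000011320111100011111100000000000), 6), ((st 100000011320111100001111110000000000), 6), ((st 101000011210111100011111110000000000), 6)]) (fuel := 8) (doms_cons n36 (doms_cons n148 (doms_cons n279 doms_nil))) (and_l (and_l (and_r (and_r b17))))
theorem n281 : ¬ TripleMatch 3000000000 (items (st 100000111101111100011111000000000000)) 5 :=
  step (ws := ws) (ts0 := root) h0 (doms := []) (fuel := 8) doms_nil (and_l (and_r (and_l (and_r (and_r b17)))))
theorem n282 : ¬ TripleMatch 3000000000 (items (st 101000111101111100011111110000000000)) 6 :=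
  step (ws := ws) (ts0 := root) h0 (doms := [((st 100000111101111100011111000000000000), 5), ((st 101000011100111100011111100000000000), 5)]) (fuel := 8) (doms_cons n281 (doms_cons n278 doms_nil)) (and_l (and_r (and_r (and_l (and_r (and_r b17))))))
theorem n283 : ¬ TripleMatch 3000000000 (items (st 101000111211111100011111110100000000)) 7 :=
  step (ws := ws) (ts0 := root) h0 (doms := [((st 1000111211111100011111100000000000), 6), ((st 100000111211111100001111110000000000), 6), ((st 101000011210111100011111110000000000), 6), ((st 101000111101111100011111110000000000), 6)]) (fuel := 8) (doms_cons n39 (doms_cons n150 (doms_cons n279 (doms_cons n282 doms_nil)))) (and_l (and_r (and_r (and_r (and_l (and_r (and_r b17)))))))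
theorem n284 : ¬ TripleMatch 3000000000 (items (st 101000111321111100011111110110000000)) 8 :=
  step (ws := ws) (ts0 := root) h0 (doms := [((st 1000111321111100011111110000000000), 7), ((st 100000111321111100001111110100000000), 7), ((st 101000011320111100011111110100000000), 7), ((st 101000111211111100011111110100000000), 7)]) (fuel := 8) (doms_cons n257 (doms_cons n151 (doms_cons n280 (doms_cons n283 doms_nil)))) (and_l (and_l (and_r (and_r (and_r b17)))))
theorem n285 : ¬ TripleMatch 3000000000 (items (st 101000211102111100011111110100000000)) 7 :=
  step (ws := ws) (ts0 := root) h0 (doms := [((st 1000211102111100011111100000000000), 6), ((st 100000211102111100001111110000000000), 6), ((st 101000111101111100011111110000000000), 6)]) (fuel := 8) (doms_cons n42 (doms_cons n152 (doms_cons n282 doms_nil))) (and_l (and_r (and_l (and_r (and_r (and_r b17))))))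
theorem n286 : ¬ TripleMatch 3000000000 (items (st 101000211212111100011111110110000000)) 8 :=
  step (ws := ws) (ts0 := root) h0 (doms := [((st 1000211212111100011111110000000000), 7), ((st 100000211212111100001111110100000000), 7), ((st 101000111211111100011111110100000000), 7), ((st 101000211102111100011111110100000000), 7)]) (fuel := 8) (doms_cons n259 (doms_cons n153 (doms_cons n283 (doms_cons n285 doms_nil)))) (and_l (and_r (and_r (and_l (and_r (and_r (and_r b17)))))))
theorem n287 : ¬ TripleMatch 3000000000 (items (st 101000211322111100011111110110100000)) 9 :=
  step (ws := ws) (ts0 := root) h0 (doms := [((st 1000211322111100011111110100000000), 8), ((st 100000211322111100001111110110000000), 8), ((st 101000111321111100011111110110000000), 8), ((st 101000211212111100011111110110000000), 8)]) (fuel := 8) (doms_cons n260 (doms_cons n154 (doms_cons n284 (doms_cons n286 doms_nil)))) (and_l (and_r (and_r (and_r (and_l (and_r (and_r (and_r b17))))))))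
theorem n288 : ¬ TripleMatch 3000000000 (items (st 100100011100111110011111000000000000)) 5 :=
  step (ws := ws) (ts0 := root) h0 (doms := []) (fuel := 8) doms_nil (and_l (and_l b18))
theorem n289 : ¬ TripleMatch 3000000000 (items (st 101000011100111110011110100000000000)) 5 :=
  step (ws := ws) (ts0 := root) h0 (doms := []) (fuel := 8) doms_nil (and_l (and_r (and_l b18)))
theorem n290 : ¬ TripleMatch 3000000000 (items (st 101100011100111110011111110000000000)) 6 :=
  step (ws := ws) (ts0 := root) h0 (doms := [((st 100100011100111110011111000000000000), 5), ((st 101000011100111110011110100000000000), 5)]) (fuel := 8) (doms_cons n288 (doms_cons n289 doms_nil)) (and_l (and_r (and_r (and_l b18))))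
theorem n291 : ¬ TripleMatch 3000000000 (items (st 101100011210111110011111110100000000)) 7 :=
  step (ws := ws) (ts0 := root) h0 (doms := [((st 1100011210111110011111100000000000), 6), ((st 100100011210111110001111110000000000), 6), ((st 101000011210111100011111110000000000), 6), ((st 101100011100111110011111110000000000), 6)]) (fuel := 8) (doms_cons n47 (doms_cons n157 (doms_cons n279 (doms_cons n290 doms_nil)))) (and_l (and_r (and_r (and_r (and_l b18)))))
theorem n292 : ¬ TripleMatch 3000000000 (items (st 101100011320111110011111110110000000)) 8 :=
  step (ws := ws) (ts0 := root) h0 (doms := [((st 1100011320111110011111110000000000), 7), ((st 100100011320111110001111110100000000), 7), ((st 101000011320111100011111110100000000), 7), ((st 101100011210111110011111110100000000), 7)]) (fuel := 8) (doms_cons n264 (doms_cons n158 (doms_cons n280 (doms_cons n291 doms_nil)))) (and_l (and_l (and_r b18)))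
theorem n293 : ¬ TripleMatch 3000000000 (items (st 101100111101111110011111110100000000)) 7 :=
  step (ws := ws) (ts0 := root) h0 (doms := [((st 1100111101111110011111100000000000), 6), ((st 100100111101111110001111110000000000), 6), ((st 101000111101111100011111110000000000), 6), ((st 101100011100111110011111110000000000), 6)]) (fuel := 8) (doms_cons n50 (doms_cons n160 (doms_cons n282 (doms_cons n290 doms_nil)))) (and_l (and_r (and_l (and_r b18))))
theorem n294 : ¬ TripleMatch 3000000000 (items (st 101100111211111110011111110110000000)) 8 :=
  step (ws := ws) (ts0 := root) h0 (doms := [((st 1100111211111110011111110000000000), 7), ((st 100100111211111110001111110100000000), 7), ((st 101000111211111100011111110100000000), 7), ((st 101100011210111110011111110100000000), 7), ((st 101100111101111110011111110100000000), 7)]) (fuel := 8) (doms_cons n269 (doms_cons n161 (doms_cons n283 (doms_cons n291 (doms_cons n293 doms_nil))))) (and_l (and_r (and_r (and_l (and_r b18)))))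
theorem n295 : ¬ TripleMatch 3000000000 (items (st 101100111321111110011111110110100000)) 9 :=
  step (ws := ws) (ts0 := root) h0 (doms := [((st 1100111321111110011111110100000000), 8), ((st 100100111321111110001111110110000000), 8), ((st 101000111321111100011111110110000000), 8), ((st 101100011320111110011111110110000000), 8), ((st 101100111211111110011111110110000000), 8)]) (fuel := 8) (doms_cons n270 (doms_cons n162 (doms_cons n284 (doms_cons n292 (doms_cons n294 doms_nil))))) (and_l (and_r (and_r (and_r (and_l (and_r b18))))))
theorem n296 : ¬ TripleMatch 3000000000 (items (st 101100211102111110011111110110000000)) 8 :=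
  step (ws := ws) (ts0 := root) h0 (doms := [((st 1100211102111110011111110000000000), 7), ((st 100100211102111110001111110100000000), 7), ((st 101000211102111100011111110100000000), 7), ((st 101100111101111110011111110100000000), 7)]) (fuel := 8) (doms_cons n274 (doms_cons n163 (doms_cons n285 (doms_cons n293 doms_nil)))) (and_l (and_l (and_r (and_r b18))))
theorem n297 : ¬ TripleMatch 3000000000 (items (st 101100211212111110011111110110100000)) 9 :=
  step (ws := ws) (ts0 := root) h0 (doms := [((st 1100211212111110011111110100000000), 8), ((st 100100211212111110001111110110000000), 8), ((st 101000211212111100011111110110000000), 8), ((st 101100111211111110011111110110000000), 8), ((st 101100211102111110011111110110000000), 8)]) (fuel := 8) (doms_cons n275 (doms_cons n164 (doms_cons n286 (doms_cons n294 (doms_cons n296 doms_nil))))) (and_l (and_r (and_l (and_r (and_r b18)))))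
theorem n298 : ¬ TripleMatch 3000000000 (items (st 101100211322111110011111110110110000)) 10 :=
  step (ws := ws) (ts0 := root) h0 (doms := [((st 1100211322111110011111110100100000), 9), ((st 100100211322111110001111110110100000), 9), ((st 101000211322111100011111110110100000), 9), ((st 101100111321111110011111110110100000), 9), ((st 101100211212111110011111110110100000), 9)]) (fuel := 8) (doms_cons n276 (doms_cons n165 (doms_cons n287 (doms_cons n295 (doms_cons n297 doms_nil))))) (and_l (and_r (and_r (and_l (and_r (and_r b18))))))
theorem n299 : ¬ TripleMatch 3000000000 (items (st 1000211322111100011111110010000000)) 8 :=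
  step (ws := ws) (ts0 := root) h0 (doms := [((st 211322111100001111110000000000), 7), ((st 1000111321111100011111110000000000), 7), ((st 1000211212111100011111110000000000), 7)]) (fuel := 8) (doms_cons n126 (doms_cons n257 (doms_cons n259 doms_nil))) (and_l (and_r (and_r (and_r (and_l (and_r (and_r b18)))))))
theorem n300 : ¬ TripleMatch 3000000000 (items (st 1100111321111110011111110010000000)) 8 :=
  step (ws := ws) (ts0 := root) h0 (doms := [((st 100111321111110001111110000000000), 7), ((st 1000111321111100011111110000000000), 7), ((st 1100011320111110011111110000000000), 7), ((st 1100111211111110011111110000000000), 7)]) (fuel := 8) (doms_cons n128 (doms_cons n257 (doms_cons n264 (doms_cons n269 doms_nil)))) (and_l (and_l (and_r (and_r (and_r b18)))))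
theorem n301 : ¬ TripleMatch 3000000000 (items (st 1100211212111110011111110010000000)) 8 :=
  step (ws := ws) (ts0 := root) h0 (doms := [((st 100211212111110001111110000000000), 7), ((st 1000211212111100011111110000000000), 7), ((st 1100111211111110011111110000000000), 7), ((st 1100211102111110011111110000000000), 7)]) (fuel := 8) (doms_cons n130 (doms_cons n259 (doms_cons n269 (doms_cons n274 doms_nil)))) (and_l (and_r (and_l (and_r (and_r (and_r b18))))))
theorem n302 : ¬ TripleMatch 3000000000 (items (st 1100211322111110011111110011000000)) 9 :=
  step (ws := ws) (ts0 := root) h0 (doms := [((st 100211322111110001111110010000000), 8), ((st 1000211322111100011111110010000000), 8), ((st 1100111321111110011111110010000000), 8), ((st 1100211212111110011111110010000000), 8)]) (fuel := 8) (doms_cons n178 (doms_cons n299 (doms_cons n300 (doms_cons n301 doms_nil)))) (and_l (and_r (and_r (and_l (and_r (and_r (and_r b18)))))))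
theorem n303 : ¬ TripleMatch 3000000000 (items (st 1000000011210111100011111000000000000)) 5 :=
  step (ws := ws) (ts0 := root) h0 (doms := []) (fuel := 8) doms_nil (and_l (and_r (and_r (and_r (and_l (and_r (and_r (and_r b18))))))))
theorem n304 : ¬ TripleMatch 3000000000 (items (st 1001000011210111100011111110000000000)) 6 :=
  step (ws := ws) (ts0 := root) h0 (doms := [((st 1000000011210111100011111000000000000), 5), ((st 1001000011100111100011111100000000000), 5)]) (fuel := 8) (doms_cons n303 (doms_cons n97 doms_nil)) (and_l (and_l b19))
theorem n305 : ¬ TripleMatch 3000000000 (items (st 1001000011320111100011111110010000000)) 7 :=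
  step (ws := ws) (ts0 := root) h0 (doms := [((st 1000011320111100011111100000000000), 6), ((st 1000000011320111100001111110000000000), 6), ((st 1001000011210111100011111110000000000), 6)]) (fuel := 8) (doms_cons n36 (doms_cons n182 (doms_cons n304 doms_nil))) (and_l (and_r (and_l b19)))
theorem n306 : ¬ TripleMatch 3000000000 (items (st 1000000111101111100011111000000000000)) 5 :=
  step (ws := ws) (ts0 := root) h0 (doms := []) (fuel := 8) doms_nil (and_l (and_r (and_r (and_l b19))))
theorem n307 : ¬ TripleMatch 3000000000 (items (st 1001000111101111100011111110000000000)) 6 :=
  step (ws := ws) (ts0 := root) h0 (doms := [((st 1000000111101111100011111000000000000), 5), ((st 1001000011100111100011111100000000000), 5)]) (fuel := 8) (doms_cons n306 (doms_cons n97 doms_nil)) (and_l (and_r (and_r (and_r (and_l b19)))))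
theorem n308 : ¬ TripleMatch 3000000000 (items (st 1001000111211111100011111110010000000)) 7 :=
  step (ws := ws) (ts0 := root) h0 (doms := [((st 1000111211111100011111100000000000), 6), ((st 1000000111211111100001111110000000000), 6), ((st 1001000011210111100011111110000000000), 6), ((st 1001000111101111100011111110000000000), 6)]) (fuel := 8) (doms_cons n39 (doms_cons n183 (doms_cons n304 (doms_cons n307 doms_nil)))) (and_l (and_l (and_r b19)))
theorem n309 : ¬ TripleMatch 3000000000 (items (st 1001000111321111100011111110011000000)) 8 :=
  step (ws := ws) (ts0 := root) h0 (doms := [((st 1000111321111100011111110000000000), 7), ((st 1000000111321111100001111110010000000), 7), ((st 1001000011320111100011111110010000000), 7), ((st 1001000111211111100011111110010000000), 7)]) (fuel := 8) (doms_cons n257 (doms_cons n184 (doms_cons n305 (doms_cons n308 doms_nil)))) (and_l (and_r (and_l (and_r b19))))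
theorem n310 : ¬ TripleMatch 3000000000 (items (st 1001000211102111100011111110010000000)) 7 :=
  step (ws := ws) (ts0 := root) h0 (doms := [((st 1000211102111100011111100000000000), 6), ((st 1000000211102111100001111110000000000), 6), ((st 1001000111101111100011111110000000000), 6)]) (fuel := 8) (doms_cons n42 (doms_cons n185 (doms_cons n307 doms_nil))) (and_l (and_r (and_r (and_l (and_r b19)))))
theorem n311 : ¬ TripleMatch 3000000000 (items (st 1001000211212111100011111110011000000)) 8 :=
  step (ws := ws) (ts0 := root) h0 (doms := [((st 1000211212111100011111110000000000), 7), ((st 1000000211212111100001111110010000000), 7), ((st 1001000111211111100011111110010000000), 7), ((st 1001000211102111100011111110010000000), 7)]) (fuel := 8) (doms_cons n259 (doms_cons n186 (doms_cons n308 (doms_cons n310 doms_nil)))) (and_l (and_r (and_r (and_r (and_l (and_r b19))))))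
theorem n312 : ¬ TripleMatch 3000000000 (items (st 1001000211322111100011111110011100000)) 9 :=
  step (ws := ws) (ts0 := root) h0 (doms := [((st 1000211322111100011111110010000000), 8), ((st 1000000211322111100001111110011000000), 8), ((st 1001000111321111100011111110011000000), 8), ((st 1001000211212111100011111110011000000), 8)]) (fuel := 8) (doms_cons n299 (doms_cons n187 (doms_cons n309 (doms_cons n311 doms_nil)))) (and_l (and_l (and_r (and_r b19))))
theorem n313 : ¬ TripleMatch 3000000000 (items (st 1000100011100111110011111000000000000)) 5 :=
  step (ws := ws) (ts0 := root) h0 (doms := []) (fuel := 8) doms_nil (and_l (and_r (and_l (and_r (and_r b19)))))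
theorem n314 : ¬ TripleMatch 3000000000 (items (st 1001000011100111110011110100000000000)) 5 :=
  step (ws := ws) (ts0 := root) h0 (doms := []) (fuel := 8) doms_nil (and_l (and_r (and_r (and_l (and_r (and_r b19))))))
theorem n315 : ¬ TripleMatch 3000000000 (items (st 1001100011100111110011111110000000000)) 6 :=
  step (ws := ws) (ts0 := root) h0 (doms := [((st 1000100011100111110011111000000000000), 5), ((st 1001000011100111110011110100000000000), 5)]) (fuel := 8) (doms_cons n313 (doms_cons n314 doms_nil)) (and_l (and_r (and_r (and_r (and_l (and_r (and_r b19)))))))
theorem n316 : ¬ TripleMatch 3000000000 (items (st 1001100011210111110011111110010000000)) 7 :=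
  step (ws := ws) (ts0 := root) h0 (doms := [((st 1100011210111110011111100000000000), 6), ((st 1000100011210111110001111110000000000), 6), ((st 1001000011210111100011111110000000000), 6), ((st 1001100011100111110011111110000000000), 6)]) (fuel := 8) (doms_cons n47 (doms_cons n189 (doms_cons n304 (doms_cons n315 doms_nil)))) (and_l (and_l (and_r (and_r (and_r b19)))))
theorem n317 : ¬ TripleMatch 3000000000 (items (st 1001100011320111110011111110011000000)) 8 :=
  step (ws := ws) (ts0 := root) h0 (doms := [((st 1100011320111110011111110000000000), 7), ((st 1000100011320111110001111110010000000), 7), ((st 1001000011320111100011111110010000000), 7), ((st 1001100011210111110011111110010000000), 7)]) (fuel := 8) (doms_cons n264 (doms_cons n190 (doms_cons n305 (doms_cons n316 doms_nil)))) (and_l (and_r (and_l (and_r (and_r (and_r b19))))))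
theorem n318 : ¬ TripleMatch 3000000000 (items (st 1001100111101111110011111110010000000)) 7 :=
  step (ws := ws) (ts0 := root) h0 (doms := [((st 1100111101111110011111100000000000), 6), ((st 1000100111101111110001111110000000000), 6), ((st 1001000111101111100011111110000000000), 6), ((st 1001100011100111110011111110000000000), 6)]) (fuel := 8) (doms_cons n50 (doms_cons n192 (doms_cons n307 (doms_cons n315 doms_nil)))) (and_l (and_r (and_r (and_l (and_r (and_r (and_r b19)))))))
theorem n319 : ¬ TripleMatch 3000000000 (items (st 1001100111211111110011111110011000000)) 8 :=
  step (ws := ws) (ts0 := root) h0 (doms := [((st 1100111211111110011111110000000000), 7), ((st 1000100111211111110001111110010000000), 7), ((st 1001000111211111100011111110010000000), 7), ((st 1001100011210111110011111110010000000), 7), ((st 1001100111101111110011111110010000000), 7)]) (fuel := 8) (doms_cons n269 (doms_cons n193 (doms_cons n308 (doms_cons n316 (doms_cons n318 doms_nil))))) (and_l (and_r (and_r (and_r (and_l (and_r (and_r (and_r b19))))))))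
theorem n320 : ¬ TripleMatch 3000000000 (items (st 1001100111321111110011111110011100000)) 9 :=
  step (ws := ws) (ts0 := root) h0 (doms := [((st 1100111321111110011111110010000000), 8), ((st 1000100111321111110001111110011000000), 8), ((st 1001000111321111100011111110011000000), 8), ((st 1001100011320111110011111110011000000), 8), ((st 1001100111211111110011111110011000000), 8)]) (fuel := 8) (doms_cons n300 (doms_cons n194 (doms_cons n309 (doms_cons n317 (doms_cons n319 doms_nil))))) (and_l (and_l b20))
theorem n321 : ¬ TripleMatch 3000000000 (items (st 1001100211102111110011111110011000000)) 8 :=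
  step (ws := ws) (ts0 := root) h0 (doms := [((st 1100211102111110011111110000000000), 7), ((st 1000100211102111110001111110010000000), 7), ((st 1001000211102111100011111110010000000), 7), ((st 1001100111101111110011111110010000000), 7)]) (fuel := 8) (doms_cons n274 (doms_cons n195 (doms_cons n310 (doms_cons n318 doms_nil)))) (and_l (and_r (and_l b20)))
theorem n322 : ¬ TripleMatch 3000000000 (items (st 1001100211212111110011111110011100000)) 9 :=
  step (ws := ws) (ts0 := root) h0 (doms := [((st 1100211212111110011111110010000000), 8), ((st 1000100211212111110001111110011000000), 8), ((st 1001000211212111100011111110011000000), 8), ((st 1001100111211111110011111110011000000), 8), ((st 1001100211102111110011111110011000000), 8)]) (fuel := 8) (doms_cons n301 (doms_cons n196 (doms_cons n311 (doms_cons n319 (doms_cons n321 doms_nil))))) (and_l (and_r (and_r (and_l b20))))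
theorem n323 : ¬ TripleMatch 3000000000 (items (st 1001100211322111110011111110011110000)) 10 :=
  step (ws := ws) (ts0 := root) h0 (doms := [((st 1100211322111110011111110011000000), 9), ((st 1000100211322111110001111110011100000), 9), ((st 1001000211322111100011111110011100000), 9), ((st 1001100111321111110011111110011100000), 9), ((st 1001100211212111110011111110011100000), 9)]) (fuel := 8) (doms_cons n302 (doms_cons n197 (doms_cons n312 (doms_cons n320 (doms_cons n322 doms_nil))))) (and_l (and_r (and_r (and_r (and_l b20)))))
theorem n324 : ¬ TripleMatch 3000000000 (items (st 101000211322111100011111110111000000)) 9 :=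
  step (ws := ws) (ts0 := root) h0 (doms := [((st 1000211322111100011111110100000000), 8), ((st 100000211322111100001111110110000000), 8), ((st 101000111321111100011111110110000000), 8), ((st 101000211212111100011111110110000000), 8)]) (fuel := 8) (doms_cons n260 (doms_cons n154 (doms_cons n284 (doms_cons n286 doms_nil)))) (and_l (and_l (and_r b20)))
theorem n325 : ¬ TripleMatch 3000000000 (items (st 1001000011320111100011111110100000000)) 7 :=
  step (ws := ws) (ts0 := root) h0 (doms := [((st 1000011320111100011111100000000000), 6), ((st 1000000011320111100001111110000000000), 6), ((st 1001000011210111100011111110000000000), 6)]) (fuel := 8) (doms_cons n36 (doms_cons n182 (doms_cons n304 doms_nil))) (and_l (and_r (and_l (and_r b20))))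
theorem n326 : ¬ TripleMatch 3000000000 (items (st 1001000111211111100011111110100000000)) 7 :=
  step (ws := ws) (ts0 := root) h0 (doms := [((st 1000111211111100011111100000000000), 6), ((st 1000000111211111100001111110000000000), 6), ((st 1001000011210111100011111110000000000), 6), ((st 1001000111101111100011111110000000000), 6)]) (fuel := 8) (doms_cons n39 (doms_cons n183 (doms_cons n304 (doms_cons n307 doms_nil)))) (and_l (and_r (and_r (and_l (and_r b20)))))
theorem n327 : ¬ TripleMatch 3000000000 (items (st 1001000111321111100011111110110000000)) 8 :=
  step (ws := ws) (ts0 := root) h0 (doms := [((st 1000111321111100011111110000000000), 7), ((st 1000000111321111100001111110100000000), 7), ((st 1001000011320111100011111110100000000), 7), ((st 1001000111211111100011111110100000000), 7)]) (fuel := 8) (doms_cons n257 (doms_cons n211 (doms_cons n325 (doms_cons n326 doms_nil)))) (and_l (and_r (and_r (and_r (and_l (and_r b20))))))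
theorem n328 : ¬ TripleMatch 3000000000 (items (st 1001000211102111100011111110100000000)) 7 :=
  step (ws := ws) (ts0 := root) h0 (doms := [((st 1000211102111100011111100000000000), 6), ((st 1000000211102111100001111110000000000), 6), ((st 1001000111101111100011111110000000000), 6)]) (fuel := 8) (doms_cons n42 (doms_cons n185 (doms_cons n307 doms_nil))) (and_l (and_l (and_r (and_r b20))))
theorem n329 : ¬ TripleMatch 3000000000 (items (st 1001000211212111100011111110110000000)) 8 :=
  step (ws := ws) (ts0 := root) h0 (doms := [((st 1000211212111100011111110000000000), 7), ((st 1000000211212111100001111110100000000), 7), ((st 1001000111211111100011111110100000000), 7), ((st 1001000211102111100011111110100000000), 7)]) (fuel := 8) (doms_cons n259 (doms_cons n212 (doms_cons n326 (doms_cons n328 doms_nil)))) (and_l (and_r (and_l (and_r (and_r b20)))))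
theorem n330 : ¬ TripleMatch 3000000000 (items (st 1001000211322111100011111110110100000)) 9 :=
  step (ws := ws) (ts0 := root) h0 (doms := [((st 1000211322111100011111110100000000), 8), ((st 1000000211322111100001111110110000000), 8), ((st 1001000111321111100011111110110000000), 8), ((st 1001000211212111100011111110110000000), 8)]) (fuel := 8) (doms_cons n260 (doms_cons n213 (doms_cons n327 (doms_cons n329 doms_nil)))) (and_l (and_r (and_r (and_l (and_r (and_r b20))))))
theorem n331 : ¬ TripleMatch 3000000000 (items (st 1101000011100111100011111110100000000)) 6 :=
  step (ws := ws) (ts0 := root) h0 (doms := [((st 1001000011100111100011111100000000000), 5), ((st 1100000011100111100001111110000000000), 5)]) (fuel := 8) (doms_cons n97 (doms_cons n220 doms_nil)) (and_l (and_r (and_r (and_r (and_l (and_r (and_r b20)))))))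
theorem n332 : ¬ TripleMatch 3000000000 (items (st 1101000011210111100011111110110000000)) 7 :=
  step (ws := ws) (ts0 := root) h0 (doms := [((st 1001000011210111100011111110000000000), 6), ((st 1100000011210111100001111110100000000), 6), ((st 1101000011100111100011111110100000000), 6)]) (fuel := 8) (doms_cons n304 (doms_cons n221 (doms_cons n331 doms_nil))) (and_l (and_l (and_r (and_r (and_r b20)))))
theorem n333 : ¬ TripleMatch 3000000000 (items (st 1101000011320111100011111110111000000)) 8 :=
  step (ws := ws) (ts0 := root) h0 (doms := [((st 1001000011320111100011111110100000000), 7), ((st 1100000011320111100001111110110000000), 7), ((st 1101000011210111100011111110110000000), 7)]) (fuel := 8) (doms_cons n325 (doms_cons n222 (doms_cons n332 doms_nil))) (and_l (and_r (and_l (and_r (and_r (and_r b20))))))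
theorem n334 : ¬ TripleMatch 3000000000 (items (st 1101000111101111100011111110110000000)) 7 :=
  step (ws := ws) (ts0 := root) h0 (doms := [((st 1001000111101111100011111110000000000), 6), ((st 1100000111101111100001111110100000000), 6), ((st 1101000011100111100011111110100000000), 6)]) (fuel := 8) (doms_cons n307 (doms_cons n223 (doms_cons n331 doms_nil))) (and_l (and_r (and_r (and_l (and_r (and_r (and_r b20)))))))
theorem n335 : ¬ TripleMatch 3000000000 (items (st 1101000111211111100011111110111000000)) 8 :=
  step (ws := ws) (ts0 := root) h0 (doms := [((st 1001000111211111100011111110100000000), 7), ((st 1100000111211111100001111110110000000), 7), ((st 1101000011210111100011111110110000000), 7), ((st 1101000111101111100011111110110000000), 7)]) (fuel := 8) (doms_cons n326 (doms_cons n224 (doms_cons n332 (doms_cons n334 doms_nil)))) (and_l (and_r (and_r (and_r (and_l (and_r (and_r (and_r b20))))))))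
theorem n336 : ¬ TripleMatch 3000000000 (items (st 1101000111321111100011111110111100000)) 9 :=
  step (ws := ws) (ts0 := root) h0 (doms := [((st 1001000111321111100011111110110000000), 8), ((st 1100000111321111100001111110111000000), 8), ((st 1101000011320111100011111110111000000), 8), ((st 1101000111211111100011111110111000000), 8)]) (fuel := 8) (doms_cons n327 (doms_cons n225 (doms_cons n333 (doms_cons n335 doms_nil)))) (and_l (and_l b21))
theorem n337 : ¬ TripleMatch 3000000000 (items (st 1101000211102111100011111110111000000)) 8 :=
  step (ws := ws) (ts0 := root) h0 (doms := [((st 1001000211102111100011111110100000000), 7), ((st 1100000211102111100001111110110000000), 7), ((st 1101000111101111100011111110110000000), 7)]) (fuel := 8) (doms_cons n328 (doms_cons n226 (doms_cons n334 doms_nil))) (and_l (and_r (and_l b21)))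
theorem n338 : ¬ TripleMatch 3000000000 (items (st 1101000211212111100011111110111100000)) 9 :=
  step (ws := ws) (ts0 := root) h0 (doms := [((st 1001000211212111100011111110110000000), 8), ((st 1100000211212111100001111110111000000), 8), ((st 1101000111211111100011111110111000000), 8), ((st 1101000211102111100011111110111000000), 8)]) (fuel := 8) (doms_cons n329 (doms_cons n227 (doms_cons n335 (doms_cons n337 doms_nil)))) (and_l (and_r (and_r (and_l b21))))
theorem n339 : ¬ TripleMatch 3000000000 (items (st 1101000211322111100011111110111110000)) 10 :=
  step (ws := ws) (ts0 := root) h0 (doms := [((st 101000211322111100011111110111000000), 9), ((st 1001000211322111100011111110110100000), 9), ((st 1100000211322111100001111110111100000), 9), ((st 1101000111321111100011111110111100000), 9), ((st 1101000211212111100011111110111100000), 9)]) (fuel := 8) (doms_cons n324 (doms_cons n330 (doms_cons n228 (doms_cons n336 (doms_cons n338 doms_nil))))) (and_l (and_r (and_r (and_r (and_l b21)))))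
theorem n340 : ¬ TripleMatch 3000000000 (items (st 101100111321111110011111110111000000)) 9 :=
  step (ws := ws) (ts0 := root) h0 (doms := [((st 1100111321111110011111110100000000), 8), ((st 100100111321111110001111110110000000), 8), ((st 101000111321111100011111110110000000), 8), ((st 101100011320111110011111110110000000), 8), ((st 101100111211111110011111110110000000), 8)]) (fuel := 8) (doms_cons n270 (doms_cons n162 (doms_cons n284 (doms_cons n292 (doms_cons n294 doms_nil))))) (and_l (and_l (and_r b21)))
theorem n341 : ¬ TripleMatch 3000000000 (items (st 1001100011210111110011111110100000000)) 7 :=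
  step (ws := ws) (ts0 := root) h0 (doms := [((st 1100011210111110011111100000000000), 6), ((st 1000100011210111110001111110000000000), 6), ((st 1001000011210111100011111110000000000), 6), ((st 1001100011100111110011111110000000000), 6)]) (fuel := 8) (doms_cons n47 (doms_cons n189 (doms_cons n304 (doms_cons n315 doms_nil)))) (and_l (and_r (and_l (and_r b21))))
theorem n342 : ¬ TripleMatch 3000000000 (items (st 1001100011320111110011111110110000000)) 8 :=
  step (ws := ws) (ts0 := root) h0 (doms := [((st 1100011320111110011111110000000000), 7), ((st 1000100011320111110001111110100000000), 7), ((st 1001000011320111100011111110100000000), 7), ((st 1001100011210111110011111110100000000), 7)]) (fuel := 8) (doms_cons n264 (doms_cons n214 (doms_cons n325 (doms_cons n341 doms_nil)))) (and_l (and_r (and_r (and_l (and_r b21)))))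
theorem n343 : ¬ TripleMatch 3000000000 (items (st 1001100111101111110011111110100000000)) 7 :=
  step (ws := ws) (ts0 := root) h0 (doms := [((st 1100111101111110011111100000000000), 6), ((st 1000100111101111110001111110000000000), 6), ((st 1001000111101111100011111110000000000), 6), ((st 1001100011100111110011111110000000000), 6)]) (fuel := 8) (doms_cons n50 (doms_cons n192 (doms_cons n307 (doms_cons n315 doms_nil)))) (and_l (and_r (and_r (and_r (and_l (and_r b21))))))
theorem n344 : ¬ TripleMatch 3000000000 (items (st 1001100111211111110011111110110000000)) 8 :=
  step (ws := ws) (ts0 := root) h0 (doms := [((st 1100111211111110011111110000000000), 7), ((st 1000100111211111110001111110100000000), 7), ((st 1001000111211111100011111110100000000), 7), ((st 1001100011210111110011111110100000000), 7), ((st 1001100111101111110011111110100000000), 7)]) (fuel := 8) (doms_cons n269 (doms_cons n215 (doms_cons n326 (doms_cons n341 (doms_cons n343 doms_nil))))) (and_l (and_l (and_r (and_r b21))))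
theorem n345 : ¬ TripleMatch 3000000000 (items (st 1001100111321111110011111110110100000)) 9 :=
  step (ws := ws) (ts0 := root) h0 (doms := [((st 1100111321111110011111110100000000), 8), ((st 1000100111321111110001111110110000000), 8), ((st 1001000111321111100011111110110000000), 8), ((st 1001100011320111110011111110110000000), 8), ((st 1001100111211111110011111110110000000), 8)]) (fuel := 8) (doms_cons n270 (doms_cons n216 (doms_cons n327 (doms_cons n342 (doms_cons n344 doms_nil))))) (and_l (and_r (and_l (and_r (and_r b21)))))
theorem n346 : ¬ TripleMatch 3000000000 (items (st 1101100011100111110011111110110000000)) 7 :=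
  step (ws := ws) (ts0 := root) h0 (doms := [((st 1001100011100111110011111110000000000), 6), ((st 1100100011100111110001111110100000000), 6), ((st 1101000011100111100011111110100000000), 6)]) (fuel := 8) (doms_cons n315 (doms_cons n229 (doms_cons n331 doms_nil))) (and_l (and_r (and_r (and_l (and_r (and_r b21))))))
theorem n347 : ¬ TripleMatch 3000000000 (items (st 1101100011210111110011111110111000000)) 8 :=
  step (ws := ws) (ts0 := root) h0 (doms := [((st 1001100011210111110011111110100000000), 7), ((st 1100100011210111110001111110110000000), 7), ((st 1101000011210111100011111110110000000), 7), ((st 1101100011100111110011111110110000000), 7)]) (fuel := 8) (doms_cons n341 (doms_cons n230 (doms_cons n332 (doms_cons n346 doms_nil)))) (and_l (and_r (and_r (and_r (and_l (and_r (and_r b21)))))))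
theorem n348 : ¬ TripleMatch 3000000000 (items (st 1101100011320111110011111110111100000)) 9 :=
  step (ws := ws) (ts0 := root) h0 (doms := [((st 1001100011320111110011111110110000000), 8), ((st 1100100011320111110001111110111000000), 8), ((st 1101000011320111100011111110111000000), 8), ((st 1101100011210111110011111110111000000), 8)]) (fuel := 8) (doms_cons n342 (doms_cons n231 (doms_cons n333 (doms_cons n347 doms_nil)))) (and_l (and_l (and_r (and_r (and_r b21)))))
theorem n349 : ¬ TripleMatch 3000000000 (items (st 1101100111101111110011111110111000000)) 8 :=
  step (ws := ws) (ts0 := root) h0 (doms := [((st 1001100111101111110011111110100000000), 7), ((st 1100100111101111110001111110110000000), 7), ((st 1101000111101111100011111110110000000), 7), ((st 1101100011100111110011111110110000000), 7)]) (fuel := 8) (doms_cons n343 (doms_cons n232 (doms_cons n334 (doms_cons n346 doms_nil)))) (and_l (and_r (and_l (and_r (and_r (and_r b21))))))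
theorem n350 : ¬ TripleMatch 3000000000 (items (st 1101100111211111110011111110111100000)) 9 :=
  step (ws := ws) (ts0 := root) h0 (doms := [((st 1001100111211111110011111110110000000), 8), ((st 1100100111211111110001111110111000000), 8), ((st 1101000111211111100011111110111000000), 8), ((st 1101100011210111110011111110111000000), 8), ((st 1101100111101111110011111110111000000), 8)]) (fuel := 8) (doms_cons n344 (doms_cons n233 (doms_cons n335 (doms_cons n347 (doms_cons n349 doms_nil))))) (and_l (and_r (and_r (and_l (and_r (and_r (and_r b21)))))))
theorem n351 : ¬ TripleMatch 3000000000 (items (st 1101100111321111110011111110111110000)) 10 :=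
  step (ws := ws) (ts0 := root) h0 (doms := [((st 101100111321111110011111110111000000), 9), ((st 1001100111321111110011111110110100000), 9), ((st 1100100111321111110001111110111100000), 9), ((st 1101000111321111100011111110111100000), 9), ((st 1101100011320111110011111110111100000), 9), ((st 1101100111211111110011111110111100000), 9)]) (fuel := 8) (doms_cons n340 (doms_cons n345 (doms_cons n234 (doms_cons n336 (doms_cons n348 (doms_cons n350 doms_nil)))))) (and_l (and_r (and_r (and_r (and_l (and_r (and_r (and_r b21))))))))
theorem n352 : ¬ TripleMatch 3000000000 (items (st 101100211212111110011111110111000000)) 9 :=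
  step (ws := ws) (ts0 := root) h0 (doms := [((st 1100211212111110011111110100000000), 8), ((st 100100211212111110001111110110000000), 8), ((st 101000211212111100011111110110000000), 8), ((st 101100111211111110011111110110000000), 8), ((st 101100211102111110011111110110000000), 8)]) (fuel := 8) (doms_cons n275 (doms_cons n164 (doms_cons n286 (doms_cons n294 (doms_cons n296 doms_nil))))) (and_l (and_l b22))
theorem n353 : ¬ TripleMatch 3000000000 (items (st 1001100211102111110011111110110000000)) 8 :=
  step (ws := ws) (ts0 := root) h0 (doms := [((st 1100211102111110011111110000000000), 7), ((st 1000100211102111110001111110100000000), 7), ((st 1001000211102111100011111110100000000), 7), ((st 1001100111101111110011111110100000000), 7)]) (fuel := 8) (doms_cons n274 (doms_cons n217 (doms_cons n328 (doms_cons n343 doms_nil)))) (and_l (and_r (and_l b22)))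
theorem n354 : ¬ TripleMatch 3000000000 (items (st 1001100211212111110011111110110100000)) 9 :=
  step (ws := ws) (ts0 := root) h0 (doms := [((st 1100211212111110011111110100000000), 8), ((st 1000100211212111110001111110110000000), 8), ((st 1001000211212111100011111110110000000), 8), ((st 1001100111211111110011111110110000000), 8), ((st 1001100211102111110011111110110000000), 8)]) (fuel := 8) (doms_cons n275 (doms_cons n218 (doms_cons n329 (doms_cons n344 (doms_cons n353 doms_nil))))) (and_l (and_r (and_r (and_l b22))))
theorem n355 : ¬ TripleMatch 3000000000 (items (st 1101100211102111110011111110111100000)) 9 :=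
  step (ws := ws) (ts0 := root) h0 (doms := [((st 1001100211102111110011111110110000000), 8), ((st 1100100211102111110001111110111000000), 8), ((st 1101000211102111100011111110111000000), 8), ((st 1101100111101111110011111110111000000), 8)]) (fuel := 8) (doms_cons n353 (doms_cons n235 (doms_cons n337 (doms_cons n349 doms_nil)))) (and_l (and_r (and_r (and_r (and_l b22)))))
theorem n356 : ¬ TripleMatch 3000000000 (items (st 1101100211212111110011111110111110000)) 10 :=
  step (ws := ws) (ts0 := root) h0 (doms := [((st 101100211212111110011111110111000000), 9), ((st 1001100211212111110011111110110100000), 9), ((st 1100100211212111110001111110111100000), 9), ((st 1101000211212111100011111110111100000), 9), ((st 1101100111211111110011111110111100000), 9), ((st 1101100211102111110011111110111100000), 9)]) (fuel := 8) (doms_cons n352 (doms_cons n354 (doms_cons n236 (doms_cons n338 (doms_cons n350 (doms_cons n355 doms_nil)))))) (and_l (and_l (and_r b22)))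
theorem n357 : ¬ TripleMatch 3000000000 (items (st 1101100211322111110011111110111111000)) 11 :=
  step (ws := ws) (ts0 := root) h0 (doms := [((st 101100211322111110011111110110110000), 10), ((st 1001100211322111110011111110011110000), 10), ((st 1100100211322111110001111110111110000), 10), ((st 1101000211322111100011111110111110000), 10), ((st 1101100111321111110011111110111110000), 10), ((st 1101100211212111110011111110111110000), 10)]) (fuel := 8) (doms_cons n298 (doms_cons n323 (doms_cons n237 (doms_cons n339 (doms_cons n351 (doms_cons n356 doms_nil)))))) (and_l (and_r (and_l (and_r b22))))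
theorem n358 : ¬ TripleMatch 3000000000 (items (st 11210111111010000000000000000)) 4 :=
  step (ws := ws) (ts0 := root) h0 (doms := []) (fuel := 8) doms_nil (and_l (and_r (and_r (and_l (and_r b22)))))
theorem n359 : ¬ TripleMatch 3000000000 (items (st 10011100111111011000000000000000)) 4 :=
  step (ws := ws) (ts0 := root) h0 (doms := []) (fuel := 8) doms_nil (and_l (and_r (and_r (and_r (and_l (and_r b22))))))
theorem n360 : ¬ TripleMatch 3000000000 (items (st 10011210111111011100000000000000)) 5 :=
  step (ws := ws) (ts0 := root) h0 (doms := [((st 11210111111010000000000000000), 4), ((st 10011100111111011000000000000000), 4)]) (fuel := 8) (doms_cons n358 (doms_cons n359 doms_nil)) (and_l (and_l (and_r (and_r b22))))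
theorem n361 : ¬ TripleMatch 3000000000 (items (st 100011100111111011000000000000000)) 4 :=
  step (ws := ws) (ts0 := root) h0 (doms := []) (fuel := 8) doms_nil (and_l (and_r (and_l (and_r (and_r b22)))))
theorem n362 : ¬ TripleMatch 3000000000 (items (st 100011210111111011010000000000000)) 5 :=
  step (ws := ws) (ts0 := root) h0 (doms := [((st 11210111111010000000000000000), 4), ((st 100011100111111011000000000000000), 4)]) (fuel := 8) (doms_cons n358 (doms_cons n361 doms_nil)) (and_l (and_r (and_r (and_l (and_r (and_r b22))))))
theorem n363 : ¬ TripleMatch 3000000000 (items (st 110011100111111011110000000000000)) 5 :=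
  step (ws := ws) (ts0 := root) h0 (doms := [((st 100011100111111011000000000000000), 4)]) (fuel := 8) (doms_cons n361 doms_nil) (and_l (and_r (and_r (and_r (and_l (and_r (and_r b22)))))))
theorem n364 : ¬ TripleMatch 3000000000 (items (st 110011210111111011111000000000000)) 6 :=
  step (ws := ws) (ts0 := root) h0 (doms := [((st 10011210111111011100000000000000), 5), ((st 100011210111111011010000000000000), 5), ((st 110011100111111011110000000000000), 5)]) (fuel := 8) (doms_cons n360 (doms_cons n362 (doms_cons n363 doms_nil))) (and_l (and_l (and_r (and_r (and_r b22)))))
theorem n365 : ¬ TripleMatch 3000000000 (items (st 1000011210111111010110000000000000)) 5 :=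
  step (ws := ws) (ts0 := root) h0 (doms := [((st 11210111111010000000000000000), 4), ((st 1000011100111111010100000000000000), 4)]) (fuel := 8) (doms_cons n358 (doms_cons n58 doms_nil)) (and_l (and_r (and_l (and_r (and_r (and_r b22))))))
theorem n366 : ¬ TripleMatch 3000000000 (items (st 1010011210111111011110100000000000)) 6 :=
  step (ws := ws) (ts0 := root) h0 (doms := [((st 10011210111111011100000000000000), 5), ((st 1000011210111111010110000000000000), 5), ((st 1010011100111111011110000000000000), 5)]) (fuel := 8) (doms_cons n360 (doms_cons n365 (doms_cons n57 doms_nil))) (and_l (and_r (and_r (and_l (and_r (and_r (and_r b22)))))))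
theorem n367 : ¬ TripleMatch 3000000000 (items (st 1100011210111111010111100000000000)) 6 :=
  step (ws := ws) (ts0 := root) h0 (doms := [((st 1000011210111111010110000000000000), 5), ((st 1100011100111111010111000000000000), 5)]) (fuel := 8) (doms_cons n365 (doms_cons n59 doms_nil)) (and_l (and_r (and_r (and_r (and_l (and_r (and_r (and_r b22))))))))
theorem n368 : ¬ TripleMatch 3000000000 (items (st 1110011210111111011111110000000000)) 7 :=
  step (ws := ws) (ts0 := root) h0 (doms := [((st 110011210111111011111000000000000), 6), ((st 1010011210111111011110100000000000), 6), ((st 1100011210111111010111100000000000), 6), ((st 1110011100111111011111100000000000), 6)]) (fuel := 8) (doms_cons n364 (doms_cons n366 (doms_cons n367 (doms_cons n60 doms_nil)))) (and_l (and_l b23))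
theorem n369 : ¬ TripleMatch 3000000000 (items (st 1110011320111111011111110100000000)) 8 :=
  step (ws := ws) (ts0 := root) h0 (doms := [((st 110011320111111001111110000000000), 7), ((st 1100011320111110011111110000000000), 7), ((st 1110011210111111011111110000000000), 7)]) (fuel := 8) (doms_cons n135 (doms_cons n264 (doms_cons n368 doms_nil))) (and_l (and_r (and_l b23)))
theorem n370 : ¬ TripleMatch 3000000000 (items (st 111101111111010000000000000000)) 4 :=
  step (ws := ws) (ts0 := root) h0 (doms := []) (fuel := 8) doms_nil (and_l (and_r (and_r (and_l b23))))
theorem n371 : ¬ TripleMatch 3000000000 (items (st 10111101111111011100000000000000)) 5 :=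
  step (ws := ws) (ts0 := root) h0 (doms := [((st 111101111111010000000000000000), 4), ((st 10011100111111011000000000000000), 4)]) (fuel := 8) (doms_cons n370 (doms_cons n359 doms_nil)) (and_l (and_r (and_r (and_r (and_l b23)))))
theorem n372 : ¬ TripleMatch 3000000000 (items (st 100111101111111011010000000000000)) 5 :=
  step (ws := ws) (ts0 := root) h0 (doms := [((st 111101111111010000000000000000), 4), ((st 100011100111111011000000000000000), 4)]) (fuel := 8) (doms_cons n370 (doms_cons n361 doms_nil)) (and_l (and_l (and_r b23)))
theorem n373 : ¬ TripleMatch 3000000000 (items (st 110111101111111011111000000000000)) 6 :=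
  step (ws := ws) (ts0 := root) h0 (doms := [((st 10111101111111011100000000000000), 5), ((st 100111101111111011010000000000000), 5), ((st 110011100111111011110000000000000), 5)]) (fuel := 8) (doms_cons n371 (doms_cons n372 (doms_cons n363 doms_nil))) (and_l (and_r (and_l (and_r b23))))
theorem n374 : ¬ TripleMatch 3000000000 (items (st 1000111101111111010110000000000000)) 5 :=
  step (ws := ws) (ts0 := root) h0 (doms := [((st 111101111111010000000000000000), 4), ((st 1000011100111111010100000000000000), 4)]) (fuel := 8) (doms_cons n370 (doms_cons n58 doms_nil)) (and_l (and_r (and_r (and_l (and_r b23)))))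
theorem n375 : ¬ TripleMatch 3000000000 (items (st 1010111101111111011110100000000000)) 6 :=
  step (ws := ws) (ts0 := root) h0 (doms := [((st 10111101111111011100000000000000), 5), ((st 1000111101111111010110000000000000), 5), ((st 1010011100111111011110000000000000), 5)]) (fuel := 8) (doms_cons n371 (doms_cons n374 (doms_cons n57 doms_nil))) (and_l (and_r (and_r (and_r (and_l (and_r b23))))))
theorem n376 : ¬ TripleMatch 3000000000 (items (st 1100111101111111010111100000000000)) 6 :=
  step (ws := ws) (ts0 := root) h0 (doms := [((st 1000111101111111010110000000000000), 5), ((st 1100011100111111010111000000000000), 5)]) (fuel := 8) (doms_cons n374 (doms_cons n59 doms_nil)) (and_l (and_l (and_r (and_r b23))))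
theorem n377 : ¬ TripleMatch 3000000000 (items (st 1110111101111111011111110000000000)) 7 :=
  step (ws := ws) (ts0 := root) h0 (doms := [((st 110111101111111011111000000000000), 6), ((st 1010111101111111011110100000000000), 6), ((st 1100111101111111010111100000000000), 6), ((st 1110011100111111011111100000000000), 6)]) (fuel := 8) (doms_cons n373 (doms_cons n375 (doms_cons n376 (doms_cons n60 doms_nil)))) (and_l (and_r (and_l (and_r (and_r b23)))))
theorem n378 : ¬ TripleMatch 3000000000 (items (st 1110111211111111011111110100000000)) 8 :=
  step (ws := ws) (ts0 := root) h0 (doms := [((st 110111211111111001111110000000000), 7), ((st 1100111211111110011111110000000000), 7), ((st 1110011210111111011111110000000000), 7), ((st 1110111101111111011111110000000000), 7)]) (fuel := 8) (doms_cons n139 (doms_cons n269 (doms_cons n368 (doms_cons n377 doms_nil)))) (and_l (and_r (and_r (and_l (and_r (and_r b23))))))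
theorem n379 : ¬ TripleMatch 3000000000 (items (st 1110111321111111011111110100100000)) 9 :=
  step (ws := ws) (ts0 := root) h0 (doms := [((st 110111321111111001111110100000000), 8), ((st 1100111321111110011111110100000000), 8), ((st 1110011320111111011111110100000000), 8), ((st 1110111211111111011111110100000000), 8)]) (fuel := 8) (doms_cons n140 (doms_cons n270 (doms_cons n369 (doms_cons n378 doms_nil)))) (and_l (and_r (and_r (and_r (and_l (and_r (and_r b23)))))))
theorem n380 : ¬ TripleMatch 3000000000 (items (st 101110011100111111011111110100000000)) 7 :=
  step (ws := ws) (ts0 := root) h0 (doms := [((st 1110011100111111011111100000000000), 6), ((st 100110011100111111001111110000000000), 6), ((st 101100011100111110011111110000000000), 6)]) (fuel := 8) (doms_cons n60 (doms_cons n169 (doms_cons n290 doms_nil))) (and_l (and_l (and_r (and_r (and_r b23)))))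
theorem n381 : ¬ TripleMatch 3000000000 (items (st 101110011210111111011111110110000000)) 8 :=
  step (ws := ws) (ts0 := root) h0 (doms := [((st 1110011210111111011111110000000000), 7), ((st 100110011210111111001111110100000000), 7), ((st 101100011210111110011111110100000000), 7), ((st 101110011100111111011111110100000000), 7)]) (fuel := 8) (doms_cons n368 (doms_cons n170 (doms_cons n291 (doms_cons n380 doms_nil)))) (and_l (and_r (and_l (and_r (and_r (and_r b23))))))
theorem n382 : ¬ TripleMatch 3000000000 (items (st 101110011320111111011111110110100000)) 9 :=
  step (ws := ws) (ts0 := root) h0 (doms := [((st 1110011320111111011111110100000000), 8), ((st 100110011320111111001111110110000000), 8), ((st 101100011320111110011111110110000000), 8), ((st 101110011210111111011111110110000000), 8)]) (fuel := 8) (doms_cons n369 (doms_cons n171 (doms_cons n292 (doms_cons n381 doms_nil)))) (and_l (and_r (and_r (and_l (and_r (and_r (and_r b23)))))))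
theorem n383 : ¬ TripleMatch 3000000000 (items (st 101110111101111111011111110110000000)) 8 :=
  step (ws := ws) (ts0 := root) h0 (doms := [((st 1110111101111111011111110000000000), 7), ((st 100110111101111111001111110100000000), 7), ((st 101100111101111110011111110100000000), 7), ((st 101110011100111111011111110100000000), 7)]) (fuel := 8) (doms_cons n377 (doms_cons n172 (doms_cons n293 (doms_cons n380 doms_nil)))) (and_l (and_r (and_r (and_r (and_l (and_r (and_r (and_r b23))))))))
theorem n384 : ¬ TripleMatch 3000000000 (items (st 101110111211111111011111110110100000)) 9 :=
  step (ws := ws) (ts0 := root) h0 (doms := [((st 1110111211111111011111110100000000), 8), ((st 100110111211111111001111110110000000), 8), ((st 101100111211111110011111110110000000), 8), ((st 101110011210111111011111110110000000), 8), ((st 101110111101111111011111110110000000), 8)]) (fuel := 8) (doms_cons n378 (doms_cons n173 (doms_cons n294 (doms_cons n381 (doms_cons n383 doms_nil))))) (and_l (and_l b24))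
theorem n385 : ¬ TripleMatch 3000000000 (items (st 101110111321111111011111110110110000)) 10 :=
  step (ws := ws) (ts0 := root) h0 (doms := [((st 1110111321111111011111110100100000), 9), ((st 100110111321111111001111110110100000), 9), ((st 101100111321111110011111110110100000), 9), ((st 101110011320111111011111110110100000), 9), ((st 101110111211111111011111110110100000), 9)]) (fuel := 8) (doms_cons n379 (doms_cons n174 (doms_cons n295 (doms_cons n382 (doms_cons n384 doms_nil))))) (and_l (and_r (and_l b24)))
theorem n386 : ¬ TripleMatch 3000000000 (items (st 1110011320111111011111110010000000)) 8 :=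
  step (ws := ws) (ts0 := root) h0 (doms := [((st 110011320111111001111110000000000), 7), ((st 1100011320111110011111110000000000), 7), ((st 1110011210111111011111110000000000), 7)]) (fuel := 8) (doms_cons n135 (doms_cons n264 (doms_cons n368 doms_nil))) (and_l (and_r (and_r (and_l b24))))
theorem n387 : ¬ TripleMatch 3000000000 (items (st 1110111211111111011111110010000000)) 8 :=
  step (ws := ws) (ts0 := root) h0 (doms := [((st 110111211111111001111110000000000), 7), ((st 1100111211111110011111110000000000), 7), ((st 1110011210111111011111110000000000), 7), ((st 1110111101111111011111110000000000), 7)]) (fuel := 8) (doms_cons n139 (doms_cons n269 (doms_cons n368 (doms_cons n377 doms_nil)))) (and_l (and_r (and_r (and_r (and_l b24)))))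
theorem n388 : ¬ TripleMatch 3000000000 (items (st 1110111321111111011111110011000000)) 9 :=
  step (ws := ws) (ts0 := root) h0 (doms := [((st 110111321111111001111110010000000), 8), ((st 1100111321111110011111110010000000), 8), ((st 1110011320111111011111110010000000), 8), ((st 1110111211111111011111110010000000), 8)]) (fuel := 8) (doms_cons n179 (doms_cons n300 (doms_cons n386 (doms_cons n387 doms_nil)))) (and_l (and_l (and_r b24)))
theorem n389 : ¬ TripleMatch 3000000000 (items (st 1001110011100111111011111110010000000)) 7 :=
  step (ws := ws) (ts0 := root) h0 (doms := [((st 1110011100111111011111100000000000), 6), ((st 1000110011100111111001111110000000000), 6), ((st 1001100011100111110011111110000000000), 6)]) (fuel := 8) (doms_cons n60 (doms_cons n201 (doms_cons n315 doms_nil))) (and_l (and_r (and_l (and_r b24))))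
theorem n390 : ¬ TripleMatch 3000000000 (items (st 1001110011210111111011111110011000000)) 8 :=
  step (ws := ws) (ts0 := root) h0 (doms := [((st 1110011210111111011111110000000000), 7), ((st 1000110011210111111001111110010000000), 7), ((st 1001100011210111110011111110010000000), 7), ((st 1001110011100111111011111110010000000), 7)]) (fuel := 8) (doms_cons n368 (doms_cons n202 (doms_cons n316 (doms_cons n389 doms_nil)))) (and_l (and_r (and_r (and_l (and_r b24)))))
theorem n391 : ¬ TripleMatch 3000000000 (items (st 1001110011320111111011111110011100000)) 9 :=
  step (ws := ws) (ts0 := root) h0 (doms := [((st 1110011320111111011111110010000000), 8), ((st 1000110011320111111001111110011000000), 8), ((st 1001100011320111110011111110011000000), 8), ((st 1001110011210111111011111110011000000), 8)]) (fuel := 8) (doms_cons n386 (doms_cons n203 (doms_cons n317 (doms_cons n390 doms_nil)))) (and_l (and_r (and_r (and_r (and_l (and_r b24))))))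
theorem n392 : ¬ TripleMatch 3000000000 (items (st 1001110111101111111011111110011000000)) 8 :=
  step (ws := ws) (ts0 := root) h0 (doms := [((st 1110111101111111011111110000000000), 7), ((st 1000110111101111111001111110010000000), 7), ((st 1001100111101111110011111110010000000), 7), ((st 1001110011100111111011111110010000000), 7)]) (fuel := 8) (doms_cons n377 (doms_cons n204 (doms_cons n318 (doms_cons n389 doms_nil)))) (and_l (and_l (and_r (and_r b24))))
theorem n393 : ¬ TripleMatch 3000000000 (items (st 1001110111211111111011111110011100000)) 9 :=
  step (ws := ws) (ts0 := root) h0 (doms := [((st 1110111211111111011111110010000000), 8), ((st 1000110111211111111001111110011000000), 8), ((st 1001100111211111110011111110011000000), 8), ((st 1001110011210111111011111110011000000), 8), ((st 1001110111101111111011111110011000000), 8)]) (fuel := 8) (doms_cons n387 (doms_cons n205 (doms_cons n319 (doms_cons n390 (doms_cons n392 doms_nil))))) (and_l (and_r (and_l (and_r (and_r b24)))))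
theorem n394 : ¬ TripleMatch 3000000000 (items (st 1001110111321111111011111110011110000)) 10 :=
  step (ws := ws) (ts0 := root) h0 (doms := [((st 1110111321111111011111110011000000), 9), ((st 1000110111321111111001111110011100000), 9), ((st 1001100111321111110011111110011100000), 9), ((st 1001110011320111111011111110011100000), 9), ((st 1001110111211111111011111110011100000), 9)]) (fuel := 8) (doms_cons n388 (doms_cons n206 (doms_cons n320 (doms_cons n391 (doms_cons n393 doms_nil))))) (and_l (and_r (and_r (and_l (and_r (and_r b24))))))
theorem n395 : ¬ TripleMatch 3000000000 (items (st 101110011320111111011111110111000000)) 9 :=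
  step (ws := ws) (ts0 := root) h0 (doms := [((st 1110011320111111011111110100000000), 8), ((st 100110011320111111001111110110000000), 8), ((st 101100011320111110011111110110000000), 8), ((st 101110011210111111011111110110000000), 8)]) (fuel := 8) (doms_cons n369 (doms_cons n171 (doms_cons n292 (doms_cons n381 doms_nil)))) (and_l (and_r (and_r (and_r (and_l (and_r (and_r b24)))))))
theorem n396 : ¬ TripleMatch 3000000000 (items (st 1001110011100111111011111110100000000)) 7 :=
  step (ws := ws) (ts0 := root) h0 (doms := [((st 1110011100111111011111100000000000), 6), ((st 1000110011100111111001111110000000000), 6), ((st 1001100011100111110011111110000000000), 6)]) (fuel := 8) (doms_cons n60 (doms_cons n201 (doms_cons n315 doms_nil))) (and_l (and_l (and_r (and_r (and_r b24)))))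
theorem n397 : ¬ TripleMatch 3000000000 (items (st 1001110011210111111011111110110000000)) 8 :=
  step (ws := ws) (ts0 := root) h0 (doms := [((st 1110011210111111011111110000000000), 7), ((st 1000110011210111111001111110100000000), 7), ((st 1001100011210111110011111110100000000), 7), ((st 1001110011100111111011111110100000000), 7)]) (fuel := 8) (doms_cons n368 (doms_cons n239 (doms_cons n341 (doms_cons n396 doms_nil)))) (and_l (and_r (and_l (and_r (and_r (and_r b24))))))
theorem n398 : ¬ TripleMatch 3000000000 (items (st 1001110011320111111011111110110100000)) 9 :=
  step (ws := ws) (ts0 := root) h0 (doms := [((st 1110011320111111011111110100000000), 8), ((st 1000110011320111111001111110110000000), 8), ((st 1001100011320111110011111110110000000), 8), ((st 1001110011210111111011111110110000000), 8)]) (fuel := 8) (doms_cons n369 (doms_cons n240 (doms_cons n342 (doms_cons n397 doms_nil)))) (and_l (and_r (and_r (and_l (and_r (and_r (and_r b24)))))))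
theorem n399 : ¬ TripleMatch 3000000000 (items (st 1101110011100111111011111110111000000)) 8 :=
  step (ws := ws) (ts0 := root) h0 (doms := [((st 1001110011100111111011111110100000000), 7), ((st 1100110011100111111001111110110000000), 7), ((st 1101100011100111110011111110110000000), 7)]) (fuel := 8) (doms_cons n396 (doms_cons n244 (doms_cons n346 doms_nil))) (and_l (and_r (and_r (and_r (and_l (and_r (and_r (and_r b24))))))))
theorem n400 : ¬ TripleMatch 3000000000 (items (st 1101110011210111111011111110111100000)) 9 :=
  step (ws := ws) (ts0 := root) h0 (doms := [((st 1001110011210111111011111110110000000), 8), ((st 1100110011210111111001111110111000000), 8), ((st 1101100011210111110011111110111000000), 8), ((st 1101110011100111111011111110111000000), 8)]) (fuel := 8) (doms_cons n397 (doms_cons n245 (doms_cons n347 (doms_cons n399 doms_nil)))) (and_l (and_l b25))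
theorem n401 : ¬ TripleMatch 3000000000 (items (st 1101110011320111111011111110111110000)) 10 :=
  step (ws := ws) (ts0 := root) h0 (doms := [((st 101110011320111111011111110111000000), 9), ((st 1001110011320111111011111110110100000), 9), ((st 1100110011320111111001111110111100000), 9), ((st 1101100011320111110011111110111100000), 9), ((st 1101110011210111111011111110111100000), 9)]) (fuel := 8) (doms_cons n395 (doms_cons n398 (doms_cons n246 (doms_cons n348 (doms_cons n400 doms_nil))))) (and_l (and_r (and_l b25)))
theorem n402 : ¬ TripleMatch 3000000000 (items (st 101110111211111111011111110111000000)) 9 :=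
  step (ws := ws) (ts0 := root) h0 (doms := [((st 1110111211111111011111110100000000), 8), ((st 100110111211111111001111110110000000), 8), ((st 101100111211111110011111110110000000), 8), ((st 101110011210111111011111110110000000), 8), ((st 101110111101111111011111110110000000), 8)]) (fuel := 8) (doms_cons n378 (doms_cons n173 (doms_cons n294 (doms_cons n381 (doms_cons n383 doms_nil))))) (and_l (and_r (and_r (and_l b25))))
theorem n403 : ¬ TripleMatch 3000000000 (items (st 1001110111101111111011111110110000000)) 8 :=
  step (ws := ws) (ts0 := root) h0 (doms := [((st 1110111101111111011111110000000000), 7), ((st 1000110111101111111001111110100000000), 7), ((st 1001100111101111110011111110100000000), 7), ((st 1001110011100111111011111110100000000), 7)]) (fuel := 8) (doms_cons n377 (doms_cons n241 (doms_cons n343 (doms_cons n396 doms_nil)))) (and_l (and_r (and_r (and_r (and_l b25)))))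
theorem n404 : ¬ TripleMatch 3000000000 (items (st 1001110111211111111011111110110100000)) 9 :=
  step (ws := ws) (ts0 := root) h0 (doms := [((st 1110111211111111011111110100000000), 8), ((st 1000110111211111111001111110110000000), 8), ((st 1001100111211111110011111110110000000), 8), ((st 1001110011210111111011111110110000000), 8), ((st 1001110111101111111011111110110000000), 8)]) (fuel := 8) (doms_cons n378 (doms_cons n242 (doms_cons n344 (doms_cons n397 (doms_cons n403 doms_nil))))) (and_l (and_l (and_r b25)))
theorem n405 : ¬ TripleMatch 3000000000 (items (st 1101110111101111111011111110111100000)) 9 :=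
  step (ws := ws) (ts0 := root) h0 (doms := [((st 1001110111101111111011111110110000000), 8), ((st 1100110111101111111001111110111000000), 8), ((st 1101100111101111110011111110111000000), 8), ((st 1101110011100111111011111110111000000), 8)]) (fuel := 8) (doms_cons n403 (doms_cons n247 (doms_cons n349 (doms_cons n399 doms_nil)))) (and_l (and_r (and_l (and_r b25))))
theorem n406 : ¬ TripleMatch 3000000000 (items (st 1101110111211111111011111110111110000)) 10 :=
  step (ws := ws) (ts0 := root) h0 (doms := [((st 101110111211111111011111110111000000), 9), ((st 1001110111211111111011111110110100000), 9), ((st 1100110111211111111001111110111100000), 9), ((st 1101100111211111110011111110111100000), 9), ((st 1101110011210111111011111110111100000), 9), ((st 1101110111101111111011111110111100000), 9)]) (fuel := 8) (doms_cons n402 (doms_cons n404 (doms_cons n248 (doms_cons n350 (doms_cons n400 (doms_cons n405 doms_nil)))))) (and_l (and_r (and_r (and_l (and_r b25)))))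
theorem n407 : ¬ TripleMatch 3000000000 (items (st 1101110111321111111011111110111111000)) 11 :=
  step (ws := ws) (ts0 := root) h0 (doms := [((st 101110111321111111011111110110110000), 10), ((st 1001110111321111111011111110011110000), 10), ((st 1100110111321111111001111110111110000), 10), ((st 1101100111321111110011111110111110000), 10), ((st 1101110011320111111011111110111110000), 10), ((st 1101110111211111111011111110111110000), 10)]) (fuel := 8) (doms_cons n385 (doms_cons n394 (doms_cons n249 (doms_cons n351 (doms_cons n401 (doms_cons n406 doms_nil)))))) (and_l (and_r (and_r (and_r (and_l (and_r b25))))))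
theorem n408 : ¬ TripleMatch 3000000000 (items (st 1110211102111111011111110100000000)) 8 :=
  step (ws := ws) (ts0 := root) h0 (doms := [((st 110211102111111001111110000000000), 7), ((st 1100211102111110011111110000000000), 7), ((st 1110111101111111011111110000000000), 7)]) (fuel := 8) (doms_cons n144 (doms_cons n274 (doms_cons n377 doms_nil))) (and_l (and_l (and_r (and_r b25))))
theorem n409 : ¬ TripleMatch 3000000000 (items (st 1110211212111111011111110100100000)) 9 :=
  step (ws := ws) (ts0 := root) h0 (doms := [((st 110211212111111001111110100000000), 8), ((st 1100211212111110011111110100000000), 8), ((st 1110111211111111011111110100000000), 8), ((st 1110211102111111011111110100000000), 8)]) (fuel := 8) (doms_cons n145 (doms_cons n275 (doms_cons n378 (doms_cons n408 doms_nil)))) (and_l (and_r (and_l (and_r (and_r b25)))))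
theorem n410 : ¬ TripleMatch 3000000000 (items (st 101110211102111111011111110110100000)) 9 :=
  step (ws := ws) (ts0 := root) h0 (doms := [((st 1110211102111111011111110100000000), 8), ((st 100110211102111111001111110110000000), 8), ((st 101100211102111110011111110110000000), 8), ((st 101110111101111111011111110110000000), 8)]) (fuel := 8) (doms_cons n408 (doms_cons n175 (doms_cons n296 (doms_cons n383 doms_nil)))) (and_l (and_r (and_r (and_l (and_r (and_r b25))))))
theorem n411 : ¬ TripleMatch 3000000000 (items (st 101110211212111111011111110110110000)) 10 :=
  step (ws := ws) (ts0 := root) h0 (doms := [((st 1110211212111111011111110100100000), 9), ((st 100110211212111111001111110110100000), 9), ((st 101100211212111110011111110110100000), 9), ((st 101110111211111111011111110110100000), 9), ((st 101110211102111111011111110110100000), 9)]) (fuel := 8) (doms_cons n409 (doms_cons n176 (doms_cons n297 (doms_cons n384 (doms_cons n410 doms_nil))))) (and_l (and_r (and_r (and_r (and_l (and_r (and_r b25)))))))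
theorem n412 : ¬ TripleMatch 3000000000 (items (st 1110211102111111011111110010000000)) 8 :=
  step (ws := ws) (ts0 := root) h0 (doms := [((st 110211102111111001111110000000000), 7), ((st 1100211102111110011111110000000000), 7), ((st 1110111101111111011111110000000000), 7)]) (fuel := 8) (doms_cons n144 (doms_cons n274 (doms_cons n377 doms_nil))) (and_l (and_l (and_r (and_r (and_r b25)))))
theorem n413 : ¬ TripleMatch 3000000000 (items (st 1110211212111111011111110011000000)) 9 :=
  step (ws := ws) (ts0 := root) h0 (doms := [((st 110211212111111001111110010000000), 8), ((st 1100211212111110011111110010000000), 8), ((st 1110111211111111011111110010000000), 8), ((st 1110211102111111011111110010000000), 8)]) (fuel := 8) (doms_cons n180 (doms_cons n301 (doms_cons n387 (doms_cons n412 doms_nil)))) (and_l (and_r (and_l (and_r (and_r (and_r b25))))))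
theorem n414 : ¬ TripleMatch 3000000000 (items (st 1001110211102111111011111110011100000)) 9 :=
  step (ws := ws) (ts0 := root) h0 (doms := [((st 1110211102111111011111110010000000), 8), ((st 1000110211102111111001111110011000000), 8), ((st 1001100211102111110011111110011000000), 8), ((st 1001110111101111111011111110011000000), 8)]) (fuel := 8) (doms_cons n412 (doms_cons n207 (doms_cons n321 (doms_cons n392 doms_nil)))) (and_l (and_r (and_r (and_l (and_r (and_r (and_r b25)))))))
theorem n415 : ¬ TripleMatch 3000000000 (items (st 1001110211212111111011111110011110000)) 10 :=
  step (ws := ws) (ts0 := root) h0 (doms := [((st 1110211212111111011111110011000000), 9), ((st 1000110211212111111001111110011100000), 9), ((st 1001100211212111110011111110011100000), 9), ((st 1001110111211111111011111110011100000), 9), ((st 1001110211102111111011111110011100000), 9)]) (fuel := 8) (doms_cons n413 (doms_cons n208 (doms_cons n322 (doms_cons n393 (doms_cons n414 doms_nil))))) (and_l (and_r (and_r (and_r (and_l (and_r (and_r (and_r b25))))))))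
theorem n416 : ¬ TripleMatch 3000000000 (items (st 101110211102111111011111110111000000)) 9 :=
  step (ws := ws) (ts0 := root) h0 (doms := [((st 1110211102111111011111110100000000), 8), ((st 100110211102111111001111110110000000), 8), ((st 101100211102111110011111110110000000), 8), ((st 101110111101111111011111110110000000), 8)]) (fuel := 8) (doms_cons n408 (doms_cons n175 (doms_cons n296 (doms_cons n383 doms_nil)))) (and_l (and_l b26))
theorem n417 : ¬ TripleMatch 3000000000 (items (st 1001110211102111111011111110110100000)) 9 :=
  step (ws := ws) (ts0 := root) h0 (doms := [((st 1110211102111111011111110100000000), 8), ((st 1000110211102111111001111110110000000), 8), ((st 1001100211102111110011111110110000000), 8), ((st 1001110111101111111011111110110000000), 8)]) (fuel := 8) (doms_cons n408 (doms_cons n251 (doms_cons n353 (doms_cons n403 doms_nil)))) (and_l (and_r (and_l b26)))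
theorem n418 : ¬ TripleMatch 3000000000 (items (st 1101110211102111111011111110111110000)) 10 :=
  step (ws := ws) (ts0 := root) h0 (doms := [((st 101110211102111111011111110111000000), 9), ((st 1001110211102111111011111110110100000), 9), ((st 1100110211102111111001111110111100000), 9), ((st 1101100211102111110011111110111100000), 9), ((st 1101110111101111111011111110111100000), 9)]) (fuel := 8) (doms_cons n416 (doms_cons n417 (doms_cons n253 (doms_cons n355 (doms_cons n405 doms_nil))))) (and_l (and_r (and_r (and_l b26))))
theorem n419 : ¬ TripleMatch 3000000000 (items (st 1101110211212111111011111110111111000)) 11 :=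
  step (ws := ws) (ts0 := root) h0 (doms := [((st 101110211212111111011111110110110000), 10), ((st 1001110211212111111011111110011110000), 10), ((st 1100110211212111111001111110111110000), 10), ((st 1101100211212111110011111110111110000), 10), ((st 1101110111211111111011111110111110000), 10), ((st 1101110211102111111011111110111110000), 10)]) (fuel := 8) (doms_cons n411 (doms_cons n415 (doms_cons n254 (doms_cons n356 (doms_cons n406 (doms_cons n418 doms_nil)))))) (and_l (and_r (and_r (and_r (and_l b26)))))
theorem n420 : ¬ TripleMatch 3000000000 (items (st 1101110211322111111011111110111111100)) 12 :=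
  step (ws := ws) (ts0 := root) h0 (doms := [((st 1001110211322111111011111100111111000), 11), ((st 1100110211322111111001111110111111000), 11), ((st 1101100211322111110011111110111111000), 11), ((st 1101110111321111111011111110111111000), 11), ((st 1101110211212111111011111110111111000), 11)]) (fuel := 8) (doms_cons n125 (doms_cons n255 (doms_cons n357 (doms_cons n407 (doms_cons n419 doms_nil))))) (and_l (and_l (and_r b26)))
theorem n421 : ¬ TripleMatch 3000000000 (items (st 10000011210111100001111100000000000)) 5 :=
  step (ws := ws) (ts0 := root) h0 (doms := []) (fuel := 8) doms_nil (and_l (and_r (and_l (and_r b26))))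
theorem n422 : ¬ TripleMatch 3000000000 (items (st 10000011320111100001111110000000000)) 6 :=
  step (ws := ws) (ts0 := root) h0 (doms := [((st 10000011210111100001111100000000000), 5)]) (fuel := 8) (doms_cons n421 doms_nil) (and_l (and_r (and_r (and_l (and_r b26)))))
theorem n423 : ¬ TripleMatch 3000000000 (items (st 10000111101111100001111100000000000)) 5 :=
  step (ws := ws) (ts0 := root) h0 (doms := []) (fuel := 8) doms_nil (and_l (and_r (and_r (and_r (and_l (and_r b26))))))
theorem n424 : ¬ TripleMatch 3000000000 (items (st 10000111211111100001111110000000000)) 6 :=
  step (ws := ws) (ts0 := root) h0 (doms := [((st 111211111100001111000000000000), 5), ((st 10000011210111100001111100000000000), 5), ((st 10000111101111100001111100000000000), 5)]) (fuel := 8) (doms_cons n0 (doms_cons n421 (doms_cons n423 doms_nil))) (and_l (and_l (and_r (and_r b26))))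
theorem n425 : ¬ TripleMatch 3000000000 (items (st 10000111321111100001111111000000000)) 7 :=
  step (ws := ws) (ts0 := root) h0 (doms := [((st 111321111100001111100000000000), 6), ((st 10000011320111100001111110000000000), 6), ((st 10000111211111100001111110000000000), 6)]) (fuel := 8) (doms_cons n1 (doms_cons n422 (doms_cons n424 doms_nil))) (and_l (and_r (and_l (and_r (and_r b26)))))
theorem n426 : ¬ TripleMatch 3000000000 (items (st 10000211102111100001111110000000000)) 6 :=
  step (ws := ws) (ts0 := root) h0 (doms := [((st 211102111100001111000000000000), 5), ((st 10000111101111100001111100000000000), 5)]) (fuel := 8) (doms_cons n2 (doms_cons n423 doms_nil)) (and_l (and_r (and_r (and_l (and_r (and_r b26))))))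
theorem n427 : ¬ TripleMatch 3000000000 (items (st 10000211212111100001111111000000000)) 7 :=
  step (ws := ws) (ts0 := root) h0 (doms := [((st 211212111100001111100000000000), 6), ((st 10000111211111100001111110000000000), 6), ((st 10000211102111100001111110000000000), 6)]) (fuel := 8) (doms_cons n3 (doms_cons n424 (doms_cons n426 doms_nil))) (and_l (and_r (and_r (and_r (and_l (and_r (and_r b26)))))))
theorem n428 : ¬ TripleMatch 3000000000 (items (st 10000211322111100001111111100000000)) 8 :=
  step (ws := ws) (ts0 := root) h0 (doms := [((st 211322111100001111110000000000), 7), ((st 10000111321111100001111111000000000), 7), ((st 10000211212111100001111111000000000), 7)]) (fuel := 8) (doms_cons n126 (doms_cons n425 (doms_cons n427 doms_nil))) (and_l (and_l (and_r (and_r (and_r b26)))))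
theorem n429 : ¬ TripleMatch 3000000000 (items (st 10000011210111110001101100000000000)) 5 :=
  step (ws := ws) (ts0 := root) h0 (doms := []) (fuel := 8) doms_nil (and_l (and_r (and_l (and_r (and_r (and_r b26))))))
theorem n430 : ¬ TripleMatch 3000000000 (items (st 10000011320111110001101110000000000)) 6 :=
  step (ws := ws) (ts0 := root) h0 (doms := [((st 10000011210111110001101100000000000), 5)]) (fuel := 8) (doms_cons n429 doms_nil) (and_l (and_r (and_r (and_l (and_r (and_r (and_r b26)))))))
theorem n431 : ¬ TripleMatch 3000000000 (items (st 10000011210111110001110100000000000)) 5 :=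
  step (ws := ws) (ts0 := root) h0 (doms := []) (fuel := 8) doms_nil (and_l (and_r (and_r (and_r (and_l (and_r (and_r (and_r b26))))))))
theorem n432 : ¬ TripleMatch 3000000000 (items (st 10100011100111110001111100000000000)) 5 :=
  step (ws := ws) (ts0 := root) h0 (doms := []) (fuel := 8) doms_nil (and_l (and_l b27))
theorem n433 : ¬ TripleMatch 3000000000 (items (st 10100011210111110001111110000000000)) 6 :=
  step (ws := ws) (ts0 := root) h0 (doms := [((st 100011210111110001111000000000000), 5), ((st 10000011210111110001110100000000000), 5), ((st 10100011100111110001111100000000000), 5)]) (fuel := 8) (doms_cons n5 (doms_cons n431 (doms_cons n432 doms_nil))) (and_l (and_r (and_l b27)))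
theorem n434 : ¬ TripleMatch 3000000000 (items (st 10100011320111110001111111000000000)) 7 :=
  step (ws := ws) (ts0 := root) h0 (doms := [((st 100011320111110001111100000000000), 6), ((st 10000011320111110001101110000000000), 6), ((st 10100011210111110001111110000000000), 6)]) (fuel := 8) (doms_cons n6 (doms_cons n430 (doms_cons n433 doms_nil))) (and_l (and_r (and_r (and_l b27))))
theorem n435 : ¬ TripleMatch 3000000000 (items (st 111211111110001101000000000000)) 5 :=
  step (ws := ws) (ts0 := root) h0 (doms := []) (fuel := 8) doms_nil (and_l (and_r (and_r (and_r (and_l b27)))))
theorem n436 : ¬ TripleMatch 3000000000 (items (st 10000111101111110001101100000000000)) 5 :=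
  step (ws := ws) (ts0 := root) h0 (doms := []) (fuel := 8) doms_nil (and_l (and_l (and_r b27)))
theorem n437 : ¬ TripleMatch 3000000000 (items (st 10000111211111110001101110000000000)) 6 :=
  step (ws := ws) (ts0 := root) h0 (doms := [((st 111211111110001101000000000000), 5), ((st 10000011210111110001101100000000000), 5), ((st 10000111101111110001101100000000000), 5)]) (fuel := 8) (doms_cons n435 (doms_cons n429 (doms_cons n436 doms_nil))) (and_l (and_r (and_l (and_r b27))))
theorem n438 : ¬ TripleMatch 3000000000 (items (st 10000111101111110001110100000000000)) 5 :=
  step (ws := ws) (ts0 := root) h0 (doms := []) (fuel := 8) doms_nil (and_l (and_r (and_r (and_l (and_r b27)))))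
theorem n439 : ¬ TripleMatch 3000000000 (items (st 10100111101111110001111110000000000)) 6 :=
  step (ws := ws) (ts0 := root) h0 (doms := [((st 100111101111110001111000000000000), 5), ((st 10000111101111110001110100000000000), 5), ((st 10100011100111110001111100000000000), 5)]) (fuel := 8) (doms_cons n8 (doms_cons n438 (doms_cons n432 doms_nil))) (and_l (and_r (and_r (and_r (and_l (and_r b27))))))
theorem n440 : ¬ TripleMatch 3000000000 (items (st 10100111211111110001111111000000000)) 7 :=
  step (ws := ws) (ts0 := root) h0 (doms := [((st 100111211111110001111100000000000), 6), ((st 10000111211111110001101110000000000), 6), ((st 10100011210111110001111110000000000), 6), ((st 10100111101111110001111110000000000), 6)]) (fuel := 8) (doms_cons n9 (doms_cons n437 (doms_cons n433 (doms_cons n439 doms_nil)))) (and_l (and_l (and_r (and_r b27))))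
theorem n441 : ¬ TripleMatch 3000000000 (items (st 10100111321111110001111111100000000)) 8 :=
  step (ws := ws) (ts0 := root) h0 (doms := [((st 100111321111110001111110000000000), 7), ((st 10000111321111100001111111000000000), 7), ((st 10100011320111110001111111000000000), 7), ((st 10100111211111110001111111000000000), 7)]) (fuel := 8) (doms_cons n128 (doms_cons n425 (doms_cons n434 (doms_cons n440 doms_nil)))) (and_l (and_r (and_l (and_r (and_r b27)))))
theorem n442 : ¬ TripleMatch 3000000000 (items (st 211102111110001101000000000000)) 5 :=
  step (ws := ws) (ts0 := root) h0 (doms := []) (fuel := 8) doms_nil (and_l (and_r (and_r (and_l (and_r (and_r b27))))))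
theorem n443 : ¬ TripleMatch 3000000000 (items (st 10000211102111110001101110000000000)) 6 :=
  step (ws := ws) (ts0 := root) h0 (doms := [((st 211102111110001101000000000000), 5), ((st 10000111101111110001101100000000000), 5)]) (fuel := 8) (doms_cons n442 (doms_cons n436 doms_nil)) (and_l (and_r (and_r (and_r (and_l (and_r (and_r b27)))))))
theorem n444 : ¬ TripleMatch 3000000000 (items (st 10100211102111110001111111000000000)) 7 :=
  step (ws := ws) (ts0 := root) h0 (doms := [((st 100211102111110001111100000000000), 6), ((st 10000211102111110001101110000000000), 6), ((st 10100111101111110001111110000000000), 6)]) (fuel := 8) (doms_cons n12 (doms_cons n443 (doms_cons n439 doms_nil))) (and_l (and_l (and_r (and_r (and_r b27)))))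
theorem n445 : ¬ TripleMatch 3000000000 (items (st 10100211212111110001111111100000000)) 8 :=
  step (ws := ws) (ts0 := root) h0 (doms := [((st 100211212111110001111110000000000), 7), ((st 10000211212111100001111111000000000), 7), ((st 10100111211111110001111111000000000), 7), ((st 10100211102111110001111111000000000), 7)]) (fuel := 8) (doms_cons n130 (doms_cons n427 (doms_cons n440 (doms_cons n444 doms_nil)))) (and_l (and_r (and_l (and_r (and_r (and_r b27))))))
theorem n446 : ¬ TripleMatch 3000000000 (items (st 10100211322111110001111111100100000)) 9 :=
  step (ws := ws) (ts0 := root) h0 (doms := [((st 100211322111110001111110100000000), 8), ((st 10000211322111100001111111100000000), 8), ((st 10100111321111110001111111100000000), 8), ((st 10100211212111110001111111100000000), 8)]) (fuel := 8) (doms_cons n131 (doms_cons n428 (doms_cons n441 (doms_cons n445 doms_nil)))) (and_l (and_r (and_r (and_l (and_r (and_r (and_r b27)))))))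
theorem n447 : ¬ TripleMatch 3000000000 (items (st 100000111321111100001111111000000000)) 7 :=
  step (ws := ws) (ts0 := root) h0 (doms := [((st 111321111100001111100000000000), 6), ((st 100000011320111100001111110000000000), 6), ((st 100000111211111100001111110000000000), 6)]) (fuel := 8) (doms_cons n1 (doms_cons n148 (doms_cons n150 doms_nil))) (and_l (and_r (and_r (and_r (and_l (and_r (and_r (and_r b27))))))))
theorem n448 : ¬ TripleMatch 3000000000 (items (st 110000011100111100001111110000000000)) 5 :=
  step (ws := ws) (ts0 := root) h0 (doms := []) (fuel := 8) doms_nil (and_l (and_l b28))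
theorem n449 : ¬ TripleMatch 3000000000 (items (st 110000011210111100001111111000000000)) 6 :=
  step (ws := ws) (ts0 := root) h0 (doms := [((st 100000011210111100001111100000000000), 5), ((st 110000011100111100001111110000000000), 5)]) (fuel := 8) (doms_cons n147 (doms_cons n448 doms_nil)) (and_l (and_r (and_l b28)))
theorem n450 : ¬ TripleMatch 3000000000 (items (st 110000011320111100001111111100000000)) 7 :=
  step (ws := ws) (ts0 := root) h0 (doms := [((st 100000011320111100001111110000000000), 6), ((st 110000011210111100001111111000000000), 6)]) (fuel := 8) (doms_cons n148 (doms_cons n449 doms_nil)) (and_l (and_r (and_r (and_l b28))))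
theorem n451 : ¬ TripleMatch 3000000000 (items (st 110000111101111100001111111000000000)) 6 :=
  step (ws := ws) (ts0 := root) h0 (doms := [((st 100000111101111100001111100000000000), 5), ((st 110000011100111100001111110000000000), 5)]) (fuel := 8) (doms_cons n149 (doms_cons n448 doms_nil)) (and_l (and_r (and_r (and_r (and_l b28)))))
theorem n452 : ¬ TripleMatch 3000000000 (items (st 110000111211111100001111111100000000)) 7 :=
  step (ws := ws) (ts0 := root) h0 (doms := [((st 100000111211111100001111110000000000), 6), ((st 110000011210111100001111111000000000), 6), ((st 110000111101111100001111111000000000), 6)]) (fuel := 8) (doms_cons n150 (doms_cons n449 (doms_cons n451 doms_nil))) (and_l (and_l (and_r b28)))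
theorem n453 : ¬ TripleMatch 3000000000 (items (st 110000111321111100001111111110000000)) 8 :=
  step (ws := ws) (ts0 := root) h0 (doms := [((st 100000111321111100001111111000000000), 7), ((st 110000011320111100001111111100000000), 7), ((st 110000111211111100001111111100000000), 7)]) (fuel := 8) (doms_cons n447 (doms_cons n450 (doms_cons n452 doms_nil))) (and_l (and_r (and_l (and_r b28))))
theorem n454 : ¬ TripleMatch 3000000000 (items (st 100000211212111100001111111000000000)) 7 :=
  step (ws := ws) (ts0 := root) h0 (doms := [((st 211212111100001111100000000000), 6), ((st 100000111211111100001111110000000000), 6), ((st 100000211102111100001111110000000000), 6)]) (fuel := 8) (doms_cons n3 (doms_cons n150 (doms_cons n152 doms_nil))) (and_l (and_r (and_r (and_l (and_r b28)))))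
theorem n455 : ¬ TripleMatch 3000000000 (items (st 110000211102111100001111111100000000)) 7 :=
  step (ws := ws) (ts0 := root) h0 (doms := [((st 100000211102111100001111110000000000), 6), ((st 110000111101111100001111111000000000), 6)]) (fuel := 8) (doms_cons n152 (doms_cons n451 doms_nil)) (and_l (and_r (and_r (and_r (and_l (and_r b28))))))
theorem n456 : ¬ TripleMatch 3000000000 (items (st 110000211212111100001111111110000000)) 8 :=
  step (ws := ws) (ts0 := root) h0 (doms := [((st 100000211212111100001111111000000000), 7), ((st 110000111211111100001111111100000000), 7), ((st 110000211102111100001111111100000000), 7)]) (fuel := 8) (doms_cons n454 (doms_cons n452 (doms_cons n455 doms_nil))) (and_l (and_l (and_r (and_r b28))))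
theorem n457 : ¬ TripleMatch 3000000000 (items (st 110000211322111100001111111110100000)) 9 :=
  step (ws := ws) (ts0 := root) h0 (doms := [((st 10000211322111100001111111100000000), 8), ((st 100000211322111100001111110110000000), 8), ((st 110000111321111100001111111110000000), 8), ((st 110000211212111100001111111110000000), 8)]) (fuel := 8) (doms_cons n428 (doms_cons n154 (doms_cons n453 (doms_cons n456 doms_nil)))) (and_l (and_r (and_l (and_r (and_r b28)))))
theorem n458 : ¬ TripleMatch 3000000000 (items (st 100000011210111110001101100000000000)) 5 :=
  step (ws := ws) (ts0 := root) h0 (doms := []) (fuel := 8) doms_nil (and_l (and_r (and_r (and_l (and_r (and_r b28))))))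
theorem n459 : ¬ TripleMatch 3000000000 (items (st 100000011320111110001101110000000000)) 6 :=
  step (ws := ws) (ts0 := root) h0 (doms := [((st 100000011210111110001101100000000000), 5)]) (fuel := 8) (doms_cons n458 doms_nil) (and_l (and_r (and_r (and_r (and_l (and_r (and_r b28)))))))
theorem n460 : ¬ TripleMatch 3000000000 (items (st 100100011320111110001111111000000000)) 7 :=
  step (ws := ws) (ts0 := root) h0 (doms := [((st 100011320111110001111100000000000), 6), ((st 100000011320111110001101110000000000), 6), ((st 100100011210111110001111110000000000), 6)]) (fuel := 8) (doms_cons n6 (doms_cons n459 (doms_cons n157 doms_nil))) (and_l (and_l (and_r (and_r (and_r b28)))))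
theorem n461 : ¬ TripleMatch 3000000000 (items (st 110000011100111110001101110000000000)) 5 :=
  step (ws := ws) (ts0 := root) h0 (doms := []) (fuel := 8) doms_nil (and_l (and_r (and_l (and_r (and_r (and_r b28))))))
theorem n462 : ¬ TripleMatch 3000000000 (items (st 110100011100111110001111111000000000)) 6 :=
  step (ws := ws) (ts0 := root) h0 (doms := [((st 100100011100111110001111100000000000), 5), ((st 110000011100111110001101110000000000), 5)]) (fuel := 8) (doms_cons n156 (doms_cons n461 doms_nil)) (and_l (and_r (and_r (and_l (and_r (and_r (and_r b28)))))))
theorem n463 : ¬ TripleMatch 3000000000 (items (st 110100011210111110001111111100000000)) 7 :=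
  step (ws := ws) (ts0 := root) h0 (doms := [((st 100100011210111110001111110000000000), 6), ((st 110000011210111100001111111000000000), 6), ((st 110100011100111110001111111000000000), 6)]) (fuel := 8) (doms_cons n157 (doms_cons n449 (doms_cons n462 doms_nil))) (and_l (and_r (and_r (and_r (and_l (and_r (and_r (and_r b28))))))))
theorem n464 : ¬ TripleMatch 3000000000 (items (st 110100011320111110001111111110000000)) 8 :=
  step (ws := ws) (ts0 := root) h0 (doms := [((st 100100011320111110001111111000000000), 7), ((st 110000011320111100001111111100000000), 7), ((st 110100011210111110001111111100000000), 7)]) (fuel := 8) (doms_cons n460 (doms_cons n450 (doms_cons n463 doms_nil))) (and_l (and_l b29))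
theorem n465 : ¬ TripleMatch 3000000000 (items (st 100000111101111110001101100000000000)) 5 :=
  step (ws := ws) (ts0 := root) h0 (doms := []) (fuel := 8) doms_nil (and_l (and_r (and_l b29)))
theorem n466 : ¬ TripleMatch 3000000000 (items (st 100000111211111110001101110000000000)) 6 :=
  step (ws := ws) (ts0 := root) h0 (doms := [((st 111211111110001101000000000000), 5), ((st 100000011210111110001101100000000000), 5), ((st 100000111101111110001101100000000000), 5)]) (fuel := 8) (doms_cons n435 (doms_cons n458 (doms_cons n465 doms_nil))) (and_l (and_r (and_r (and_l b29))))
theorem n467 : ¬ TripleMatch 3000000000 (items (st 100100111211111110001111111000000000)) 7 :=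
  step (ws := ws) (ts0 := root) h0 (doms := [((st 100111211111110001111100000000000), 6), ((st 100000111211111110001101110000000000), 6), ((st 100100011210111110001111110000000000), 6), ((st 100100111101111110001111110000000000), 6)]) (fuel := 8) (doms_cons n9 (doms_cons n466 (doms_cons n157 (doms_cons n160 doms_nil)))) (and_l (and_r (and_r (and_r (and_l b29)))))
theorem n468 : ¬ TripleMatch 3000000000 (items (st 110100111101111110001111111100000000)) 7 :=
  step (ws := ws) (ts0 := root) h0 (doms := [((st 100100111101111110001111110000000000), 6), ((st 110000111101111100001111111000000000), 6), ((st 110100011100111110001111111000000000), 6)]) (fuel := 8) (doms_cons n160 (doms_cons n451 (doms_cons n462 doms_nil))) (and_l (and_l (and_r b29)))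
theorem n469 : ¬ TripleMatch 3000000000 (items (st 110100111211111110001111111110000000)) 8 :=
  step (ws := ws) (ts0 := root) h0 (doms := [((st 100100111211111110001111111000000000), 7), ((st 110000111211111100001111111100000000), 7), ((st 110100011210111110001111111100000000), 7), ((st 110100111101111110001111111100000000), 7)]) (fuel := 8) (doms_cons n467 (doms_cons n452 (doms_cons n463 (doms_cons n468 doms_nil)))) (and_l (and_r (and_l (and_r b29))))
theorem n470 : ¬ TripleMatch 3000000000 (items (st 110100111321111110001111111110100000)) 9 :=
  step (ws := ws) (ts0 := root) h0 (doms := [((st 10100111321111110001111111100000000), 8), ((st 100100111321111110001111110110000000), 8), ((st 110000111321111100001111111110000000), 8), ((st 110100011320111110001111111110000000), 8), ((st 110100111211111110001111111110000000), 8)]) (fuel := 8) (doms_cons n441 (doms_cons n162 (doms_cons n453 (doms_cons n464 (doms_cons n469 doms_nil))))) (and_l (and_r (and_r (and_l (and_r b29)))))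
theorem n471 : ¬ TripleMatch 3000000000 (items (st 100000211102111110001101110000000000)) 6 :=
  step (ws := ws) (ts0 := root) h0 (doms := [((st 211102111110001101000000000000), 5), ((st 100000111101111110001101100000000000), 5)]) (fuel := 8) (doms_cons n442 (doms_cons n465 doms_nil)) (and_l (and_r (and_r (and_r (and_l (and_r b29))))))
theorem n472 : ¬ TripleMatch 3000000000 (items (st 100100211102111110001111111000000000)) 7 :=
  step (ws := ws) (ts0 := root) h0 (doms := [((st 100211102111110001111100000000000), 6), ((st 100000211102111110001101110000000000), 6), ((st 100100111101111110001111110000000000), 6)]) (fuel := 8) (doms_cons n12 (doms_cons n471 (doms_cons n160 doms_nil))) (and_l (and_l (and_r (and_r b29))))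
theorem n473 : ¬ TripleMatch 3000000000 (items (st 110100211102111110001111111110000000)) 8 :=
  step (ws := ws) (ts0 := root) h0 (doms := [((st 100100211102111110001111111000000000), 7), ((st 110000211102111100001111111100000000), 7), ((st 110100111101111110001111111100000000), 7)]) (fuel := 8) (doms_cons n472 (doms_cons n455 (doms_cons n468 doms_nil))) (and_l (and_r (and_l (and_r (and_r b29)))))
theorem n474 : ¬ TripleMatch 3000000000 (items (st 110100211212111110001111111110100000)) 9 :=
  step (ws := ws) (ts0 := root) h0 (doms := [((st 10100211212111110001111111100000000), 8), ((st 100100211212111110001111110110000000), 8), ((st 110000211212111100001111111110000000), 8), ((st 110100111211111110001111111110000000), 8), ((st 110100211102111110001111111110000000), 8)]) (fuel := 8) (doms_cons n445 (doms_cons n164 (doms_cons n456 (doms_cons n469 (doms_cons n473 doms_nil))))) (and_l (and_r (and_r (and_l (and_r (and_r b29))))))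
theorem n475 : ¬ TripleMatch 3000000000 (items (st 110100211322111110001111111110110000)) 10 :=
  step (ws := ws) (ts0 := root) h0 (doms := [((st 10100211322111110001111111100100000), 9), ((st 100100211322111110001111110110100000), 9), ((st 110000211322111100001111111110100000), 9), ((st 110100111321111110001111111110100000), 9), ((st 110100211212111110001111111110100000), 9)]) (fuel := 8) (doms_cons n446 (doms_cons n165 (doms_cons n457 (doms_cons n470 (doms_cons n474 doms_nil))))) (and_l (and_r (and_r (and_r (and_l (and_r (and_r b29)))))))
theorem n476 : ¬ TripleMatch 3000000000 (items (st 10000211322111100001111111010000000)) 8 :=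
  step (ws := ws) (ts0 := root) h0 (doms := [((st 211322111100001111110000000000), 7), ((st 10000111321111100001111111000000000), 7), ((st 10000211212111100001111111000000000), 7)]) (fuel := 8) (doms_cons n126 (doms_cons n425 (doms_cons n427 doms_nil))) (and_l (and_l (and_r (and_r (and_r b29)))))
theorem n477 : ¬ TripleMatch 3000000000 (items (st 10100111321111110001111111010000000)) 8 :=
  step (ws := ws) (ts0 := root) h0 (doms := [((st 100111321111110001111110000000000), 7), ((st 10000111321111100001111111000000000), 7), ((st 10100011320111110001111111000000000), 7), ((st 10100111211111110001111111000000000), 7)]) (fuel := 8) (doms_cons n128 (doms_cons n425 (doms_cons n434 (doms_cons n440 doms_nil)))) (and_l (and_r (and_l (and_r (and_r (and_r b29))))))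
theorem n478 : ¬ TripleMatch 3000000000 (items (st 10100211212111110001111111010000000)) 8 :=
  step (ws := ws) (ts0 := root) h0 (doms := [((st 100211212111110001111110000000000), 7), ((st 10000211212111100001111111000000000), 7), ((st 10100111211111110001111111000000000), 7), ((st 10100211102111110001111111000000000), 7)]) (fuel := 8) (doms_cons n130 (doms_cons n427 (doms_cons n440 (doms_cons n444 doms_nil)))) (and_l (and_r (and_r (and_l (and_r (and_r (and_r b29)))))))
theorem n479 : ¬ TripleMatch 3000000000 (items (st 10100211322111110001111111011000000)) 9 :=
  step (ws := ws) (ts0 := root) h0 (doms := [((st 100211322111110001111110010000000), 8), ((st 10000211322111100001111111010000000), 8), ((st 10100111321111110001111111010000000), 8), ((st 10100211212111110001111111010000000), 8)]) (fuel := 8) (doms_cons n178 (doms_cons n476 (doms_cons n477 (doms_cons n478 doms_nil)))) (and_l (and_r (and_r (and_r (and_l (and_r (and_r (and_r b29))))))))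
theorem n480 : ¬ TripleMatch 3000000000 (items (st 1010000011100111100001111110000000000)) 5 :=
  step (ws := ws) (ts0 := root) h0 (doms := []) (fuel := 8) doms_nil (and_l (and_l b30))
theorem n481 : ¬ TripleMatch 3000000000 (items (st 1010000011210111100001111111000000000)) 6 :=
  step (ws := ws) (ts0 := root) h0 (doms := [((st 1000000011210111100001111100000000000), 5), ((st 1010000011100111100001111110000000000), 5)]) (fuel := 8) (doms_cons n70 (doms_cons n480 doms_nil)) (and_l (and_r (and_l b30)))
theorem n482 : ¬ TripleMatch 3000000000 (items (st 1010000011320111100001111111010000000)) 7 :=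
  step (ws := ws) (ts0 := root) h0 (doms := [((st 1000000011320111100001111110000000000), 6), ((st 1010000011210111100001111111000000000), 6)]) (fuel := 8) (doms_cons n182 (doms_cons n481 doms_nil)) (and_l (and_r (and_r (and_l b30))))
theorem n483 : ¬ TripleMatch 3000000000 (items (st 1010000111101111100001111111000000000)) 6 :=
  step (ws := ws) (ts0 := root) h0 (doms := [((st 1000000111101111100001111100000000000), 5), ((st 1010000011100111100001111110000000000), 5)]) (fuel := 8) (doms_cons n72 (doms_cons n480 doms_nil)) (and_l (and_r (and_r (and_r (and_l b30)))))
theorem n484 : ¬ TripleMatch 3000000000 (items (st 1010000111211111100001111111010000000)) 7 :=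
  step (ws := ws) (ts0 := root) h0 (doms := [((st 1000000111211111100001111110000000000), 6), ((st 1010000011210111100001111111000000000), 6), ((st 1010000111101111100001111111000000000), 6)]) (fuel := 8) (doms_cons n183 (doms_cons n481 (doms_cons n483 doms_nil))) (and_l (and_l (and_r b30)))
theorem n485 : ¬ TripleMatch 3000000000 (items (st 1010000111321111100001111111011000000)) 8 :=
  step (ws := ws) (ts0 := root) h0 (doms := [((st 10000111321111100001111111000000000), 7), ((st 1000000111321111100001111110010000000), 7), ((st 1010000011320111100001111111010000000), 7), ((st 1010000111211111100001111111010000000), 7)]) (fuel := 8) (doms_cons n425 (doms_cons n184 (doms_cons n482 (doms_cons n484 doms_nil)))) (and_l (and_r (and_l (and_r b30))))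
theorem n486 : ¬ TripleMatch 3000000000 (items (st 1010000211102111100001111111010000000)) 7 :=
  step (ws := ws) (ts0 := root) h0 (doms := [((st 1000000211102111100001111110000000000), 6), ((st 1010000111101111100001111111000000000), 6)]) (fuel := 8) (doms_cons n185 (doms_cons n483 doms_nil)) (and_l (and_r (and_r (and_l (and_r b30)))))
theorem n487 : ¬ TripleMatch 3000000000 (items (st 1010000211212111100001111111011000000)) 8 :=
  step (ws := ws) (ts0 := root) h0 (doms := [((st 10000211212111100001111111000000000), 7), ((st 1000000211212111100001111110010000000), 7), ((st 1010000111211111100001111111010000000), 7), ((st 1010000211102111100001111111010000000), 7)]) (fuel := 8) (doms_cons n427 (doms_cons n186 (doms_cons n484 (doms_cons n486 doms_nil)))) (and_l (and_r (and_r (and_r (and_l (and_r b30))))))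
theorem n488 : ¬ TripleMatch 3000000000 (items (st 1010000211322111100001111111011100000)) 9 :=
  step (ws := ws) (ts0 := root) h0 (doms := [((st 10000211322111100001111111010000000), 8), ((st 1000000211322111100001111110011000000), 8), ((st 1010000111321111100001111111011000000), 8), ((st 1010000211212111100001111111011000000), 8)]) (fuel := 8) (doms_cons n476 (doms_cons n187 (doms_cons n485 (doms_cons n487 doms_nil)))) (and_l (and_l (and_r (and_r b30))))
theorem n489 : ¬ TripleMatch 3000000000 (items (st 1010000011100111110001101110000000000)) 5 :=
  step (ws := ws) (ts0 := root) h0 (doms := []) (fuel := 8) doms_nil (and_l (and_r (and_l (and_r (and_r b30)))))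
theorem n490 : ¬ TripleMatch 3000000000 (items (st 1010100011100111110001111111000000000)) 6 :=
  step (ws := ws) (ts0 := root) h0 (doms := [((st 1000100011100111110001111100000000000), 5), ((st 1010000011100111110001101110000000000), 5)]) (fuel := 8) (doms_cons n78 (doms_cons n489 doms_nil)) (and_l (and_r (and_r (and_l (and_r (and_r b30))))))
theorem n491 : ¬ TripleMatch 3000000000 (items (st 1010100011210111110001111111010000000)) 7 :=
  step (ws := ws) (ts0 := root) h0 (doms := [((st 1000100011210111110001111110000000000), 6), ((st 1010000011210111100001111111000000000), 6), ((st 1010100011100111110001111111000000000), 6)]) (fuel := 8) (doms_cons n189 (doms_cons n481 (doms_cons n490 doms_nil))) (and_l (and_r (and_r (and_r (and_l (and_r (and_r b30)))))))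
theorem n492 : ¬ TripleMatch 3000000000 (items (st 1010100011320111110001111111011000000)) 8 :=
  step (ws := ws) (ts0 := root) h0 (doms := [((st 10100011320111110001111111000000000), 7), ((st 1000100011320111110001111110010000000), 7), ((st 1010000011320111100001111111010000000), 7), ((st 1010100011210111110001111111010000000), 7)]) (fuel := 8) (doms_cons n434 (doms_cons n190 (doms_cons n482 (doms_cons n491 doms_nil)))) (and_l (and_l (and_r (and_r (and_r b30)))))
theorem n493 : ¬ TripleMatch 3000000000 (items (st 1010100111101111110001111111010000000)) 7 :=
  step (ws := ws) (ts0 := root) h0 (doms := [((st 1000100111101111110001111110000000000), 6), ((st 1010000111101111100001111111000000000), 6), ((st 1010100011100111110001111111000000000), 6)]) (fuel := 8) (doms_cons n192 (doms_cons n483 (doms_cons n490 doms_nil))) (and_l (and_r (and_l (and_r (and_r (and_r b30))))))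
theorem n494 : ¬ TripleMatch 3000000000 (items (st 1010100111211111110001111111011000000)) 8 :=
  step (ws := ws) (ts0 := root) h0 (doms := [((st 10100111211111110001111111000000000), 7), ((st 1000100111211111110001111110010000000), 7), ((st 1010000111211111100001111111010000000), 7), ((st 1010100011210111110001111111010000000), 7), ((st 1010100111101111110001111111010000000), 7)]) (fuel := 8) (doms_cons n440 (doms_cons n193 (doms_cons n484 (doms_cons n491 (doms_cons n493 doms_nil))))) (and_l (and_r (and_r (and_l (and_r (and_r (and_r b30)))))))
theorem n495 : ¬ TripleMatch 3000000000 (items (st 1010100111321111110001111111011100000)) 9 :=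
  step (ws := ws) (ts0 := root) h0 (doms := [((st 10100111321111110001111111010000000), 8), ((st 1000100111321111110001111110011000000), 8), ((st 1010000111321111100001111111011000000), 8), ((st 1010100011320111110001111111011000000), 8), ((st 1010100111211111110001111111011000000), 8)]) (fuel := 8) (doms_cons n477 (doms_cons n194 (doms_cons n485 (doms_cons n492 (doms_cons n494 doms_nil))))) (and_l (and_r (and_r (and_r (and_l (and_r (and_r (and_r b30))))))))
theorem n496 : ¬ TripleMatch 3000000000 (items (st 1010100211102111110001111111011000000)) 8 :=
  step (ws := ws) (ts0 := root) h0 (doms := [((st 10100211102111110001111111000000000), 7), ((st 1000100211102111110001111110010000000), 7), ((st 1010000211102111100001111111010000000), 7), ((st 1010100111101111110001111111010000000), 7)]) (fuel := 8) (doms_cons n444 (doms_cons n195 (doms_cons n486 (doms_cons n493 doms_nil)))) (and_l (and_l b31))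
theorem n497 : ¬ TripleMatch 3000000000 (items (st 1010100211212111110001111111011100000)) 9 :=
  step (ws := ws) (ts0 := root) h0 (doms := [((st 10100211212111110001111111010000000), 8), ((st 1000100211212111110001111110011000000), 8), ((st 1010000211212111100001111111011000000), 8), ((st 1010100111211111110001111111011000000), 8), ((st 1010100211102111110001111111011000000), 8)]) (fuel := 8) (doms_cons n478 (doms_cons n196 (doms_cons n487 (doms_cons n494 (doms_cons n496 doms_nil))))) (and_l (and_r (and_l b31)))
theorem n498 : ¬ TripleMatch 3000000000 (items (st 1010100211322111110001111111011110000)) 10 :=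
  step (ws := ws) (ts0 := root) h0 (doms := [((st 10100211322111110001111111011000000), 9), ((st 1000100211322111110001111110011100000), 9), ((st 1010000211322111100001111111011100000), 9), ((st 1010100111321111110001111111011100000), 9), ((st 1010100211212111110001111111011100000), 9)]) (fuel := 8) (doms_cons n479 (doms_cons n197 (doms_cons n488 (doms_cons n495 (doms_cons n497 doms_nil))))) (and_l (and_r (and_r (and_l b31))))
theorem n499 : ¬ TripleMatch 3000000000 (items (st 100000211322111100001111111010000000)) 8 :=
  step (ws := ws) (ts0 := root) h0 (doms := [((st 211322111100001111110000000000), 7), ((st 100000111321111100001111111000000000), 7), ((st 100000211212111100001111111000000000), 7)]) (fuel := 8) (doms_cons n126 (doms_cons n447 (doms_cons n454 doms_nil))) (and_l (and_r (and_r (and_r (and_l b31)))))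
theorem n500 : ¬ TripleMatch 3000000000 (items (st 110000211322111100001111111111000000)) 9 :=
  step (ws := ws) (ts0 := root) h0 (doms := [((st 10000211322111100001111111100000000), 8), ((st 100000211322111100001111111010000000), 8), ((st 110000111321111100001111111110000000), 8), ((st 110000211212111100001111111110000000), 8)]) (fuel := 8) (doms_cons n428 (doms_cons n499 (doms_cons n453 (doms_cons n456 doms_nil)))) (and_l (and_l (and_r b31)))
theorem n501 : ¬ TripleMatch 3000000000 (items (st 1000000111321111100001111111000000000)) 7 :=
  step (ws := ws) (ts0 := root) h0 (doms := [((st 111321111100001111100000000000), 6), ((st 1000000011320111100001111110000000000), 6), ((st 1000000111211111100001111110000000000), 6)]) (fuel := 8) (doms_cons n1 (doms_cons n182 (doms_cons n183 doms_nil))) (and_l (and_r (and_l (and_r b31))))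
theorem n502 : ¬ TripleMatch 3000000000 (items (st 1010000011320111100001111111100000000)) 7 :=
  step (ws := ws) (ts0 := root) h0 (doms := [((st 1000000011320111100001111110000000000), 6), ((st 1010000011210111100001111111000000000), 6)]) (fuel := 8) (doms_cons n182 (doms_cons n481 doms_nil)) (and_l (and_r (and_r (and_l (and_r b31)))))
theorem n503 : ¬ TripleMatch 3000000000 (items (st 1010000111211111100001111111100000000)) 7 :=
  step (ws := ws) (ts0 := root) h0 (doms := [((st 1000000111211111100001111110000000000), 6), ((st 1010000011210111100001111111000000000), 6), ((st 1010000111101111100001111111000000000), 6)]) (fuel := 8) (doms_cons n183 (doms_cons n481 (doms_cons n483 doms_nil))) (and_l (and_r (and_r (and_r (and_l (and_r b31))))))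
theorem n504 : ¬ TripleMatch 3000000000 (items (st 1010000111321111100001111111110000000)) 8 :=
  step (ws := ws) (ts0 := root) h0 (doms := [((st 1000000111321111100001111111000000000), 7), ((st 1010000011320111100001111111100000000), 7), ((st 1010000111211111100001111111100000000), 7)]) (fuel := 8) (doms_cons n501 (doms_cons n502 (doms_cons n503 doms_nil))) (and_l (and_l (and_r (and_r b31))))
theorem n505 : ¬ TripleMatch 3000000000 (items (st 1000000211212111100001111111000000000)) 7 :=
  step (ws := ws) (ts0 := root) h0 (doms := [((st 211212111100001111100000000000), 6), ((st 1000000111211111100001111110000000000), 6), ((st 1000000211102111100001111110000000000), 6)]) (fuel := 8) (doms_cons n3 (doms_cons n183 (doms_cons n185 doms_nil))) (and_l (and_r (and_l (and_r (and_r b31)))))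
theorem n506 : ¬ TripleMatch 3000000000 (items (st 1010000211102111100001111111100000000)) 7 :=
  step (ws := ws) (ts0 := root) h0 (doms := [((st 1000000211102111100001111110000000000), 6), ((st 1010000111101111100001111111000000000), 6)]) (fuel := 8) (doms_cons n185 (doms_cons n483 doms_nil)) (and_l (and_r (and_r (and_l (and_r (and_r b31))))))
theorem n507 : ¬ TripleMatch 3000000000 (items (st 1010000211212111100001111111110000000)) 8 :=
  step (ws := ws) (ts0 := root) h0 (doms := [((st 1000000211212111100001111111000000000), 7), ((st 1010000111211111100001111111100000000), 7), ((st 1010000211102111100001111111100000000), 7)]) (fuel := 8) (doms_cons n505 (doms_cons n503 (doms_cons n506 doms_nil))) (and_l (and_r (and_r (and_r (and_l (and_r (and_r b31)))))))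
theorem n508 : ¬ TripleMatch 3000000000 (items (st 1010000211322111100001111111110100000)) 9 :=
  step (ws := ws) (ts0 := root) h0 (doms := [((st 10000211322111100001111111100000000), 8), ((st 1000000211322111100001111110110000000), 8), ((st 1010000111321111100001111111110000000), 8), ((st 1010000211212111100001111111110000000), 8)]) (fuel := 8) (doms_cons n428 (doms_cons n213 (doms_cons n504 (doms_cons n507 doms_nil)))) (and_l (and_l (and_r (and_r (and_r b31)))))
theorem n509 : ¬ TripleMatch 3000000000 (items (st 1100000011210111100001111111000000000)) 6 :=
  step (ws := ws) (ts0 := root) h0 (doms := [((st 1000000011210111100001111100000000000), 5), ((st 1100000011100111100001111110000000000), 5)]) (fuel := 8) (doms_cons n70 (doms_cons n220 doms_nil)) (and_l (and_r (and_l (and_r (and_r (and_r b31))))))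
theorem n510 : ¬ TripleMatch 3000000000 (items (st 1100000011320111100001111111010000000)) 7 :=
  step (ws := ws) (ts0 := root) h0 (doms := [((st 1000000011320111100001111110000000000), 6), ((st 1100000011210111100001111111000000000), 6)]) (fuel := 8) (doms_cons n182 (doms_cons n509 doms_nil)) (and_l (and_r (and_r (and_l (and_r (and_r (and_r b31)))))))
theorem n511 : ¬ TripleMatch 3000000000 (items (st 1110000011100111100001111111100000000)) 6 :=
  step (ws := ws) (ts0 := root) h0 (doms := [((st 1100000011100111100001111110000000000), 5)]) (fuel := 8) (doms_cons n220 doms_nil) (and_l (and_r (and_r (and_r (and_l (and_r (and_r (and_r b31))))))))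
theorem n512 : ¬ TripleMatch 3000000000 (items (st 1110000011210111100001111111110000000)) 7 :=
  step (ws := ws) (ts0 := root) h0 (doms := [((st 1100000011210111100001111111000000000), 6), ((st 1110000011100111100001111111100000000), 6)]) (fuel := 8) (doms_cons n509 (doms_cons n511 doms_nil)) (and_l (and_l b32))
theorem n513 : ¬ TripleMatch 3000000000 (items (st 1110000011320111100001111111111000000)) 8 :=
  step (ws := ws) (ts0 := root) h0 (doms := [((st 1010000011320111100001111111100000000), 7), ((st 1100000011320111100001111111010000000), 7), ((st 1110000011210111100001111111110000000), 7)]) (fuel := 8) (doms_cons n502 (doms_cons n510 (doms_cons n512 doms_nil))) (and_l (and_r (and_l b32)))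
theorem n514 : ¬ TripleMatch 3000000000 (items (st 1100000111101111100001111111000000000)) 6 :=
  step (ws := ws) (ts0 := root) h0 (doms := [((st 1000000111101111100001111100000000000), 5), ((st 1100000011100111100001111110000000000), 5)]) (fuel := 8) (doms_cons n72 (doms_cons n220 doms_nil)) (and_l (and_r (and_r (and_l b32))))
theorem n515 : ¬ TripleMatch 3000000000 (items (st 1100000111211111100001111111010000000)) 7 :=
  step (ws := ws) (ts0 := root) h0 (doms := [((st 1000000111211111100001111110000000000), 6), ((st 1100000011210111100001111111000000000), 6), ((st 1100000111101111100001111111000000000), 6)]) (fuel := 8) (doms_cons n183 (doms_cons n509 (doms_cons n514 doms_nil))) (and_l (and_r (and_r (and_r (and_l b32)))))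
theorem n516 : ¬ TripleMatch 3000000000 (items (st 1110000111101111100001111111110000000)) 7 :=
  step (ws := ws) (ts0 := root) h0 (doms := [((st 1100000111101111100001111111000000000), 6), ((st 1110000011100111100001111111100000000), 6)]) (fuel := 8) (doms_cons n514 (doms_cons n511 doms_nil)) (and_l (and_l (and_r b32)))
theorem n517 : ¬ TripleMatch 3000000000 (items (st 1110000111211111100001111111111000000)) 8 :=
  step (ws := ws) (ts0 := root) h0 (doms := [((st 1010000111211111100001111111100000000), 7), ((st 1100000111211111100001111111010000000), 7), ((st 1110000011210111100001111111110000000), 7), ((st 1110000111101111100001111111110000000), 7)]) (fuel := 8) (doms_cons n503 (doms_cons n515 (doms_cons n512 (doms_cons n516 doms_nil)))) (and_l (and_r (and_l (and_r b32))))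
theorem n518 : ¬ TripleMatch 3000000000 (items (st 1110000111321111100001111111111100000)) 9 :=
  step (ws := ws) (ts0 := root) h0 (doms := [((st 1010000111321111100001111111110000000), 8), ((st 1100000111321111100001111110111000000), 8), ((st 1110000011320111100001111111111000000), 8), ((st 1110000111211111100001111111111000000), 8)]) (fuel := 8) (doms_cons n504 (doms_cons n225 (doms_cons n513 (doms_cons n517 doms_nil)))) (and_l (and_r (and_r (and_l (and_r b32)))))
theorem n519 : ¬ TripleMatch 3000000000 (items (st 1100000211102111100001111111010000000)) 7 :=
  step (ws := ws) (ts0 := root) h0 (doms := [((st 1000000211102111100001111110000000000), 6), ((st 1100000111101111100001111111000000000), 6)]) (fuel := 8) (doms_cons n185 (doms_cons n514 doms_nil)) (and_l (and_r (and_r (and_r (and_l (and_r b32))))))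
theorem n520 : ¬ TripleMatch 3000000000 (items (st 1110000211102111100001111111111000000)) 8 :=
  step (ws := ws) (ts0 := root) h0 (doms := [((st 1010000211102111100001111111100000000), 7), ((st 1100000211102111100001111111010000000), 7), ((st 1110000111101111100001111111110000000), 7)]) (fuel := 8) (doms_cons n506 (doms_cons n519 (doms_cons n516 doms_nil))) (and_l (and_l (and_r (and_r b32))))
theorem n521 : ¬ TripleMatch 3000000000 (items (st 1110000211212111100001111111111100000)) 9 :=
  step (ws := ws) (ts0 := root) h0 (doms := [((st 1010000211212111100001111111110000000), 8), ((st 1100000211212111100001111110111000000), 8), ((st 1110000111211111100001111111111000000), 8), ((st 1110000211102111100001111111111000000), 8)]) (fuel := 8) (doms_cons n507 (doms_cons n227 (doms_cons n517 (doms_cons n520 doms_nil)))) (and_l (and_r (and_l (and_r (and_r b32)))))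
theorem n522 : ¬ TripleMatch 3000000000 (items (st 1110000211322111100001111111111110000)) 10 :=
  step (ws := ws) (ts0 := root) h0 (doms := [((st 110000211322111100001111111111000000), 9), ((st 1010000211322111100001111111110100000), 9), ((st 1100000211322111100001111110111100000), 9), ((st 1110000111321111100001111111111100000), 9), ((st 1110000211212111100001111111111100000), 9)]) (fuel := 8) (doms_cons n500 (doms_cons n508 (doms_cons n228 (doms_cons n518 (doms_cons n521 doms_nil))))) (and_l (and_r (and_r (and_l (and_r (and_r b32))))))
theorem n523 : ¬ TripleMatch 3000000000 (items (st 100100111321111110001111111010000000)) 8 :=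
  step (ws := ws) (ts0 := root) h0 (doms := [((st 100111321111110001111110000000000), 7), ((st 100000111321111100001111111000000000), 7), ((st 100100011320111110001111111000000000), 7), ((st 100100111211111110001111111000000000), 7)]) (fuel := 8) (doms_cons n128 (doms_cons n447 (doms_cons n460 (doms_cons n467 doms_nil)))) (and_l (and_r (and_r (and_r (and_l (and_r (and_r b32)))))))
theorem n524 : ¬ TripleMatch 3000000000 (items (st 110100111321111110001111111111000000)) 9 :=
  step (ws := ws) (ts0 := root) h0 (doms := [((st 10100111321111110001111111100000000), 8), ((st 100100111321111110001111111010000000), 8), ((st 110000111321111100001111111110000000), 8), ((st 110100011320111110001111111110000000), 8), ((st 110100111211111110001111111110000000), 8)]) (fuel := 8) (doms_cons n441 (doms_cons n523 (doms_cons n453 (doms_cons n464 (doms_cons n469 doms_nil))))) (and_l (and_l (and_r (and_r (and_r b32)))))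
theorem n525 : ¬ TripleMatch 3000000000 (items (st 1000000011210111110001101100000000000)) 5 :=
  step (ws := ws) (ts0 := root) h0 (doms := []) (fuel := 8) doms_nil (and_l (and_r (and_l (and_r (and_r (and_r b32))))))
theorem n526 : ¬ TripleMatch 3000000000 (items (st 1000000011320111110001101110000000000)) 6 :=
  step (ws := ws) (ts0 := root) h0 (doms := [((st 1000000011210111110001101100000000000), 5)]) (fuel := 8) (doms_cons n525 doms_nil) (and_l (and_r (and_r (and_l (and_r (and_r (and_r b32)))))))
theorem n527 : ¬ TripleMatch 3000000000 (items (st 1000100011320111110001111111000000000)) 7 :=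
  step (ws := ws) (ts0 := root) h0 (doms := [((st 100011320111110001111100000000000), 6), ((st 1000000011320111110001101110000000000), 6), ((st 1000100011210111110001111110000000000), 6)]) (fuel := 8) (doms_cons n6 (doms_cons n526 (doms_cons n189 doms_nil))) (and_l (and_r (and_r (and_r (and_l (and_r (and_r (and_r b32))))))))
theorem n528 : ¬ TripleMatch 3000000000 (items (st 1010100011210111110001111111100000000)) 7 :=
  step (ws := ws) (ts0 := root) h0 (doms := [((st 1000100011210111110001111110000000000), 6), ((st 1010000011210111100001111111000000000), 6), ((st 1010100011100111110001111111000000000), 6)]) (fuel := 8) (doms_cons n189 (doms_cons n481 (doms_cons n490 doms_nil))) (and_l (and_l b33))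
theorem n529 : ¬ TripleMatch 3000000000 (items (st 1010100011320111110001111111110000000)) 8 :=
  step (ws := ws) (ts0 := root) h0 (doms := [((st 1000100011320111110001111111000000000), 7), ((st 1010000011320111100001111111100000000), 7), ((st 1010100011210111110001111111100000000), 7)]) (fuel := 8) (doms_cons n527 (doms_cons n502 (doms_cons n528 doms_nil))) (and_l (and_r (and_l b33)))
theorem n530 : ¬ TripleMatch 3000000000 (items (st 1000000111101111110001101100000000000)) 5 :=
  step (ws := ws) (ts0 := root) h0 (doms := []) (fuel := 8) doms_nil (and_l (and_r (and_r (and_l b33))))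
theorem n531 : ¬ TripleMatch 3000000000 (items (st 1000000111211111110001101110000000000)) 6 :=
  step (ws := ws) (ts0 := root) h0 (doms := [((st 111211111110001101000000000000), 5), ((st 1000000011210111110001101100000000000), 5), ((st 1000000111101111110001101100000000000), 5)]) (fuel := 8) (doms_cons n435 (doms_cons n525 (doms_cons n530 doms_nil))) (and_l (and_r (and_r (and_r (and_l b33)))))
theorem n532 : ¬ TripleMatch 3000000000 (items (st 1000100111211111110001111111000000000)) 7 :=
  step (ws := ws) (ts0 := root) h0 (doms := [((st 100111211111110001111100000000000), 6), ((st 1000000111211111110001101110000000000), 6), ((st 1000100011210111110001111110000000000), 6), ((st 1000100111101111110001111110000000000), 6)]) (fuel := 8) (doms_cons n9 (doms_cons n531 (doms_cons n189 (doms_cons n192 doms_nil)))) (and_l (and_l (and_r b33)))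
theorem n533 : ¬ TripleMatch 3000000000 (items (st 1010100111101111110001111111100000000)) 7 :=
  step (ws := ws) (ts0 := root) h0 (doms := [((st 1000100111101111110001111110000000000), 6), ((st 1010000111101111100001111111000000000), 6), ((st 1010100011100111110001111111000000000), 6)]) (fuel := 8) (doms_cons n192 (doms_cons n483 (doms_cons n490 doms_nil))) (and_l (and_r (and_l (and_r b33))))
theorem n534 : ¬ TripleMatch 3000000000 (items (st 1010100111211111110001111111110000000)) 8 :=
  step (ws := ws) (ts0 := root) h0 (doms := [((st 1000100111211111110001111111000000000), 7), ((st 1010000111211111100001111111100000000), 7), ((st 1010100011210111110001111111100000000), 7), ((st 1010100111101111110001111111100000000), 7)]) (fuel := 8) (doms_cons n532 (doms_cons n503 (doms_cons n528 (doms_cons n533 doms_nil)))) (and_l (and_r (and_r (and_l (and_r b33)))))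
theorem n535 : ¬ TripleMatch 3000000000 (items (st 1010100111321111110001111111110100000)) 9 :=
  step (ws := ws) (ts0 := root) h0 (doms := [((st 10100111321111110001111111100000000), 8), ((st 1000100111321111110001111110110000000), 8), ((st 1010000111321111100001111111110000000), 8), ((st 1010100011320111110001111111110000000), 8), ((st 1010100111211111110001111111110000000), 8)]) (fuel := 8) (doms_cons n441 (doms_cons n216 (doms_cons n504 (doms_cons n529 (doms_cons n534 doms_nil))))) (and_l (and_r (and_r (and_r (and_l (and_r b33))))))
theorem n536 : ¬ TripleMatch 3000000000 (items (st 1100000011100111110001101110000000000)) 5 :=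
  step (ws := ws) (ts0 := root) h0 (doms := []) (fuel := 8) doms_nil (and_l (and_l (and_r (and_r b33))))
theorem n537 : ¬ TripleMatch 3000000000 (items (st 1100100011100111110001111111000000000)) 6 :=
  step (ws := ws) (ts0 := root) h0 (doms := [((st 1000100011100111110001111100000000000), 5), ((st 1100000011100111110001101110000000000), 5)]) (fuel := 8) (doms_cons n78 (doms_cons n536 doms_nil)) (and_l (and_r (and_l (and_r (and_r b33)))))
theorem n538 : ¬ TripleMatch 3000000000 (items (st 1100100011210111110001111111010000000)) 7 :=
  step (ws := ws) (ts0 := root) h0 (doms := [((st 1000100011210111110001111110000000000), 6), ((st 1100000011210111100001111111000000000), 6), ((st 1100100011100111110001111111000000000), 6)]) (fuel := 8) (doms_cons n189 (doms_cons n509 (doms_cons n537 doms_nil))) (and_l (and_r (and_r (and_l (and_r (and_r b33))))))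
theorem n539 : ¬ TripleMatch 3000000000 (items (st 1110100011100111110001111111110000000)) 7 :=
  step (ws := ws) (ts0 := root) h0 (doms := [((st 1100100011100111110001111111000000000), 6), ((st 1110000011100111100001111111100000000), 6)]) (fuel := 8) (doms_cons n537 (doms_cons n511 doms_nil)) (and_l (and_r (and_r (and_r (and_l (and_r (and_r b33)))))))
theorem n540 : ¬ TripleMatch 3000000000 (items (st 1110100011210111110001111111111000000)) 8 :=
  step (ws := ws) (ts0 := root) h0 (doms := [((st 1010100011210111110001111111100000000), 7), ((st 1100100011210111110001111111010000000), 7), ((st 1110000011210111100001111111110000000), 7), ((st 1110100011100111110001111111110000000), 7)]) (fuel := 8) (doms_cons n528 (doms_cons n538 (doms_cons n512 (doms_cons n539 doms_nil)))) (and_l (and_l (and_r (and_r (and_r b33)))))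
theorem n541 : ¬ TripleMatch 3000000000 (items (st 1110100011320111110001111111111100000)) 9 :=
  step (ws := ws) (ts0 := root) h0 (doms := [((st 1010100011320111110001111111110000000), 8), ((st 1100100011320111110001111110111000000), 8), ((st 1110000011320111100001111111111000000), 8), ((st 1110100011210111110001111111111000000), 8)]) (fuel := 8) (doms_cons n529 (doms_cons n231 (doms_cons n513 (doms_cons n540 doms_nil)))) (and_l (and_r (and_l (and_r (and_r (and_r b33))))))
theorem n542 : ¬ TripleMatch 3000000000 (items (st 1100100111101111110001111111010000000)) 7 :=
  step (ws := ws) (ts0 := root) h0 (doms := [((st 1000100111101111110001111110000000000), 6), ((st 1100000111101111100001111111000000000), 6), ((st 1100100011100111110001111111000000000), 6)]) (fuel := 8) (doms_cons n192 (doms_cons n514 (doms_cons n537 doms_nil))) (and_l (and_r (and_r (and_l (and_r (and_r (and_r b33)))))))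
theorem n543 : ¬ TripleMatch 3000000000 (items (st 1110100111101111110001111111111000000)) 8 :=
  step (ws := ws) (ts0 := root) h0 (doms := [((st 1010100111101111110001111111100000000), 7), ((st 1100100111101111110001111111010000000), 7), ((st 1110000111101111100001111111110000000), 7), ((st 1110100011100111110001111111110000000), 7)]) (fuel := 8) (doms_cons n533 (doms_cons n542 (doms_cons n516 (doms_cons n539 doms_nil)))) (and_l (and_r (and_r (and_r (and_l (and_r (and_r (and_r b33))))))))
theorem n544 : ¬ TripleMatch 3000000000 (items (st 1110100111211111110001111111111100000)) 9 :=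
  step (ws := ws) (ts0 := root) h0 (doms := [((st 1010100111211111110001111111110000000), 8), ((st 1100100111211111110001111110111000000), 8), ((st 1110000111211111100001111111111000000), 8), ((st 1110100011210111110001111111111000000), 8), ((st 1110100111101111110001111111111000000), 8)]) (fuel := 8) (doms_cons n534 (doms_cons n233 (doms_cons n517 (doms_cons n540 (doms_cons n543 doms_nil))))) (and_l (and_l b34))
theorem n545 : ¬ TripleMatch 3000000000 (items (st 1110100111321111110001111111111110000)) 10 :=
  step (ws := ws) (ts0 := root) h0 (doms := [((st 110100111321111110001111111111000000), 9), ((st 1010100111321111110001111111110100000), 9), ((st 1100100111321111110001111110111100000), 9), ((st 1110000111321111100001111111111100000), 9), ((st 1110100011320111110001111111111100000), 9), ((st 1110100111211111110001111111111100000), 9)]) (fuel := 8) (doms_cons n524 (doms_cons n535 (doms_cons n234 (doms_cons n518 (doms_cons n541 (doms_cons n544 doms_nil)))))) (and_l (and_r (and_l b34)))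
theorem n546 : ¬ TripleMatch 3000000000 (items (st 100100211212111110001111111010000000)) 8 :=
  step (ws := ws) (ts0 := root) h0 (doms := [((st 100211212111110001111110000000000), 7), ((st 100000211212111100001111111000000000), 7), ((st 100100111211111110001111111000000000), 7), ((st 100100211102111110001111111000000000), 7)]) (fuel := 8) (doms_cons n130 (doms_cons n454 (doms_cons n467 (doms_cons n472 doms_nil)))) (and_l (and_r (and_r (and_l b34))))
theorem n547 : ¬ TripleMatch 3000000000 (items (st 110100211212111110001111111111000000)) 9 :=
  step (ws := ws) (ts0 := root) h0 (doms := [((st 10100211212111110001111111100000000), 8), ((st 100100211212111110001111111010000000), 8), ((st 110000211212111100001111111110000000), 8), ((st 110100111211111110001111111110000000), 8), ((st 110100211102111110001111111110000000), 8)]) (fuel := 8) (doms_cons n445 (doms_cons n546 (doms_cons n456 (doms_cons n469 (doms_cons n473 doms_nil))))) (and_l (and_r (and_r (and_r (and_l b34)))))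
theorem n548 : ¬ TripleMatch 3000000000 (items (st 1000000211102111110001101110000000000)) 6 :=
  step (ws := ws) (ts0 := root) h0 (doms := [((st 211102111110001101000000000000), 5), ((st 1000000111101111110001101100000000000), 5)]) (fuel := 8) (doms_cons n442 (doms_cons n530 doms_nil)) (and_l (and_l (and_r b34)))
theorem n549 : ¬ TripleMatch 3000000000 (items (st 1000100211102111110001111111000000000)) 7 :=
  step (ws := ws) (ts0 := root) h0 (doms := [((st 100211102111110001111100000000000), 6), ((st 1000000211102111110001101110000000000), 6), ((st 1000100111101111110001111110000000000), 6)]) (fuel := 8) (doms_cons n12 (doms_cons n548 (doms_cons n192 doms_nil))) (and_l (and_r (and_l (and_r b34))))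
theorem n550 : ¬ TripleMatch 3000000000 (items (st 1010100211102111110001111111110000000)) 8 :=
  step (ws := ws) (ts0 := root) h0 (doms := [((st 1000100211102111110001111111000000000), 7), ((st 1010000211102111100001111111100000000), 7), ((st 1010100111101111110001111111100000000), 7)]) (fuel := 8) (doms_cons n549 (doms_cons n506 (doms_cons n533 doms_nil))) (and_l (and_r (and_r (and_l (and_r b34)))))
theorem n551 : ¬ TripleMatch 3000000000 (items (st 1010100211212111110001111111110100000)) 9 :=
  step (ws := ws) (ts0 := root) h0 (doms := [((st 10100211212111110001111111100000000), 8), ((st 1000100211212111110001111110110000000), 8), ((st 1010000211212111100001111111110000000), 8), ((st 1010100111211111110001111111110000000), 8), ((st 1010100211102111110001111111110000000), 8)]) (fuel := 8) (doms_cons n445 (doms_cons n218 (doms_cons n507 (doms_cons n534 (doms_cons n550 doms_nil))))) (and_l (and_r (and_r (and_r (and_l (and_r b34))))))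
theorem n552 : ¬ TripleMatch 3000000000 (items (st 1110100211102111110001111111111100000)) 9 :=
  step (ws := ws) (ts0 := root) h0 (doms := [((st 1010100211102111110001111111110000000), 8), ((st 1100100211102111110001111110111000000), 8), ((st 1110000211102111100001111111111000000), 8), ((st 1110100111101111110001111111111000000), 8)]) (fuel := 8) (doms_cons n550 (doms_cons n235 (doms_cons n520 (doms_cons n543 doms_nil)))) (and_l (and_l (and_r (and_r b34))))
theorem n553 : ¬ TripleMatch 3000000000 (items (st 1110100211212111110001111111111110000)) 10 :=
  step (ws := ws) (ts0 := root) h0 (doms := [((st 110100211212111110001111111111000000), 9), ((st 1010100211212111110001111111110100000), 9), ((st 1100100211212111110001111110111100000), 9), ((st 1110000211212111100001111111111100000), 9), ((st 1110100111211111110001111111111100000), 9), ((st 1110100211102111110001111111111100000), 9)]) (fuel := 8) (doms_cons n547 (doms_cons n551 (doms_cons n236 (doms_cons n521 (doms_cons n544 (doms_cons n552 doms_nil)))))) (and_l (and_r (and_l (and_r (and_r b34)))))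
theorem n554 : ¬ TripleMatch 3000000000 (items (st 1110100211322111110001111111111111000)) 11 :=
  step (ws := ws) (ts0 := root) h0 (doms := [((st 110100211322111110001111111110110000), 10), ((st 1010100211322111110001111111011110000), 10), ((st 1100100211322111110001111110111110000), 10), ((st 1110000211322111100001111111111110000), 10), ((st 1110100111321111110001111111111110000), 10), ((st 1110100211212111110001111111111110000), 10)]) (fuel := 8) (doms_cons n475 (doms_cons n498 (doms_cons n237 (doms_cons n522 (doms_cons n545 (doms_cons n553 doms_nil)))))) (and_l (and_r (and_r (and_l (and_r (and_r b34))))))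
theorem n555 : ¬ TripleMatch 3000000000 (items (st 10011210111111001101000000000000)) 5 :=
  step (ws := ws) (ts0 := root) h0 (doms := [((st 11210111111001000000000000000), 4), ((st 10011100111111001100000000000000), 4)]) (fuel := 8) (doms_cons n15 (doms_cons n16 doms_nil)) (and_l (and_r (and_r (and_r (and_l (and_r (and_r b34)))))))
theorem n556 : ¬ TripleMatch 3000000000 (items (st 10000011100111111000101000000000000)) 4 :=
  step (ws := ws) (ts0 := root) h0 (doms := []) (fuel := 8) doms_nil (and_l (and_l (and_r (and_r (and_r b34)))))
theorem n557 : ¬ TripleMatch 3000000000 (items (st 10000011210111111000101100000000000)) 5 :=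
  step (ws := ws) (ts0 := root) h0 (doms := [((st 11210111111000100000000000000), 4), ((st 10000011100111111000101000000000000), 4)]) (fuel := 8) (doms_cons n18 (doms_cons n556 doms_nil)) (and_l (and_r (and_l (and_r (and_r (and_r b34))))))
theorem n558 : ¬ TripleMatch 3000000000 (items (st 10010011100111111001101100000000000)) 5 :=
  step (ws := ws) (ts0 := root) h0 (doms := [((st 10011100111111001100000000000000), 4), ((st 10000011100111111000101000000000000), 4)]) (fuel := 8) (doms_cons n16 (doms_cons n556 doms_nil)) (and_l (and_r (and_r (and_l (and_r (and_r (and_r b34)))))))
theorem n559 : ¬ TripleMatch 3000000000 (items (st 10010011210111111001101110000000000)) 6 :=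
  step (ws := ws) (ts0 := root) h0 (doms := [((st 10011210111111001101000000000000), 5), ((st 10000011210111111000101100000000000), 5), ((st 10010011100111111001101100000000000), 5)]) (fuel := 8) (doms_cons n555 (doms_cons n557 (doms_cons n558 doms_nil))) (and_l (and_r (and_r (and_r (and_l (and_r (and_r (and_r b34))))))))
theorem n560 : ¬ TripleMatch 3000000000 (items (st 10000011100111111000110000000000000)) 4 :=
  step (ws := ws) (ts0 := root) h0 (doms := []) (fuel := 8) doms_nil (and_l (and_l b35))
theorem n561 : ¬ TripleMatch 3000000000 (items (st 10010011100111111001110100000000000)) 5 :=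
  step (ws := ws) (ts0 := root) h0 (doms := [((st 10011100111111001100000000000000), 4), ((st 10000011100111111000110000000000000), 4)]) (fuel := 8) (doms_cons n16 (doms_cons n560 doms_nil)) (and_l (and_r (and_l b35)))
theorem n562 : ¬ TripleMatch 3000000000 (items (st 10100011100111111000111100000000000)) 5 :=
  step (ws := ws) (ts0 := root) h0 (doms := [((st 10000011100111111000110000000000000), 4)]) (fuel := 8) (doms_cons n560 doms_nil) (and_l (and_r (and_r (and_l b35))))
theorem n563 : ¬ TripleMatch 3000000000 (items (st 10110011100111111001111110000000000)) 6 :=
  step (ws := ws) (ts0 := root) h0 (doms := [((st 110011100111111001111000000000000), 5), ((st 10010011100111111001110100000000000), 5), ((st 10100011100111111000111100000000000), 5)]) (fuel := 8) (doms_cons n22 (doms_cons n561 (doms_cons n562 doms_nil))) (and_l (and_r (and_r (and_r (and_l b35)))))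
theorem n564 : ¬ TripleMatch 3000000000 (items (st 10110011210111111001111111000000000)) 7 :=
  step (ws := ws) (ts0 := root) h0 (doms := [((st 110011210111111001111100000000000), 6), ((st 10010011210111111001101110000000000), 6), ((st 10100011210111110001111110000000000), 6), ((st 10110011100111111001111110000000000), 6)]) (fuel := 8) (doms_cons n23 (doms_cons n559 (doms_cons n433 (doms_cons n563 doms_nil)))) (and_l (and_l (and_r b35)))
theorem n565 : ¬ TripleMatch 3000000000 (items (st 10110011320111111001111111100000000)) 8 :=
  step (ws := ws) (ts0 := root) h0 (doms := [((st 110011320111111001111110000000000), 7), ((st 10100011320111110001111111000000000), 7), ((st 10110011210111111001111111000000000), 7)]) (fuel := 8) (doms_cons n135 (doms_cons n434 (doms_cons n564 doms_nil))) (and_l (and_r (and_l (and_r b35))))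
theorem n566 : ¬ TripleMatch 3000000000 (items (st 10111101111111001101000000000000)) 5 :=
  step (ws := ws) (ts0 := root) h0 (doms := [((st 111101111111001000000000000000), 4), ((st 10011100111111001100000000000000), 4)]) (fuel := 8) (doms_cons n25 (doms_cons n16 doms_nil)) (and_l (and_r (and_r (and_l (and_r b35)))))
theorem n567 : ¬ TripleMatch 3000000000 (items (st 10000111101111111000101100000000000)) 5 :=
  step (ws := ws) (ts0 := root) h0 (doms := [((st 111101111111000100000000000000), 4), ((st 10000011100111111000101000000000000), 4)]) (fuel := 8) (doms_cons n27 (doms_cons n556 doms_nil)) (and_l (and_r (and_r (and_r (and_l (and_r b35))))))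
theorem n568 : ¬ TripleMatch 3000000000 (items (st 10010111101111111001101110000000000)) 6 :=
  step (ws := ws) (ts0 := root) h0 (doms := [((st 10111101111111001101000000000000), 5), ((st 10000111101111111000101100000000000), 5), ((st 10010011100111111001101100000000000), 5)]) (fuel := 8) (doms_cons n566 (doms_cons n567 (doms_cons n558 doms_nil))) (and_l (and_l (and_r (and_r b35))))
theorem n569 : ¬ TripleMatch 3000000000 (items (st 10110111101111111001111111000000000)) 7 :=
  step (ws := ws) (ts0 := root) h0 (doms := [((st 110111101111111001111100000000000), 6), ((st 10010111101111111001101110000000000), 6), ((st 10100111101111110001111110000000000), 6), ((st 10110011100111111001111110000000000), 6)]) (fuel := 8) (doms_cons n29 (doms_cons n568 (doms_cons n439 (doms_cons n563 doms_nil)))) (and_l (and_r (and_l (and_r (and_r b35)))))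
theorem n570 : ¬ TripleMatch 3000000000 (items (st 10110111211111111001111111100000000)) 8 :=
  step (ws := ws) (ts0 := root) h0 (doms := [((st 110111211111111001111110000000000), 7), ((st 10100111211111110001111111000000000), 7), ((st 10110011210111111001111111000000000), 7), ((st 10110111101111111001111111000000000), 7)]) (fuel := 8) (doms_cons n139 (doms_cons n440 (doms_cons n564 (doms_cons n569 doms_nil)))) (and_l (and_r (and_r (and_l (and_r (and_r b35))))))
theorem n571 : ¬ TripleMatch 3000000000 (items (st 10110111321111111001111111100100000)) 9 :=
  step (ws := ws) (ts0 := root) h0 (doms := [((st 110111321111111001111110100000000), 8), ((st 10100111321111110001111111100000000), 8), ((st 10110011320111111001111111100000000), 8), ((st 10110111211111111001111111100000000), 8)]) (fuel := 8) (doms_cons n140 (doms_cons n441 (doms_cons n565 (doms_cons n570 doms_nil)))) (and_l (and_r (and_r (and_r (and_l (and_r (and_r b35)))))))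
theorem n572 : ¬ TripleMatch 3000000000 (items (st 100000011100111111000101000000000000)) 4 :=
  step (ws := ws) (ts0 := root) h0 (doms := []) (fuel := 8) doms_nil (and_l (and_l (and_r (and_r (and_r b35)))))
theorem n573 : ¬ TripleMatch 3000000000 (items (st 100000011210111111000101100000000000)) 5 :=
  step (ws := ws) (ts0 := root) h0 (doms := [((st 11210111111000100000000000000), 4), ((st 100000011100111111000101000000000000), 4)]) (fuel := 8) (doms_cons n18 (doms_cons n572 doms_nil)) (and_l (and_r (and_l (and_r (and_r (and_r b35))))))
theorem n574 : ¬ TripleMatch 3000000000 (items (st 100010011100111111001101100000000000)) 5 :=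
  step (ws := ws) (ts0 := root) h0 (doms := [((st 10011100111111001100000000000000), 4), ((st 100000011100111111000101000000000000), 4)]) (fuel := 8) (doms_cons n16 (doms_cons n572 doms_nil)) (and_l (and_r (and_r (and_l (and_r (and_r (and_r b35)))))))
theorem n575 : ¬ TripleMatch 3000000000 (items (st 100010011210111111001101110000000000)) 6 :=
  step (ws := ws) (ts0 := root) h0 (doms := [((st 10011210111111001101000000000000), 5), ((st 100000011210111111000101100000000000), 5), ((st 100010011100111111001101100000000000), 5)]) (fuel := 8) (doms_cons n555 (doms_cons n573 (doms_cons n574 doms_nil))) (and_l (and_r (and_r (and_r (and_l (and_r (and_r (and_r b35))))))))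
theorem n576 : ¬ TripleMatch 3000000000 (items (st 100110011210111111001111111000000000)) 7 :=
  step (ws := ws) (ts0 := root) h0 (doms := [((st 110011210111111001111100000000000), 6), ((st 100010011210111111001101110000000000), 6), ((st 100100011210111110001111110000000000), 6), ((st 100110011100111111001111110000000000), 6)]) (fuel := 8) (doms_cons n23 (doms_cons n575 (doms_cons n157 (doms_cons n169 doms_nil)))) (and_l (and_l b36))
theorem n577 : ¬ TripleMatch 3000000000 (items (st 110110011100111111001111111100000000)) 7 :=
  step (ws := ws) (ts0 := root) h0 (doms := [((st 100110011100111111001111110000000000), 6), ((st 110100011100111110001111111000000000), 6)]) (fuel := 8) (doms_cons n169 (doms_cons n462 doms_nil)) (and_l (and_r (and_l b36)))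
theorem n578 : ¬ TripleMatch 3000000000 (items (st 110110011210111111001111111110000000)) 8 :=
  step (ws := ws) (ts0 := root) h0 (doms := [((st 100110011210111111001111111000000000), 7), ((st 110100011210111110001111111100000000), 7), ((st 110110011100111111001111111100000000), 7)]) (fuel := 8) (doms_cons n576 (doms_cons n463 (doms_cons n577 doms_nil))) (and_l (and_r (and_r (and_l b36))))
theorem n579 : ¬ TripleMatch 3000000000 (items (st 110110011320111111001111111110100000)) 9 :=
  step (ws := ws) (ts0 := root) h0 (doms := [((st 10110011320111111001111111100000000), 8), ((st 100110011320111111001111110110000000), 8), ((st 110100011320111110001111111110000000), 8), ((st 110110011210111111001111111110000000), 8)]) (fuel := 8) (doms_cons n565 (doms_cons n171 (doms_cons n464 (doms_cons n578 doms_nil)))) (and_l (and_r (and_r (and_r (and_l b36)))))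
theorem n580 : ¬ TripleMatch 3000000000 (items (st 100000111101111111000101100000000000)) 5 :=
  step (ws := ws) (ts0 := root) h0 (doms := [((st 111101111111000100000000000000), 4), ((st 100000011100111111000101000000000000), 4)]) (fuel := 8) (doms_cons n27 (doms_cons n572 doms_nil)) (and_l (and_l (and_r b36)))
theorem n581 : ¬ TripleMatch 3000000000 (items (st 100010111101111111001101110000000000)) 6 :=
  step (ws := ws) (ts0 := root) h0 (doms := [((st 10111101111111001101000000000000), 5), ((st 100000111101111111000101100000000000), 5), ((st 100010011100111111001101100000000000), 5)]) (fuel := 8) (doms_cons n566 (doms_cons n580 (doms_cons n574 doms_nil))) (and_l (and_r (and_l (and_r b36))))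
theorem n582 : ¬ TripleMatch 3000000000 (items (st 100110111101111111001111111000000000)) 7 :=
  step (ws := ws) (ts0 := root) h0 (doms := [((st 110111101111111001111100000000000), 6), ((st 100010111101111111001101110000000000), 6), ((st 100100111101111110001111110000000000), 6), ((st 100110011100111111001111110000000000), 6)]) (fuel := 8) (doms_cons n29 (doms_cons n581 (doms_cons n160 (doms_cons n169 doms_nil)))) (and_l (and_r (and_r (and_l (and_r b36)))))
theorem n583 : ¬ TripleMatch 3000000000 (items (st 110110111101111111001111111110000000)) 8 :=
  step (ws := ws) (ts0 := root) h0 (doms := [((st 100110111101111111001111111000000000), 7), ((st 110100111101111110001111111100000000), 7), ((st 110110011100111111001111111100000000), 7)]) (fuel := 8) (doms_cons n582 (doms_cons n468 (doms_cons n577 doms_nil))) (and_l (and_r (and_r (and_r (and_l (and_r b36))))))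
theorem n584 : ¬ TripleMatch 3000000000 (items (st 110110111211111111001111111110100000)) 9 :=
  step (ws := ws) (ts0 := root) h0 (doms := [((st 10110111211111111001111111100000000), 8), ((st 100110111211111111001111110110000000), 8), ((st 110100111211111110001111111110000000), 8), ((st 110110011210111111001111111110000000), 8), ((st 110110111101111111001111111110000000), 8)]) (fuel := 8) (doms_cons n570 (doms_cons n173 (doms_cons n469 (doms_cons n578 (doms_cons n583 doms_nil))))) (and_l (and_l (and_r (and_r b36))))
theorem n585 : ¬ TripleMatch 3000000000 (items (st 110110111321111111001111111110110000)) 10 :=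
  step (ws := ws) (ts0 := root) h0 (doms := [((st 10110111321111111001111111100100000), 9), ((st 100110111321111111001111110110100000), 9), ((st 110100111321111110001111111110100000), 9), ((st 110110011320111111001111111110100000), 9), ((st 110110111211111111001111111110100000), 9)]) (fuel := 8) (doms_cons n571 (doms_cons n174 (doms_cons n470 (doms_cons n579 (doms_cons n584 doms_nil))))) (and_l (and_r (and_l (and_r (and_r b36)))))
theorem n586 : ¬ TripleMatch 3000000000 (items (st 10110011320111111001111111010000000)) 8 :=
  step (ws := ws) (ts0 := root) h0 (doms := [((st 110011320111111001111110000000000), 7), ((st 10100011320111110001111111000000000), 7), ((st 10110011210111111001111111000000000), 7)]) (fuel := 8) (doms_cons n135 (doms_cons n434 (doms_cons n564 doms_nil))) (and_l (and_r (and_r (and_l (and_r (and_r b36))))))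
theorem n587 : ¬ TripleMatch 3000000000 (items (st 10110111211111111001111111010000000)) 8 :=
  step (ws := ws) (ts0 := root) h0 (doms := [((st 110111211111111001111110000000000), 7), ((st 10100111211111110001111111000000000), 7), ((st 10110011210111111001111111000000000), 7), ((st 10110111101111111001111111000000000), 7)]) (fuel := 8) (doms_cons n139 (doms_cons n440 (doms_cons n564 (doms_cons n569 doms_nil)))) (and_l (and_r (and_r (and_r (and_l (and_r (and_r b36)))))))
theorem n588 : ¬ TripleMatch 3000000000 (items (st 10110111321111111001111111011000000)) 9 :=
  step (ws := ws) (ts0 := root) h0 (doms := [((st 110111321111111001111110010000000), 8), ((st 10100111321111110001111111010000000), 8), ((st 10110011320111111001111111010000000), 8), ((st 10110111211111111001111111010000000), 8)]) (fuel := 8) (doms_cons n179 (doms_cons n477 (doms_cons n586 (doms_cons n587 doms_nil)))) (and_l (and_l (and_r (and_r (and_r b36)))))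
theorem n589 : ¬ TripleMatch 3000000000 (items (st 1010110011100111111001111111010000000)) 7 :=
  step (ws := ws) (ts0 := root) h0 (doms := [((st 1000110011100111111001111110000000000), 6), ((st 1010100011100111110001111111000000000), 6)]) (fuel := 8) (doms_cons n201 (doms_cons n490 doms_nil)) (and_l (and_r (and_l (and_r (and_r (and_r b36))))))
theorem n590 : ¬ TripleMatch 3000000000 (items (st 1010110011210111111001111111011000000)) 8 :=
  step (ws := ws) (ts0 := root) h0 (doms := [((st 10110011210111111001111111000000000), 7), ((st 1000110011210111111001111110010000000), 7), ((st 1010100011210111110001111111010000000), 7), ((st 1010110011100111111001111111010000000), 7)]) (fuel := 8) (doms_cons n564 (doms_cons n202 (doms_cons n491 (doms_cons n589 doms_nil)))) (and_l (and_r (and_r (and_l (and_r (and_r (and_r b36)))))))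
theorem n591 : ¬ TripleMatch 3000000000 (items (st 1010110011320111111001111111011100000)) 9 :=
  step (ws := ws) (ts0 := root) h0 (doms := [((st 10110011320111111001111111010000000), 8), ((st 1000110011320111111001111110011000000), 8), ((st 1010100011320111110001111111011000000), 8), ((st 1010110011210111111001111111011000000), 8)]) (fuel := 8) (doms_cons n586 (doms_cons n203 (doms_cons n492 (doms_cons n590 doms_nil)))) (and_l (and_r (and_r (and_r (and_l (and_r (and_r (and_r b36))))))))
theorem n592 : ¬ TripleMatch 3000000000 (items (st 1010110111101111111001111111011000000)) 8 :=
  step (ws := ws) (ts0 := root) h0 (doms := [((st 10110111101111111001111111000000000), 7), ((st 1000110111101111111001111110010000000), 7), ((st 1010100111101111110001111111010000000), 7), ((st 1010110011100111111001111111010000000), 7)]) (fuel := 8) (doms_cons n569 (doms_cons n204 (doms_cons n493 (doms_cons n589 doms_nil)))) (and_l (and_l b37))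
theorem n593 : ¬ TripleMatch 3000000000 (items (st 1010110111211111111001111111011100000)) 9 :=
  step (ws := ws) (ts0 := root) h0 (doms := [((st 10110111211111111001111111010000000), 8), ((st 1000110111211111111001111110011000000), 8), ((st 1010100111211111110001111111011000000), 8), ((st 1010110011210111111001111111011000000), 8), ((st 1010110111101111111001111111011000000), 8)]) (fuel := 8) (doms_cons n587 (doms_cons n205 (doms_cons n494 (doms_cons n590 (doms_cons n592 doms_nil))))) (and_l (and_r (and_l b37)))
theorem n594 : ¬ TripleMatch 3000000000 (items (st 1010110111321111111001111111011110000)) 10 :=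
  step (ws := ws) (ts0 := root) h0 (doms := [((st 10110111321111111001111111011000000), 9), ((st 1000110111321111111001111110011100000), 9), ((st 1010100111321111110001111111011100000), 9), ((st 1010110011320111111001111111011100000), 9), ((st 1010110111211111111001111111011100000), 9)]) (fuel := 8) (doms_cons n588 (doms_cons n206 (doms_cons n495 (doms_cons n591 (doms_cons n593 doms_nil))))) (and_l (and_r (and_r (and_l b37))))
theorem n595 : ¬ TripleMatch 3000000000 (items (st 100110011320111111001111111010000000)) 8 :=
  step (ws := ws) (ts0 := root) h0 (doms := [((st 110011320111111001111110000000000), 7), ((st 100100011320111110001111111000000000), 7), ((st 100110011210111111001111111000000000), 7)]) (fuel := 8) (doms_cons n135 (doms_cons n460 (doms_cons n576 doms_nil))) (and_l (and_r (and_r (and_r (and_l b37)))))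
theorem n596 : ¬ TripleMatch 3000000000 (items (st 110110011320111111001111111111000000)) 9 :=
  step (ws := ws) (ts0 := root) h0 (doms := [((st 10110011320111111001111111100000000), 8), ((st 100110011320111111001111111010000000), 8), ((st 110100011320111110001111111110000000), 8), ((st 110110011210111111001111111110000000), 8)]) (fuel := 8) (doms_cons n565 (doms_cons n595 (doms_cons n464 (doms_cons n578 doms_nil)))) (and_l (and_l (and_r b37)))
theorem n597 : ¬ TripleMatch 3000000000 (items (st 1000000011100111111000101000000000000)) 4 :=
  step (ws := ws) (ts0 := root) h0 (doms := []) (fuel := 8) doms_nil (and_l (and_r (and_l (and_r b37))))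
theorem n598 : ¬ TripleMatch 3000000000 (items (st 1000000011210111111000101100000000000)) 5 :=
  step (ws := ws) (ts0 := root) h0 (doms := [((st 11210111111000100000000000000), 4), ((st 1000000011100111111000101000000000000), 4)]) (fuel := 8) (doms_cons n18 (doms_cons n597 doms_nil)) (and_l (and_r (and_r (and_l (and_r b37)))))
theorem n599 : ¬ TripleMatch 3000000000 (items (st 1000010011100111111001101100000000000)) 5 :=
  step (ws := ws) (ts0 := root) h0 (doms := [((st 10011100111111001100000000000000), 4), ((st 1000000011100111111000101000000000000), 4)]) (fuel := 8) (doms_cons n16 (doms_cons n597 doms_nil)) (and_l (and_r (and_r (and_r (and_l (and_r b37))))))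
theorem n600 : ¬ TripleMatch 3000000000 (items (st 1000010011210111111001101110000000000)) 6 :=
  step (ws := ws) (ts0 := root) h0 (doms := [((st 10011210111111001101000000000000), 5), ((st 1000000011210111111000101100000000000), 5), ((st 1000010011100111111001101100000000000), 5)]) (fuel := 8) (doms_cons n555 (doms_cons n598 (doms_cons n599 doms_nil))) (and_l (and_l (and_r (and_r b37))))
theorem n601 : ¬ TripleMatch 3000000000 (items (st 1000110011210111111001111111000000000)) 7 :=
  step (ws := ws) (ts0 := root) h0 (doms := [((st 110011210111111001111100000000000), 6), ((st 1000010011210111111001101110000000000), 6), ((st 1000100011210111110001111110000000000), 6), ((st 1000110011100111111001111110000000000), 6)]) (fuel := 8) (doms_cons n23 (doms_cons n600 (doms_cons n189 (doms_cons n201 doms_nil)))) (and_l (and_r (and_l (and_r (and_r b37)))))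
theorem n602 : ¬ TripleMatch 3000000000 (items (st 1010110011100111111001111111100000000)) 7 :=
  step (ws := ws) (ts0 := root) h0 (doms := [((st 1000110011100111111001111110000000000), 6), ((st 1010100011100111110001111111000000000), 6)]) (fuel := 8) (doms_cons n201 (doms_cons n490 doms_nil)) (and_l (and_r (and_r (and_l (and_r (and_r b37))))))
theorem n603 : ¬ TripleMatch 3000000000 (items (st 1010110011210111111001111111110000000)) 8 :=
  step (ws := ws) (ts0 := root) h0 (doms := [((st 1000110011210111111001111111000000000), 7), ((st 1010100011210111110001111111100000000), 7), ((st 1010110011100111111001111111100000000), 7)]) (fuel := 8) (doms_cons n601 (doms_cons n528 (doms_cons n602 doms_nil))) (and_l (and_r (and_r (and_r (and_l (and_r (and_r b37)))))))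
theorem n604 : ¬ TripleMatch 3000000000 (items (st 1010110011320111111001111111110100000)) 9 :=
  step (ws := ws) (ts0 := root) h0 (doms := [((st 10110011320111111001111111100000000), 8), ((st 1000110011320111111001111110110000000), 8), ((st 1010100011320111110001111111110000000), 8), ((st 1010110011210111111001111111110000000), 8)]) (fuel := 8) (doms_cons n565 (doms_cons n240 (doms_cons n529 (doms_cons n603 doms_nil)))) (and_l (and_l (and_r (and_r (and_r b37)))))
theorem n605 : ¬ TripleMatch 3000000000 (items (st 1100110011100111111001111111010000000)) 7 :=
  step (ws := ws) (ts0 := root) h0 (doms := [((st 1000110011100111111001111110000000000), 6), ((st 1100100011100111110001111111000000000), 6)]) (fuel := 8) (doms_cons n201 (doms_cons n537 doms_nil)) (and_l (and_r (and_l (and_r (and_r (and_r b37))))))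
theorem n606 : ¬ TripleMatch 3000000000 (items (st 1110110011100111111001111111111000000)) 8 :=
  step (ws := ws) (ts0 := root) h0 (doms := [((st 1010110011100111111001111111100000000), 7), ((st 1100110011100111111001111111010000000), 7), ((st 1110100011100111110001111111110000000), 7)]) (fuel := 8) (doms_cons n602 (doms_cons n605 (doms_cons n539 doms_nil))) (and_l (and_r (and_r (and_l (and_r (and_r (and_r b37)))))))
theorem n607 : ¬ TripleMatch 3000000000 (items (st 1110110011210111111001111111111100000)) 9 :=
  step (ws := ws) (ts0 := root) h0 (doms := [((st 1010110011210111111001111111110000000), 8), ((st 1100110011210111111001111110111000000), 8), ((st 1110100011210111110001111111111000000), 8), ((st 1110110011100111111001111111111000000), 8)]) (fuel := 8) (doms_cons n603 (doms_cons n245 (doms_cons n540 (doms_cons n606 doms_nil)))) (and_l (and_r (and_r (and_r (and_l (and_r (and_r (and_r b37))))))))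
theorem n608 : ¬ TripleMatch 3000000000 (items (st 1110110011320111111001111111111110000)) 10 :=
  step (ws := ws) (ts0 := root) h0 (doms := [((st 110110011320111111001111111111000000), 9), ((st 1010110011320111111001111111110100000), 9), ((st 1100110011320111111001111110111100000), 9), ((st 1110100011320111110001111111111100000), 9), ((st 1110110011210111111001111111111100000), 9)]) (fuel := 8) (doms_cons n596 (doms_cons n604 (doms_cons n246 (doms_cons n541 (doms_cons n607 doms_nil))))) (and_l (and_l b38))
theorem n609 : ¬ TripleMatch 3000000000 (items (st 100110111211111111001111111010000000)) 8 :=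
  step (ws := ws) (ts0 := root) h0 (doms := [((st 110111211111111001111110000000000), 7), ((st 100100111211111110001111111000000000), 7), ((st 100110011210111111001111111000000000), 7), ((st 100110111101111111001111111000000000), 7)]) (fuel := 8) (doms_cons n139 (doms_cons n467 (doms_cons n576 (doms_cons n582 doms_nil)))) (and_l (and_r (and_l b38)))
theorem n610 : ¬ TripleMatch 3000000000 (items (st 110110111211111111001111111111000000)) 9 :=
  step (ws := ws) (ts0 := root) h0 (doms := [((st 10110111211111111001111111100000000), 8), ((st 100110111211111111001111111010000000), 8), ((st 110100111211111110001111111110000000), 8), ((st 110110011210111111001111111110000000), 8), ((st 110110111101111111001111111110000000), 8)]) (fuel := 8) (doms_cons n570 (doms_cons n609 (doms_cons n469 (doms_cons n578 (doms_cons n583 doms_nil))))) (and_l (and_r (and_r (and_l b38))))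
theorem n611 : ¬ TripleMatch 3000000000 (items (st 1000000111101111111000101100000000000)) 5 :=
  step (ws := ws) (ts0 := root) h0 (doms := [((st 111101111111000100000000000000), 4), ((st 1000000011100111111000101000000000000), 4)]) (fuel := 8) (doms_cons n27 (doms_cons n597 doms_nil)) (and_l (and_r (and_r (and_r (and_l b38)))))
theorem n612 : ¬ TripleMatch 3000000000 (items (st 1000010111101111111001101110000000000)) 6 :=
  step (ws := ws) (ts0 := root) h0 (doms := [((st 10111101111111001101000000000000), 5), ((st 1000000111101111111000101100000000000), 5), ((st 1000010011100111111001101100000000000), 5)]) (fuel := 8) (doms_cons n566 (doms_cons n611 (doms_cons n599 doms_nil))) (and_l (and_l (and_r b38)))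
theorem n613 : ¬ TripleMatch 3000000000 (items (st 1000110111101111111001111111000000000)) 7 :=
  step (ws := ws) (ts0 := root) h0 (doms := [((st 110111101111111001111100000000000), 6), ((st 1000010111101111111001101110000000000), 6), ((st 1000100111101111110001111110000000000), 6), ((st 1000110011100111111001111110000000000), 6)]) (fuel := 8) (doms_cons n29 (doms_cons n612 (doms_cons n192 (doms_cons n201 doms_nil)))) (and_l (and_r (and_l (and_r b38))))
theorem n614 : ¬ TripleMatch 3000000000 (items (st 1010110111101111111001111111110000000)) 8 :=
  step (ws := ws) (ts0 := root) h0 (doms := [((st 1000110111101111111001111111000000000), 7), ((st 1010100111101111110001111111100000000), 7), ((st 1010110011100111111001111111100000000), 7)]) (fuel := 8) (doms_cons n613 (doms_cons n533 (doms_cons n602 doms_nil))) (and_l (and_r (and_r (and_l (and_r b38)))))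
theorem n615 : ¬ TripleMatch 3000000000 (items (st 1010110111211111111001111111110100000)) 9 :=
  step (ws := ws) (ts0 := root) h0 (doms := [((st 10110111211111111001111111100000000), 8), ((st 1000110111211111111001111110110000000), 8), ((st 1010100111211111110001111111110000000), 8), ((st 1010110011210111111001111111110000000), 8), ((st 1010110111101111111001111111110000000), 8)]) (fuel := 8) (doms_cons n570 (doms_cons n242 (doms_cons n534 (doms_cons n603 (doms_cons n614 doms_nil))))) (and_l (and_r (and_r (and_r (and_l (and_r b38))))))
theorem n616 : ¬ TripleMatch 3000000000 (items (st 1110110111101111111001111111111100000)) 9 :=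
  step (ws := ws) (ts0 := root) h0 (doms := [((st 1010110111101111111001111111110000000), 8), ((st 1100110111101111111001111110111000000), 8), ((st 1110100111101111110001111111111000000), 8), ((st 1110110011100111111001111111111000000), 8)]) (fuel := 8) (doms_cons n614 (doms_cons n247 (doms_cons n543 (doms_cons n606 doms_nil)))) (and_l (and_l (and_r (and_r b38))))
theorem n617 : ¬ TripleMatch 3000000000 (items (st 1110110111211111111001111111111110000)) 10 :=
  step (ws := ws) (ts0 := root) h0 (doms := [((st 110110111211111111001111111111000000), 9), ((st 1010110111211111111001111111110100000), 9), ((st 1100110111211111111001111110111100000), 9), ((st 1110100111211111110001111111111100000), 9), ((st 1110110011210111111001111111111100000), 9), ((st 1110110111101111111001111111111100000), 9)]) (fuel := 8) (doms_cons n610 (doms_cons n615 (doms_cons n248 (doms_cons n544 (doms_cons n607 (doms_cons n616 doms_nil)))))) (and_l (and_r (and_l (and_r (and_r b38)))))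
theorem n618 : ¬ TripleMatch 3000000000 (items (st 1110110111321111111001111111111111000)) 11 :=
  step (ws := ws) (ts0 := root) h0 (doms := [((st 110110111321111111001111111110110000), 10), ((st 1010110111321111111001111111011110000), 10), ((st 1100110111321111111001111110111110000), 10), ((st 1110100111321111110001111111111110000), 10), ((st 1110110011320111111001111111111110000), 10), ((st 1110110111211111111001111111111110000), 10)]) (fuel := 8) (doms_cons n585 (doms_cons n594 (doms_cons n249 (doms_cons n545 (doms_cons n608 (doms_cons n617 doms_nil)))))) (and_l (and_r (and_r (and_l (and_r (and_r b38))))))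
theorem n619 : ¬ TripleMatch 3000000000 (items (st 10110211102111111001111111100000000)) 8 :=
  step (ws := ws) (ts0 := root) h0 (doms := [((st 110211102111111001111110000000000), 7), ((st 10100211102111110001111111000000000), 7), ((st 10110111101111111001111111000000000), 7)]) (fuel := 8) (doms_cons n144 (doms_cons n444 (doms_cons n569 doms_nil))) (and_l (and_r (and_r (and_r (and_l (and_r (and_r b38)))))))
theorem n620 : ¬ TripleMatch 3000000000 (items (st 10110211212111111001111111100100000)) 9 :=
  step (ws := ws) (ts0 := root) h0 (doms := [((st 110211212111111001111110100000000), 8), ((st 10100211212111110001111111100000000), 8), ((st 10110111211111111001111111100000000), 8), ((st 10110211102111111001111111100000000), 8)]) (fuel := 8) (doms_cons n145 (doms_cons n445 (doms_cons n570 (doms_cons n619 doms_nil)))) (and_l (and_l (and_r (and_r (and_r b38)))))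
theorem n621 : ¬ TripleMatch 3000000000 (items (st 110110211102111111001111111110100000)) 9 :=
  step (ws := ws) (ts0 := root) h0 (doms := [((st 10110211102111111001111111100000000), 8), ((st 100110211102111111001111110110000000), 8), ((st 110100211102111110001111111110000000), 8), ((st 110110111101111111001111111110000000), 8)]) (fuel := 8) (doms_cons n619 (doms_cons n175 (doms_cons n473 (doms_cons n583 doms_nil)))) (and_l (and_r (and_l (and_r (and_r (and_r b38))))))
theorem n622 : ¬ TripleMatch 3000000000 (items (st 110110211212111111001111111110110000)) 10 :=
  step (ws := ws) (ts0 := root) h0 (doms := [((st 10110211212111111001111111100100000), 9), ((st 100110211212111111001111110110100000), 9), ((st 110100211212111110001111111110100000), 9), ((st 110110111211111111001111111110100000), 9), ((st 110110211102111111001111111110100000), 9)]) (fuel := 8) (doms_cons n620 (doms_cons n176 (doms_cons n474 (doms_cons n584 (doms_cons n621 doms_nil))))) (and_l (and_r (and_r (and_l (and_r (and_r (and_r b38)))))))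
theorem n623 : ¬ TripleMatch 3000000000 (items (st 10110211102111111001111111010000000)) 8 :=
  step (ws := ws) (ts0 := root) h0 (doms := [((st 110211102111111001111110000000000), 7), ((st 10100211102111110001111111000000000), 7), ((st 10110111101111111001111111000000000), 7)]) (fuel := 8) (doms_cons n144 (doms_cons n444 (doms_cons n569 doms_nil))) (and_l (and_r (and_r (and_r (and_l (and_r (and_r (and_r b38))))))))
theorem n624 : ¬ TripleMatch 3000000000 (items (st 10110211212111111001111111011000000)) 9 :=
  step (ws := ws) (ts0 := root) h0 (doms := [((st 110211212111111001111110010000000), 8), ((st 10100211212111110001111111010000000), 8), ((st 10110111211111111001111111010000000), 8), ((st 10110211102111111001111111010000000), 8)]) (fuel := 8) (doms_cons n180 (doms_cons n478 (doms_cons n587 (doms_cons n623 doms_nil)))) (and_l (and_l b39))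
theorem n625 : ¬ TripleMatch 3000000000 (items (st 1010110211102111111001111111011100000)) 9 :=
  step (ws := ws) (ts0 := root) h0 (doms := [((st 10110211102111111001111111010000000), 8), ((st 1000110211102111111001111110011000000), 8), ((st 1010100211102111110001111111011000000), 8), ((st 1010110111101111111001111111011000000), 8)]) (fuel := 8) (doms_cons n623 (doms_cons n207 (doms_cons n496 (doms_cons n592 doms_nil)))) (and_l (and_r (and_l b39)))
theorem n626 : ¬ TripleMatch 3000000000 (items (st 1010110211212111111001111111011110000)) 10 :=
  step (ws := ws) (ts0 := root) h0 (doms := [((st 10110211212111111001111111011000000), 9), ((st 1000110211212111111001111110011100000), 9), ((st 1010100211212111110001111111011100000), 9), ((st 1010110111211111111001111111011100000), 9), ((st 1010110211102111111001111111011100000), 9)]) (fuel := 8) (doms_cons n624 (doms_cons n208 (doms_cons n497 (doms_cons n593 (doms_cons n625 doms_nil))))) (and_l (and_r (and_r (and_l b39))))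
theorem n627 : ¬ TripleMatch 3000000000 (items (st 100110211102111111001111111010000000)) 8 :=
  step (ws := ws) (ts0 := root) h0 (doms := [((st 110211102111111001111110000000000), 7), ((st 100100211102111110001111111000000000), 7), ((st 100110111101111111001111111000000000), 7)]) (fuel := 8) (doms_cons n144 (doms_cons n472 (doms_cons n582 doms_nil))) (and_l (and_r (and_r (and_r (and_l b39)))))
theorem n628 : ¬ TripleMatch 3000000000 (items (st 110110211102111111001111111111000000)) 9 :=
  step (ws := ws) (ts0 := root) h0 (doms := [((st 10110211102111111001111111100000000), 8), ((st 100110211102111111001111111010000000), 8), ((st 110100211102111110001111111110000000), 8), ((st 110110111101111111001111111110000000), 8)]) (fuel := 8) (doms_cons n619 (doms_cons n627 (doms_cons n473 (doms_cons n583 doms_nil)))) (and_l (and_l (and_r b39)))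
theorem n629 : ¬ TripleMatch 3000000000 (items (st 1010110211102111111001111111110100000)) 9 :=
  step (ws := ws) (ts0 := root) h0 (doms := [((st 10110211102111111001111111100000000), 8), ((st 1000110211102111111001111110110000000), 8), ((st 1010100211102111110001111111110000000), 8), ((st 1010110111101111111001111111110000000), 8)]) (fuel := 8) (doms_cons n619 (doms_cons n251 (doms_cons n550 (doms_cons n614 doms_nil)))) (and_l (and_r (and_l (and_r b39))))
theorem n630 : ¬ TripleMatch 3000000000 (items (st 1110110211102111111001111111111110000)) 10 :=
  step (ws := ws) (ts0 := root) h0 (doms := [((st 110110211102111111001111111111000000), 9), ((st 1010110211102111111001111111110100000), 9), ((st 1100110211102111111001111110111100000), 9), ((st 1110100211102111110001111111111100000), 9), ((st 1110110111101111111001111111111100000), 9)]) (fuel := 8) (doms_cons n628 (doms_cons n629 (doms_cons n253 (doms_cons n552 (doms_cons n616 doms_nil))))) (and_l (and_r (and_r (and_l (and_r b39)))))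
theorem n631 : ¬ TripleMatch 3000000000 (items (st 1110110211212111111001111111111111000)) 11 :=
  step (ws := ws) (ts0 := root) h0 (doms := [((st 110110211212111111001111111110110000), 10), ((st 1010110211212111111001111111011110000), 10), ((st 1100110211212111111001111110111110000), 10), ((st 1110100211212111110001111111111110000), 10), ((st 1110110111211111111001111111111110000), 10), ((st 1110110211102111111001111111111110000), 10)]) (fuel := 8) (doms_cons n622 (doms_cons n626 (doms_cons n254 (doms_cons n553 (doms_cons n617 (doms_cons n630 doms_nil)))))) (and_l (and_r (and_r (and_r (and_l (and_r b39))))))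
theorem n632 : ¬ TripleMatch 3000000000 (items (st 1110110211322111111001111111111111100)) 12 :=
  step (ws := ws) (ts0 := root) h0 (doms := [((st 1100110211322111111001111110111111000), 11), ((st 1110100211322111110001111111111111000), 11), ((st 1110110111321111111001111111111111000), 11), ((st 1110110211212111111001111111111111000), 11)]) (fuel := 8) (doms_cons n255 (doms_cons n554 (doms_cons n618 (doms_cons n631 doms_nil)))) (and_l (and_l (and_r (and_r b39))))
theorem n633 : ¬ TripleMatch 3000000000 (items (st 10000011210111100011111000000000000)) 5 :=
  step (ws := ws) (ts0 := root) h0 (doms := []) (fuel := 8) doms_nil (and_l (and_r (and_l (and_r (and_r b39)))))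
theorem n634 : ¬ TripleMatch 3000000000 (items (st 10000011320111100011111100000000000)) 6 :=
  step (ws := ws) (ts0 := root) h0 (doms := [((st 10000011210111100011111000000000000), 5)]) (fuel := 8) (doms_cons n633 doms_nil) (and_l (and_r (and_r (and_l (and_r (and_r b39))))))
theorem n635 : ¬ TripleMatch 3000000000 (items (st 11000011100111100011111100000000000)) 5 :=
  step (ws := ws) (ts0 := root) h0 (doms := []) (fuel := 8) doms_nil (and_l (and_r (and_r (and_r (and_l (and_r (and_r b39)))))))
theorem n636 : ¬ TripleMatch 3000000000 (items (st 11000011210111100011111110000000000)) 6 :=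
  step (ws := ws) (ts0 := root) h0 (doms := [((st 10000011210111100011111000000000000), 5), ((st 11000011100111100011111100000000000), 5)]) (fuel := 8) (doms_cons n633 (doms_cons n635 doms_nil)) (and_l (and_l (and_r (and_r (and_r b39)))))
theorem n637 : ¬ TripleMatch 3000000000 (items (st 11000011320111100011111111000000000)) 7 :=
  step (ws := ws) (ts0 := root) h0 (doms := [((st 10000011320111100011111100000000000), 6), ((st 11000011210111100011111110000000000), 6)]) (fuel := 8) (doms_cons n634 (doms_cons n636 doms_nil)) (and_l (and_r (and_l (and_r (and_r (and_r b39))))))
theorem n638 : ¬ TripleMatch 3000000000 (items (st 10000111101111100011111000000000000)) 5 :=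
  step (ws := ws) (ts0 := root) h0 (doms := []) (fuel := 8) doms_nil (and_l (and_r (and_r (and_l (and_r (and_r (and_r b39)))))))
theorem n639 : ¬ TripleMatch 3000000000 (items (st 10000111211111100011111100000000000)) 6 :=
  step (ws := ws) (ts0 := root) h0 (doms := [((st 111211111100011110000000000000), 5), ((st 10000011210111100011111000000000000), 5), ((st 10000111101111100011111000000000000), 5)]) (fuel := 8) (doms_cons n37 (doms_cons n633 (doms_cons n638 doms_nil))) (and_l (and_r (and_r (and_r (and_l (and_r (and_r (and_r b39))))))))
theorem n640 : ¬ TripleMatch 3000000000 (items (st 11000111101111100011111110000000000)) 6 :=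
  step (ws := ws) (ts0 := root) h0 (doms := [((st 10000111101111100011111000000000000), 5), ((st 11000011100111100011111100000000000), 5)]) (fuel := 8) (doms_cons n638 (doms_cons n635 doms_nil)) (and_l (and_l b40))
theorem n641 : ¬ TripleMatch 3000000000 (items (st 11000111211111100011111111000000000)) 7 :=
  step (ws := ws) (ts0 := root) h0 (doms := [((st 10000111211111100011111100000000000), 6), ((st 11000011210111100011111110000000000), 6), ((st 11000111101111100011111110000000000), 6)]) (fuel := 8) (doms_cons n639 (doms_cons n636 (doms_cons n640 doms_nil))) (and_l (and_r (and_l b40)))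
theorem n642 : ¬ TripleMatch 3000000000 (items (st 11000111321111100011111111100000000)) 8 :=
  step (ws := ws) (ts0 := root) h0 (doms := [((st 1000111321111100011111110000000000), 7), ((st 10000111321111100001111111000000000), 7), ((st 11000011320111100011111111000000000), 7), ((st 11000111211111100011111111000000000), 7)]) (fuel := 8) (doms_cons n257 (doms_cons n425 (doms_cons n637 (doms_cons n641 doms_nil)))) (and_l (and_r (and_r (and_l b40))))
theorem n643 : ¬ TripleMatch 3000000000 (items (st 10000211102111100011111100000000000)) 6 :=
  step (ws := ws) (ts0 := root) h0 (doms := [((st 211102111100011110000000000000), 5), ((st 10000111101111100011111000000000000), 5)]) (fuel := 8) (doms_cons n41 (doms_cons n638 doms_nil)) (and_l (and_r (and_r (and_r (and_l b40)))))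
theorem n644 : ¬ TripleMatch 3000000000 (items (st 11000211102111100011111111000000000)) 7 :=
  step (ws := ws) (ts0 := root) h0 (doms := [((st 10000211102111100011111100000000000), 6), ((st 11000111101111100011111110000000000), 6)]) (fuel := 8) (doms_cons n643 (doms_cons n640 doms_nil)) (and_l (and_l (and_r b40)))
theorem n645 : ¬ TripleMatch 3000000000 (items (st 11000211212111100011111111100000000)) 8 :=
  step (ws := ws) (ts0 := root) h0 (doms := [((st 1000211212111100011111110000000000), 7), ((st 10000211212111100001111111000000000), 7), ((st 11000111211111100011111111000000000), 7), ((st 11000211102111100011111111000000000), 7)]) (fuel := 8) (doms_cons n259 (doms_cons n427 (doms_cons n641 (doms_cons n644 doms_nil)))) (and_l (and_r (and_l (and_r b40))))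
theorem n646 : ¬ TripleMatch 3000000000 (items (st 11000211322111100011111111100100000)) 9 :=
  step (ws := ws) (ts0 := root) h0 (doms := [((st 1000211322111100011111110100000000), 8), ((st 10000211322111100001111111100000000), 8), ((st 11000111321111100011111111100000000), 8), ((st 11000211212111100011111111100000000), 8)]) (fuel := 8) (doms_cons n260 (doms_cons n428 (doms_cons n642 (doms_cons n645 doms_nil)))) (and_l (and_r (and_r (and_l (and_r b40)))))
theorem n647 : ¬ TripleMatch 3000000000 (items (st 100000011320111100011111100000000000)) 6 :=
  step (ws := ws) (ts0 := root) h0 (doms := [((st 100000011210111100011111000000000000), 5)]) (fuel := 8) (doms_cons n277 doms_nil) (and_l (and_r (and_r (and_r (and_l (and_r b40))))))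
theorem n648 : ¬ TripleMatch 3000000000 (items (st 101000011320111100011111111000000000)) 7 :=
  step (ws := ws) (ts0 := root) h0 (doms := [((st 100000011320111100011111100000000000), 6), ((st 101000011210111100011111110000000000), 6)]) (fuel := 8) (doms_cons n647 (doms_cons n279 doms_nil)) (and_l (and_l (and_r (and_r b40))))
theorem n649 : ¬ TripleMatch 3000000000 (items (st 110000011100111100011111100000000000)) 5 :=
  step (ws := ws) (ts0 := root) h0 (doms := []) (fuel := 8) doms_nil (and_l (and_r (and_l (and_r (and_r b40)))))
theorem n650 : ¬ TripleMatch 3000000000 (items (st 111000011100111100011111111000000000)) 6 :=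
  step (ws := ws) (ts0 := root) h0 (doms := [((st 110000011100111100011111100000000000), 5)]) (fuel := 8) (doms_cons n649 doms_nil) (and_l (and_r (and_r (and_l (and_r (and_r b40))))))
theorem n651 : ¬ TripleMatch 3000000000 (items (st 111000011210111100011111111100000000)) 7 :=
  step (ws := ws) (ts0 := root) h0 (doms := [((st 101000011210111100011111110000000000), 6), ((st 110000011210111100001111111000000000), 6), ((st 111000011100111100011111111000000000), 6)]) (fuel := 8) (doms_cons n279 (doms_cons n449 (doms_cons n650 doms_nil))) (and_l (and_r (and_r (and_r (and_l (and_r (and_r b40)))))))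
theorem n652 : ¬ TripleMatch 3000000000 (items (st 111000011320111100011111111110000000)) 8 :=
  step (ws := ws) (ts0 := root) h0 (doms := [((st 101000011320111100011111111000000000), 7), ((st 110000011320111100001111111100000000), 7), ((st 111000011210111100011111111100000000), 7)]) (fuel := 8) (doms_cons n648 (doms_cons n450 (doms_cons n651 doms_nil))) (and_l (and_l (and_r (and_r (and_r b40)))))
theorem n653 : ¬ TripleMatch 3000000000 (items (st 100000111211111100011111100000000000)) 6 :=
  step (ws := ws) (ts0 := root) h0 (doms := [((st 111211111100011110000000000000), 5), ((st 100000011210111100011111000000000000), 5), ((st 100000111101111100011111000000000000), 5)]) (fuel := 8) (doms_cons n37 (doms_cons n277 (doms_cons n281 doms_nil))) (and_l (and_r (and_l (and_r (and_r (and_r b40))))))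
theorem n654 : ¬ TripleMatch 3000000000 (items (st 101000111211111100011111111000000000)) 7 :=
  step (ws := ws) (ts0 := root) h0 (doms := [((st 100000111211111100011111100000000000), 6), ((st 101000011210111100011111110000000000), 6), ((st 101000111101111100011111110000000000), 6)]) (fuel := 8) (doms_cons n653 (doms_cons n279 (doms_cons n282 doms_nil))) (and_l (and_r (and_r (and_l (and_r (and_r (and_r b40)))))))
theorem n655 : ¬ TripleMatch 3000000000 (items (st 111000111101111100011111111100000000)) 7 :=
  step (ws := ws) (ts0 := root) h0 (doms := [((st 101000111101111100011111110000000000), 6), ((st 110000111101111100001111111000000000), 6), ((st 111000011100111100011111111000000000), 6)]) (fuel := 8) (doms_cons n282 (doms_cons n451 (doms_cons n650 doms_nil))) (and_l (and_r (and_r (and_r (and_l (and_r (and_r (and_r b40))))))))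
theorem n656 : ¬ TripleMatch 3000000000 (items (st 111000111211111100011111111110000000)) 8 :=
  step (ws := ws) (ts0 := root) h0 (doms := [((st 101000111211111100011111111000000000), 7), ((st 110000111211111100001111111100000000), 7), ((st 111000011210111100011111111100000000), 7), ((st 111000111101111100011111111100000000), 7)]) (fuel := 8) (doms_cons n654 (doms_cons n452 (doms_cons n651 (doms_cons n655 doms_nil)))) (and_l (and_l b41))
theorem n657 : ¬ TripleMatch 3000000000 (items (st 111000111321111100011111111110100000)) 9 :=
  step (ws := ws) (ts0 := root) h0 (doms := [((st 11000111321111100011111111100000000), 8), ((st 101000111321111100011111110110000000), 8), ((st 110000111321111100001111111110000000), 8), ((st 111000011320111100011111111110000000), 8), ((st 111000111211111100011111111110000000), 8)]) (fuel := 8) (doms_cons n642 (doms_cons n284 (doms_cons n453 (doms_cons n652 (doms_cons n656 doms_nil))))) (and_l (and_r (and_l b41)))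
theorem n658 : ¬ TripleMatch 3000000000 (items (st 100000211102111100011111100000000000)) 6 :=
  step (ws := ws) (ts0 := root) h0 (doms := [((st 211102111100011110000000000000), 5), ((st 100000111101111100011111000000000000), 5)]) (fuel := 8) (doms_cons n41 (doms_cons n281 doms_nil)) (and_l (and_r (and_r (and_l b41))))
theorem n659 : ¬ TripleMatch 3000000000 (items (st 101000211102111100011111111000000000)) 7 :=
  step (ws := ws) (ts0 := root) h0 (doms := [((st 100000211102111100011111100000000000), 6), ((st 101000111101111100011111110000000000), 6)]) (fuel := 8) (doms_cons n658 (doms_cons n282 doms_nil)) (and_l (and_r (and_r (and_r (and_l b41)))))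
theorem n660 : ¬ TripleMatch 3000000000 (items (st 111000211102111100011111111110000000)) 8 :=
  step (ws := ws) (ts0 := root) h0 (doms := [((st 101000211102111100011111111000000000), 7), ((st 110000211102111100001111111100000000), 7), ((st 111000111101111100011111111100000000), 7)]) (fuel := 8) (doms_cons n659 (doms_cons n455 (doms_cons n655 doms_nil))) (and_l (and_l (and_r b41)))
theorem n661 : ¬ TripleMatch 3000000000 (items (st 111000211212111100011111111110100000)) 9 :=
  step (ws := ws) (ts0 := root) h0 (doms := [((st 11000211212111100011111111100000000), 8), ((st 101000211212111100011111110110000000), 8), ((st 110000211212111100001111111110000000), 8), ((st 111000111211111100011111111110000000), 8), ((st 111000211102111100011111111110000000), 8)]) (fuel := 8) (doms_cons n645 (doms_cons n286 (doms_cons n456 (doms_cons n656 (doms_cons n660 doms_nil))))) (and_l (and_r (and_l (and_r b41))))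
theorem n662 : ¬ TripleMatch 3000000000 (items (st 111000211322111100011111111110110000)) 10 :=
  step (ws := ws) (ts0 := root) h0 (doms := [((st 11000211322111100011111111100100000), 9), ((st 101000211322111100011111110110100000), 9), ((st 110000211322111100001111111110100000), 9), ((st 111000111321111100011111111110100000), 9), ((st 111000211212111100011111111110100000), 9)]) (fuel := 8) (doms_cons n646 (doms_cons n287 (doms_cons n457 (doms_cons n657 (doms_cons n661 doms_nil))))) (and_l (and_r (and_r (and_l (and_r b41)))))
theorem n663 : ¬ TripleMatch 3000000000 (items (st 11000111321111100011111111010000000)) 8 :=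
  step (ws := ws) (ts0 := root) h0 (doms := [((st 1000111321111100011111110000000000), 7), ((st 10000111321111100001111111000000000), 7), ((st 11000011320111100011111111000000000), 7), ((st 11000111211111100011111111000000000), 7)]) (fuel := 8) (doms_cons n257 (doms_cons n425 (doms_cons n637 (doms_cons n641 doms_nil)))) (and_l (and_r (and_r (and_r (and_l (and_r b41))))))
theorem n664 : ¬ TripleMatch 3000000000 (items (st 11000211212111100011111111010000000)) 8 :=
  step (ws := ws) (ts0 := root) h0 (doms := [((st 1000211212111100011111110000000000), 7), ((st 10000211212111100001111111000000000), 7), ((st 11000111211111100011111111000000000), 7), ((st 11000211102111100011111111000000000), 7)]) (fuel := 8) (doms_cons n259 (doms_cons n427 (doms_cons n641 (doms_cons n644 doms_nil)))) (and_l (and_l (and_r (and_r b41))))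
theorem n665 : ¬ TripleMatch 3000000000 (items (st 11000211322111100011111111011000000)) 9 :=
  step (ws := ws) (ts0 := root) h0 (doms := [((st 1000211322111100011111110010000000), 8), ((st 10000211322111100001111111010000000), 8), ((st 11000111321111100011111111010000000), 8), ((st 11000211212111100011111111010000000), 8)]) (fuel := 8) (doms_cons n299 (doms_cons n476 (doms_cons n663 (doms_cons n664 doms_nil)))) (and_l (and_r (and_l (and_r (and_r b41)))))
theorem n666 : ¬ TripleMatch 3000000000 (items (st 1010000011100111100011111100000000000)) 5 :=
  step (ws := ws) (ts0 := root) h0 (doms := []) (fuel := 8) doms_nil (and_l (and_r (and_r (and_l (and_r (and_r b41))))))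
theorem n667 : ¬ TripleMatch 3000000000 (items (st 1011000011100111100011111111000000000)) 6 :=
  step (ws := ws) (ts0 := root) h0 (doms := [((st 1010000011100111100011111100000000000), 5)]) (fuel := 8) (doms_cons n666 doms_nil) (and_l (and_r (and_r (and_r (and_l (and_r (and_r b41)))))))
theorem n668 : ¬ TripleMatch 3000000000 (items (st 1011000011210111100011111111010000000)) 7 :=
  step (ws := ws) (ts0 := root) h0 (doms := [((st 1001000011210111100011111110000000000), 6), ((st 1010000011210111100001111111000000000), 6), ((st 1011000011100111100011111111000000000), 6)]) (fuel := 8) (doms_cons n304 (doms_cons n481 (doms_cons n667 doms_nil))) (and_l (and_l (and_r (and_r (and_r b41)))))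
theorem n669 : ¬ TripleMatch 3000000000 (items (st 1011000011320111100011111111011000000)) 8 :=
  step (ws := ws) (ts0 := root) h0 (doms := [((st 11000011320111100011111111000000000), 7), ((st 1001000011320111100011111110010000000), 7), ((st 1010000011320111100001111111010000000), 7), ((st 1011000011210111100011111111010000000), 7)]) (fuel := 8) (doms_cons n637 (doms_cons n305 (doms_cons n482 (doms_cons n668 doms_nil)))) (and_l (and_r (and_l (and_r (and_r (and_r b41))))))
theorem n670 : ¬ TripleMatch 3000000000 (items (st 1011000111101111100011111111010000000)) 7 :=
  step (ws := ws) (ts0 := root) h0 (doms := [((st 1001000111101111100011111110000000000), 6), ((st 1010000111101111100001111111000000000), 6), ((st 1011000011100111100011111111000000000), 6)]) (fuel := 8) (doms_cons n307 (doms_cons n483 (doms_cons n667 doms_nil))) (and_l (and_r (and_r (and_l (and_r (and_r (and_r b41)))))))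
theorem n671 : ¬ TripleMatch 3000000000 (items (st 1011000111211111100011111111011000000)) 8 :=
  step (ws := ws) (ts0 := root) h0 (doms := [((st 11000111211111100011111111000000000), 7), ((st 1001000111211111100011111110010000000), 7), ((st 1010000111211111100001111111010000000), 7), ((st 1011000011210111100011111111010000000), 7), ((st 1011000111101111100011111111010000000), 7)]) (fuel := 8) (doms_cons n641 (doms_cons n308 (doms_cons n484 (doms_cons n668 (doms_cons n670 doms_nil))))) (and_l (and_r (and_r (and_r (and_l (and_r (and_r (and_r b41))))))))
theorem n672 : ¬ TripleMatch 3000000000 (items (st 1011000111321111100011111111011100000)) 9 :=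
  step (ws := ws) (ts0 := root) h0 (doms := [((st 11000111321111100011111111010000000), 8), ((st 1001000111321111100011111110011000000), 8), ((st 1010000111321111100001111111011000000), 8), ((st 1011000011320111100011111111011000000), 8), ((st 1011000111211111100011111111011000000), 8)]) (fuel := 8) (doms_cons n663 (doms_cons n309 (doms_cons n485 (doms_cons n669 (doms_cons n671 doms_nil))))) (and_l (and_l b42))
theorem n673 : ¬ TripleMatch 3000000000 (items (st 1011000211102111100011111111011000000)) 8 :=
  step (ws := ws) (ts0 := root) h0 (doms := [((st 11000211102111100011111111000000000), 7), ((st 1001000211102111100011111110010000000), 7), ((st 1010000211102111100001111111010000000), 7), ((st 1011000111101111100011111111010000000), 7)]) (fuel := 8) (doms_cons n644 (doms_cons n310 (doms_cons n486 (doms_cons n670 doms_nil)))) (and_l (and_r (and_l b42)))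
theorem n674 : ¬ TripleMatch 3000000000 (items (st 1011000211212111100011111111011100000)) 9 :=
  step (ws := ws) (ts0 := root) h0 (doms := [((st 11000211212111100011111111010000000), 8), ((st 1001000211212111100011111110011000000), 8), ((st 1010000211212111100001111111011000000), 8), ((st 1011000111211111100011111111011000000), 8), ((st 1011000211102111100011111111011000000), 8)]) (fuel := 8) (doms_cons n664 (doms_cons n311 (doms_cons n487 (doms_cons n671 (doms_cons n673 doms_nil))))) (and_l (and_r (and_r (and_l b42))))
theorem n675 : ¬ TripleMatch 3000000000 (items (st 1011000211322111100011111111011110000)) 10 :=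
  step (ws := ws) (ts0 := root) h0 (doms := [((st 11000211322111100011111111011000000), 9), ((st 1001000211322111100011111110011100000), 9), ((st 1010000211322111100001111111011100000), 9), ((st 1011000111321111100011111111011100000), 9), ((st 1011000211212111100011111111011100000), 9)]) (fuel := 8) (doms_cons n665 (doms_cons n312 (doms_cons n488 (doms_cons n672 (doms_cons n674 doms_nil))))) (and_l (and_r (and_r (and_r (and_l b42)))))
theorem n676 : ¬ TripleMatch 3000000000 (items (st 101000111321111100011111111010000000)) 8 :=
  step (ws := ws) (ts0 := root) h0 (doms := [((st 1000111321111100011111110000000000), 7), ((st 100000111321111100001111111000000000), 7), ((st 101000011320111100011111111000000000), 7), ((st 101000111211111100011111111000000000), 7)]) (fuel := 8) (doms_cons n257 (doms_cons n447 (doms_cons n648 (doms_cons n654 doms_nil)))) (and_l (and_l (and_r b42)))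
theorem n677 : ¬ TripleMatch 3000000000 (items (st 111000111321111100011111111111000000)) 9 :=
  step (ws := ws) (ts0 := root) h0 (doms := [((st 11000111321111100011111111100000000), 8), ((st 101000111321111100011111111010000000), 8), ((st 110000111321111100001111111110000000), 8), ((st 111000011320111100011111111110000000), 8), ((st 111000111211111100011111111110000000), 8)]) (fuel := 8) (doms_cons n642 (doms_cons n676 (doms_cons n453 (doms_cons n652 (doms_cons n656 doms_nil))))) (and_l (and_r (and_l (and_r b42))))
theorem n678 : ¬ TripleMatch 3000000000 (items (st 1000000011320111100011111100000000000)) 6 :=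
  step (ws := ws) (ts0 := root) h0 (doms := [((st 1000000011210111100011111000000000000), 5)]) (fuel := 8) (doms_cons n303 doms_nil) (and_l (and_r (and_r (and_l (and_r b42)))))
theorem n679 : ¬ TripleMatch 3000000000 (items (st 1001000011320111100011111111000000000)) 7 :=
  step (ws := ws) (ts0 := root) h0 (doms := [((st 1000000011320111100011111100000000000), 6), ((st 1001000011210111100011111110000000000), 6)]) (fuel := 8) (doms_cons n678 (doms_cons n304 doms_nil)) (and_l (and_r (and_r (and_r (and_l (and_r b42))))))
theorem n680 : ¬ TripleMatch 3000000000 (items (st 1011000011210111100011111111100000000)) 7 :=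
  step (ws := ws) (ts0 := root) h0 (doms := [((st 1001000011210111100011111110000000000), 6), ((st 1010000011210111100001111111000000000), 6), ((st 1011000011100111100011111111000000000), 6)]) (fuel := 8) (doms_cons n304 (doms_cons n481 (doms_cons n667 doms_nil))) (and_l (and_l (and_r (and_r b42))))
theorem n681 : ¬ TripleMatch 3000000000 (items (st 1011000011320111100011111111110000000)) 8 :=
  step (ws := ws) (ts0 := root) h0 (doms := [((st 1001000011320111100011111111000000000), 7), ((st 1010000011320111100001111111100000000), 7), ((st 1011000011210111100011111111100000000), 7)]) (fuel := 8) (doms_cons n679 (doms_cons n502 (doms_cons n680 doms_nil))) (and_l (and_r (and_l (and_r (and_r b42)))))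
theorem n682 : ¬ TripleMatch 3000000000 (items (st 1000000111211111100011111100000000000)) 6 :=
  step (ws := ws) (ts0 := root) h0 (doms := [((st 111211111100011110000000000000), 5), ((st 1000000011210111100011111000000000000), 5), ((st 1000000111101111100011111000000000000), 5)]) (fuel := 8) (doms_cons n37 (doms_cons n303 (doms_cons n306 doms_nil))) (and_l (and_r (and_r (and_l (and_r (and_r b42))))))
theorem n683 : ¬ TripleMatch 3000000000 (items (st 1001000111211111100011111111000000000)) 7 :=
  step (ws := ws) (ts0 := root) h0 (doms := [((st 1000000111211111100011111100000000000), 6), ((st 1001000011210111100011111110000000000), 6), ((st 1001000111101111100011111110000000000), 6)]) (fuel := 8) (doms_cons n682 (doms_cons n304 (doms_cons n307 doms_nil))) (and_l (and_r (and_r (and_r (and_l (and_r (and_r b42)))))))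
theorem n684 : ¬ TripleMatch 3000000000 (items (st 1011000111101111100011111111100000000)) 7 :=
  step (ws := ws) (ts0 := root) h0 (doms := [((st 1001000111101111100011111110000000000), 6), ((st 1010000111101111100001111111000000000), 6), ((st 1011000011100111100011111111000000000), 6)]) (fuel := 8) (doms_cons n307 (doms_cons n483 (doms_cons n667 doms_nil))) (and_l (and_l (and_r (and_r (and_r b42)))))
theorem n685 : ¬ TripleMatch 3000000000 (items (st 1011000111211111100011111111110000000)) 8 :=
  step (ws := ws) (ts0 := root) h0 (doms := [((st 1001000111211111100011111111000000000), 7), ((st 1010000111211111100001111111100000000), 7), ((st 1011000011210111100011111111100000000), 7), ((st 1011000111101111100011111111100000000), 7)]) (fuel := 8) (doms_cons n683 (doms_cons n503 (doms_cons n680 (doms_cons n684 doms_nil)))) (and_l (and_r (and_l (and_r (and_r (and_r b42))))))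
theorem n686 : ¬ TripleMatch 3000000000 (items (st 1011000111321111100011111111110100000)) 9 :=
  step (ws := ws) (ts0 := root) h0 (doms := [((st 11000111321111100011111111100000000), 8), ((st 1001000111321111100011111110110000000), 8), ((st 1010000111321111100001111111110000000), 8), ((st 1011000011320111100011111111110000000), 8), ((st 1011000111211111100011111111110000000), 8)]) (fuel := 8) (doms_cons n642 (doms_cons n327 (doms_cons n504 (doms_cons n681 (doms_cons n685 doms_nil))))) (and_l (and_r (and_r (and_l (and_r (and_r (and_r b42)))))))
theorem n687 : ¬ TripleMatch 3000000000 (items (st 1100000011100111100011111100000000000)) 5 :=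
  step (ws := ws) (ts0 := root) h0 (doms := []) (fuel := 8) doms_nil (and_l (and_r (and_r (and_r (and_l (and_r (and_r (and_r b42))))))))
theorem n688 : ¬ TripleMatch 3000000000 (items (st 1101000011100111100011111111000000000)) 6 :=
  step (ws := ws) (ts0 := root) h0 (doms := [((st 1100000011100111100011111100000000000), 5)]) (fuel := 8) (doms_cons n687 doms_nil) (and_l (and_l b43))
theorem n689 : ¬ TripleMatch 3000000000 (items (st 1101000011210111100011111111010000000)) 7 :=
  step (ws := ws) (ts0 := root) h0 (doms := [((st 1001000011210111100011111110000000000), 6), ((st 1100000011210111100001111111000000000), 6), ((st 1101000011100111100011111111000000000), 6)]) (fuel := 8) (doms_cons n304 (doms_cons n509 (doms_cons n688 doms_nil))) (and_l (and_r (and_l b43)))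
theorem n690 : ¬ TripleMatch 3000000000 (items (st 1111000011100111100011111111110000000)) 7 :=
  step (ws := ws) (ts0 := root) h0 (doms := [((st 1101000011100111100011111111000000000), 6), ((st 1110000011100111100001111111100000000), 6)]) (fuel := 8) (doms_cons n688 (doms_cons n511 doms_nil)) (and_l (and_r (and_r (and_l b43))))
theorem n691 : ¬ TripleMatch 3000000000 (items (st 1111000011210111100011111111111000000)) 8 :=
  step (ws := ws) (ts0 := root) h0 (doms := [((st 1011000011210111100011111111100000000), 7), ((st 1101000011210111100011111111010000000), 7), ((st 1110000011210111100001111111110000000), 7), ((st 1111000011100111100011111111110000000), 7)]) (fuel := 8) (doms_cons n680 (doms_cons n689 (doms_cons n512 (doms_cons n690 doms_nil)))) (and_l (and_r (and_r (and_r (and_l b43)))))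
theorem n692 : ¬ TripleMatch 3000000000 (items (st 1111000011320111100011111111111100000)) 9 :=
  step (ws := ws) (ts0 := root) h0 (doms := [((st 1011000011320111100011111111110000000), 8), ((st 1101000011320111100011111110111000000), 8), ((st 1110000011320111100001111111111000000), 8), ((st 1111000011210111100011111111111000000), 8)]) (fuel := 8) (doms_cons n681 (doms_cons n333 (doms_cons n513 (doms_cons n691 doms_nil)))) (and_l (and_l (and_r b43)))
theorem n693 : ¬ TripleMatch 3000000000 (items (st 1101000111101111100011111111010000000)) 7 :=
  step (ws := ws) (ts0 := root) h0 (doms := [((st 1001000111101111100011111110000000000), 6), ((st 1100000111101111100001111111000000000), 6), ((st 1101000011100111100011111111000000000), 6)]) (fuel := 8) (doms_cons n307 (doms_cons n514 (doms_cons n688 doms_nil))) (and_l (and_r (and_l (and_r b43))))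
theorem n694 : ¬ TripleMatch 3000000000 (items (st 1111000111101111100011111111111000000)) 8 :=
  step (ws := ws) (ts0 := root) h0 (doms := [((st 1011000111101111100011111111100000000), 7), ((st 1101000111101111100011111111010000000), 7), ((st 1110000111101111100001111111110000000), 7), ((st 1111000011100111100011111111110000000), 7)]) (fuel := 8) (doms_cons n684 (doms_cons n693 (doms_cons n516 (doms_cons n690 doms_nil)))) (and_l (and_r (and_r (and_l (and_r b43)))))
theorem n695 : ¬ TripleMatch 3000000000 (items (st 1111000111211111100011111111111100000)) 9 :=
  step (ws := ws) (ts0 := root) h0 (doms := [((st 1011000111211111100011111111110000000), 8), ((st 1101000111211111100011111110111000000), 8), ((st 1110000111211111100001111111111000000), 8), ((st 1111000011210111100011111111111000000), 8), ((st 1111000111101111100011111111111000000), 8)]) (fuel := 8) (doms_cons n685 (doms_cons n335 (doms_cons n517 (doms_cons n691 (doms_cons n694 doms_nil))))) (and_l (and_r (and_r (and_r (and_l (and_r b43))))))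
theorem n696 : ¬ TripleMatch 3000000000 (items (st 1111000111321111100011111111111110000)) 10 :=
  step (ws := ws) (ts0 := root) h0 (doms := [((st 111000111321111100011111111111000000), 9), ((st 1011000111321111100011111111110100000), 9), ((st 1101000111321111100011111110111100000), 9), ((st 1110000111321111100001111111111100000), 9), ((st 1111000011320111100011111111111100000), 9), ((st 1111000111211111100011111111111100000), 9)]) (fuel := 8) (doms_cons n677 (doms_cons n686 (doms_cons n336 (doms_cons n518 (doms_cons n692 (doms_cons n695 doms_nil)))))) (and_l (and_l (and_r (and_r b43))))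
theorem n697 : ¬ TripleMatch 3000000000 (items (st 101000211212111100011111111010000000)) 8 :=
  step (ws := ws) (ts0 := root) h0 (doms := [((st 1000211212111100011111110000000000), 7), ((st 100000211212111100001111111000000000), 7), ((st 101000111211111100011111111000000000), 7), ((st 101000211102111100011111111000000000), 7)]) (fuel := 8) (doms_cons n259 (doms_cons n454 (doms_cons n654 (doms_cons n659 doms_nil)))) (and_l (and_r (and_l (and_r (and_r b43)))))
theorem n698 : ¬ TripleMatch 3000000000 (items (st 111000211212111100011111111111000000)) 9 :=
  step (ws := ws) (ts0 := root) h0 (doms := [((st 11000211212111100011111111100000000), 8), ((st 101000211212111100011111111010000000), 8), ((st 110000211212111100001111111110000000), 8), ((st 111000111211111100011111111110000000), 8), ((st 111000211102111100011111111110000000), 8)]) (fuel := 8) (doms_cons n645 (doms_cons n697 (doms_cons n456 (doms_cons n656 (doms_cons n660 doms_nil))))) (and_l (and_r (and_r (and_l (and_r (and_r b43))))))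
theorem n699 : ¬ TripleMatch 3000000000 (items (st 1000000211102111100011111100000000000)) 6 :=
  step (ws := ws) (ts0 := root) h0 (doms := [((st 211102111100011110000000000000), 5), ((st 1000000111101111100011111000000000000), 5)]) (fuel := 8) (doms_cons n41 (doms_cons n306 doms_nil)) (and_l (and_r (and_r (and_r (and_l (and_r (and_r b43)))))))
theorem n700 : ¬ TripleMatch 3000000000 (items (st 1001000211102111100011111111000000000)) 7 :=
  step (ws := ws) (ts0 := root) h0 (doms := [((st 1000000211102111100011111100000000000), 6), ((st 1001000111101111100011111110000000000), 6)]) (fuel := 8) (doms_cons n699 (doms_cons n307 doms_nil)) (and_l (and_l (and_r (and_r (and_r b43)))))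
theorem n701 : ¬ TripleMatch 3000000000 (items (st 1011000211102111100011111111110000000)) 8 :=
  step (ws := ws) (ts0 := root) h0 (doms := [((st 1001000211102111100011111111000000000), 7), ((st 1010000211102111100001111111100000000), 7), ((st 1011000111101111100011111111100000000), 7)]) (fuel := 8) (doms_cons n700 (doms_cons n506 (doms_cons n684 doms_nil))) (and_l (and_r (and_l (and_r (and_r (and_r b43))))))
theorem n702 : ¬ TripleMatch 3000000000 (items (st 1011000211212111100011111111110100000)) 9 :=
  step (ws := ws) (ts0 := root) h0 (doms := [((st 11000211212111100011111111100000000), 8), ((st 1001000211212111100011111110110000000), 8), ((st 1010000211212111100001111111110000000), 8), ((st 1011000111211111100011111111110000000), 8), ((st 1011000211102111100011111111110000000), 8)]) (fuel := 8) (doms_cons n645 (doms_cons n329 (doms_cons n507 (doms_cons n685 (doms_cons n701 doms_nil))))) (and_l (and_r (and_r (and_l (and_r (and_r (and_r b43)))))))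
theorem n703 : ¬ TripleMatch 3000000000 (items (st 1111000211102111100011111111111100000)) 9 :=
  step (ws := ws) (ts0 := root) h0 (doms := [((st 1011000211102111100011111111110000000), 8), ((st 1101000211102111100011111110111000000), 8), ((st 1110000211102111100001111111111000000), 8), ((st 1111000111101111100011111111111000000), 8)]) (fuel := 8) (doms_cons n701 (doms_cons n337 (doms_cons n520 (doms_cons n694 doms_nil)))) (and_l (and_r (and_r (and_r (and_l (and_r (and_r (and_r b43))))))))
theorem n704 : ¬ TripleMatch 3000000000 (items (st 1111000211212111100011111111111110000)) 10 :=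
  step (ws := ws) (ts0 := root) h0 (doms := [((st 111000211212111100011111111111000000), 9), ((st 1011000211212111100011111111110100000), 9), ((st 1101000211212111100011111110111100000), 9), ((st 1110000211212111100001111111111100000), 9), ((st 1111000111211111100011111111111100000), 9), ((st 1111000211102111100011111111111100000), 9)]) (fuel := 8) (doms_cons n698 (doms_cons n702 (doms_cons n338 (doms_cons n521 (doms_cons n695 (doms_cons n703 doms_nil)))))) (and_l (and_l b44))
theorem n705 : ¬ TripleMatch 3000000000 (items (st 1111000211322111100011111111111111000)) 11 :=
  step (ws := ws) (ts0 := root) h0 (doms := [((st 111000211322111100011111111110110000), 10), ((st 1011000211322111100011111111011110000), 10), ((st 1101000211322111100011111110111110000), 10), ((st 1110000211322111100001111111111110000), 10), ((st 1111000111321111100011111111111110000), 10), ((st 1111000211212111100011111111111110000), 10)]) (fuel := 8) (doms_cons n662 (doms_cons n675 (doms_cons n339 (doms_cons n522 (doms_cons n696 (doms_cons n704 doms_nil)))))) (and_l (and_r (and_l b44)))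
theorem n706 : ¬ TripleMatch 3000000000 (items (st 10000011210111110011110000000000000)) 5 :=
  step (ws := ws) (ts0 := root) h0 (doms := []) (fuel := 8) doms_nil (and_l (and_r (and_r (and_l b44))))
theorem n707 : ¬ TripleMatch 3000000000 (items (st 10100011100111110011111000000000000)) 5 :=
  step (ws := ws) (ts0 := root) h0 (doms := []) (fuel := 8) doms_nil (and_l (and_r (and_r (and_r (and_l b44)))))
theorem n708 : ¬ TripleMatch 3000000000 (items (st 10100011210111110011111100000000000)) 6 :=
  step (ws := ws) (ts0 := root) h0 (doms := [((st 10000011210111110011110000000000000), 5), ((st 10100011100111110011111000000000000), 5)]) (fuel := 8) (doms_cons n706 (doms_cons n707 doms_nil)) (and_l (and_l (and_r b44)))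
theorem n709 : ¬ TripleMatch 3000000000 (items (st 10000011210111110011101000000000000)) 5 :=
  step (ws := ws) (ts0 := root) h0 (doms := []) (fuel := 8) doms_nil (and_l (and_r (and_l (and_r b44))))
theorem n710 : ¬ TripleMatch 3000000000 (items (st 11000011100111110011101100000000000)) 5 :=
  step (ws := ws) (ts0 := root) h0 (doms := []) (fuel := 8) doms_nil (and_l (and_r (and_r (and_l (and_r b44)))))
theorem n711 : ¬ TripleMatch 3000000000 (items (st 11000011210111110011101110000000000)) 6 :=
  step (ws := ws) (ts0 := root) h0 (doms := [((st 10000011210111110011101000000000000), 5), ((st 11000011100111110011101100000000000), 5)]) (fuel := 8) (doms_cons n709 (doms_cons n710 doms_nil)) (and_l (and_r (and_r (and_r (and_l (and_r b44))))))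
theorem n712 : ¬ TripleMatch 3000000000 (items (st 11000011100111110011110100000000000)) 5 :=
  step (ws := ws) (ts0 := root) h0 (doms := []) (fuel := 8) doms_nil (and_l (and_l (and_r (and_r b44))))
theorem n713 : ¬ TripleMatch 3000000000 (items (st 11100011100111110011111110000000000)) 6 :=
  step (ws := ws) (ts0 := root) h0 (doms := [((st 10100011100111110011111000000000000), 5), ((st 11000011100111110011110100000000000), 5)]) (fuel := 8) (doms_cons n707 (doms_cons n712 doms_nil)) (and_l (and_r (and_l (and_r (and_r b44)))))
theorem n714 : ¬ TripleMatch 3000000000 (items (st 11100011210111110011111111000000000)) 7 :=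
  step (ws := ws) (ts0 := root) h0 (doms := [((st 10100011210111110011111100000000000), 6), ((st 11000011210111110011101110000000000), 6), ((st 11100011100111110011111110000000000), 6)]) (fuel := 8) (doms_cons n708 (doms_cons n711 (doms_cons n713 doms_nil))) (and_l (and_r (and_r (and_l (and_r (and_r b44))))))
theorem n715 : ¬ TripleMatch 3000000000 (items (st 11100011320111110011111111100000000)) 8 :=
  step (ws := ws) (ts0 := root) h0 (doms := [((st 1100011320111110011111110000000000), 7), ((st 10100011320111110001111111000000000), 7), ((st 11000011320111100011111111000000000), 7), ((st 11100011210111110011111111000000000), 7)]) (fuel := 8) (doms_cons n264 (doms_cons n434 (doms_cons n637 (doms_cons n714 doms_nil)))) (and_l (and_r (and_r (and_r (and_l (and_r (and_r b44)))))))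
theorem n716 : ¬ TripleMatch 3000000000 (items (st 10000111101111110011110000000000000)) 5 :=
  step (ws := ws) (ts0 := root) h0 (doms := []) (fuel := 8) doms_nil (and_l (and_l (and_r (and_r (and_r b44)))))
theorem n717 : ¬ TripleMatch 3000000000 (items (st 10100111101111110011111100000000000)) 6 :=
  step (ws := ws) (ts0 := root) h0 (doms := [((st 10000111101111110011110000000000000), 5), ((st 10100011100111110011111000000000000), 5)]) (fuel := 8) (doms_cons n716 (doms_cons n707 doms_nil)) (and_l (and_r (and_l (and_r (and_r (and_r b44))))))
theorem n718 : ¬ TripleMatch 3000000000 (items (st 10000111101111110011101000000000000)) 5 :=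
  step (ws := ws) (ts0 := root) h0 (doms := []) (fuel := 8) doms_nil (and_l (and_r (and_r (and_l (and_r (and_r (and_r b44)))))))
theorem n719 : ¬ TripleMatch 3000000000 (items (st 11000111101111110011101110000000000)) 6 :=
  step (ws := ws) (ts0 := root) h0 (doms := [((st 10000111101111110011101000000000000), 5), ((st 11000011100111110011101100000000000), 5)]) (fuel := 8) (doms_cons n718 (doms_cons n710 doms_nil)) (and_l (and_r (and_r (and_r (and_l (and_r (and_r (and_r b44))))))))
theorem n720 : ¬ TripleMatch 3000000000 (items (st 11100111101111110011111111000000000)) 7 :=
  step (ws := ws) (ts0 := root) h0 (doms := [((st 10100111101111110011111100000000000), 6), ((st 11000111101111110011101110000000000), 6), ((st 11100011100111110011111110000000000), 6)]) (fuel := 8) (doms_cons n717 (doms_cons n719 (doms_cons n713 doms_nil))) (and_l (and_l b45))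
theorem n721 : ¬ TripleMatch 3000000000 (items (st 11100111211111110011111111100000000)) 8 :=
  step (ws := ws) (ts0 := root) h0 (doms := [((st 1100111211111110011111110000000000), 7), ((st 10100111211111110001111111000000000), 7), ((st 11000111211111100011111111000000000), 7), ((st 11100011210111110011111111000000000), 7), ((st 11100111101111110011111111000000000), 7)]) (fuel := 8) (doms_cons n269 (doms_cons n440 (doms_cons n641 (doms_cons n714 (doms_cons n720 doms_nil))))) (and_l (and_r (and_l b45)))
theorem n722 : ¬ TripleMatch 3000000000 (items (st 11100111321111110011111111100100000)) 9 :=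
  step (ws := ws) (ts0 := root) h0 (doms := [((st 1100111321111110011111110100000000), 8), ((st 10100111321111110001111111100000000), 8), ((st 11000111321111100011111111100000000), 8), ((st 11100011320111110011111111100000000), 8), ((st 11100111211111110011111111100000000), 8)]) (fuel := 8) (doms_cons n270 (doms_cons n441 (doms_cons n642 (doms_cons n715 (doms_cons n721 doms_nil))))) (and_l (and_r (and_r (and_l b45))))
theorem n723 : ¬ TripleMatch 3000000000 (items (st 100000011210111110011110000000000000)) 5 :=
  step (ws := ws) (ts0 := root) h0 (doms := []) (fuel := 8) doms_nil (and_l (and_r (and_r (and_r (and_l b45)))))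
theorem n724 : ¬ TripleMatch 3000000000 (items (st 100100011210111110011111100000000000)) 6 :=
  step (ws := ws) (ts0 := root) h0 (doms := [((st 100000011210111110011110000000000000), 5), ((st 100100011100111110011111000000000000), 5)]) (fuel := 8) (doms_cons n723 (doms_cons n288 doms_nil)) (and_l (and_l (and_r b45)))
theorem n725 : ¬ TripleMatch 3000000000 (items (st 100000011210111110011101000000000000)) 5 :=
  step (ws := ws) (ts0 := root) h0 (doms := []) (fuel := 8) doms_nil (and_l (and_r (and_l (and_r b45))))
theorem n726 : ¬ TripleMatch 3000000000 (items (st 101000011100111110011101100000000000)) 5 :=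
  step (ws := ws) (ts0 := root) h0 (doms := []) (fuel := 8) doms_nil (and_l (and_r (and_r (and_l (and_r b45)))))
theorem n727 : ¬ TripleMatch 3000000000 (items (st 101000011210111110011101110000000000)) 6 :=
  step (ws := ws) (ts0 := root) h0 (doms := [((st 100000011210111110011101000000000000), 5), ((st 101000011100111110011101100000000000), 5)]) (fuel := 8) (doms_cons n725 (doms_cons n726 doms_nil)) (and_l (and_r (and_r (and_r (and_l (and_r b45))))))
theorem n728 : ¬ TripleMatch 3000000000 (items (st 101100011210111110011111111000000000)) 7 :=
  step (ws := ws) (ts0 := root) h0 (doms := [((st 100100011210111110011111100000000000), 6), ((st 101000011210111110011101110000000000), 6), ((st 101100011100111110011111110000000000), 6)]) (fuel := 8) (doms_cons n724 (doms_cons n727 (doms_cons n290 doms_nil))) (and_l (and_l (and_r (and_r b45))))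
theorem n729 : ¬ TripleMatch 3000000000 (items (st 111100011100111110011111111100000000)) 7 :=
  step (ws := ws) (ts0 := root) h0 (doms := [((st 101100011100111110011111110000000000), 6), ((st 110100011100111110001111111000000000), 6), ((st 111000011100111100011111111000000000), 6)]) (fuel := 8) (doms_cons n290 (doms_cons n462 (doms_cons n650 doms_nil))) (and_l (and_r (and_l (and_r (and_r b45)))))
theorem n730 : ¬ TripleMatch 3000000000 (items (st 111100011210111110011111111110000000)) 8 :=
  step (ws := ws) (ts0 := root) h0 (doms := [((st 101100011210111110011111111000000000), 7), ((st 110100011210111110001111111100000000), 7), ((st 111000011210111100011111111100000000), 7), ((st 111100011100111110011111111100000000), 7)]) (fuel := 8) (doms_cons n728 (doms_cons n463 (doms_cons n651 (doms_cons n729 doms_nil)))) (and_l (and_r (and_r (and_l (and_r (and_r b45))))))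
theorem n731 : ¬ TripleMatch 3000000000 (items (st 111100011320111110011111111110100000)) 9 :=
  step (ws := ws) (ts0 := root) h0 (doms := [((st 11100011320111110011111111100000000), 8), ((st 101100011320111110011111110110000000), 8), ((st 110100011320111110001111111110000000), 8), ((st 111000011320111100011111111110000000), 8), ((st 111100011210111110011111111110000000), 8)]) (fuel := 8) (doms_cons n715 (doms_cons n292 (doms_cons n464 (doms_cons n652 (doms_cons n730 doms_nil))))) (and_l (and_r (and_r (and_r (and_l (and_r (and_r b45)))))))
theorem n732 : ¬ TripleMatch 3000000000 (items (st 100000111101111110011110000000000000)) 5 :=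
  step (ws := ws) (ts0 := root) h0 (doms := []) (fuel := 8) doms_nil (and_l (and_l (and_r (and_r (and_r b45)))))
theorem n733 : ¬ TripleMatch 3000000000 (items (st 100100111101111110011111100000000000)) 6 :=
  step (ws := ws) (ts0 := root) h0 (doms := [((st 100000111101111110011110000000000000), 5), ((st 100100011100111110011111000000000000), 5)]) (fuel := 8) (doms_cons n732 (doms_cons n288 doms_nil)) (and_l (and_r (and_l (and_r (and_r (and_r b45))))))
theorem n734 : ¬ TripleMatch 3000000000 (items (st 100000111101111110011101000000000000)) 5 :=
  step (ws := ws) (ts0 := root) h0 (doms := []) (fuel := 8) doms_nil (and_l (and_r (and_r (and_l (and_r (and_r (and_r b45)))))))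
theorem n735 : ¬ TripleMatch 3000000000 (items (st 101000111101111110011101110000000000)) 6 :=
  step (ws := ws) (ts0 := root) h0 (doms := [((st 100000111101111110011101000000000000), 5), ((st 101000011100111110011101100000000000), 5)]) (fuel := 8) (doms_cons n734 (doms_cons n726 doms_nil)) (and_l (and_r (and_r (and_r (and_l (and_r (and_r (and_r b45))))))))
theorem n736 : ¬ TripleMatch 3000000000 (items (st 101100111101111110011111111000000000)) 7 :=
  step (ws := ws) (ts0 := root) h0 (doms := [((st 100100111101111110011111100000000000), 6), ((st 101000111101111110011101110000000000), 6), ((st 101100011100111110011111110000000000), 6)]) (fuel := 8) (doms_cons n733 (doms_cons n735 (doms_cons n290 doms_nil))) (and_l (and_l b46))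
theorem n737 : ¬ TripleMatch 3000000000 (items (st 111100111101111110011111111110000000)) 8 :=
  step (ws := ws) (ts0 := root) h0 (doms := [((st 101100111101111110011111111000000000), 7), ((st 110100111101111110001111111100000000), 7), ((st 111000111101111100011111111100000000), 7), ((st 111100011100111110011111111100000000), 7)]) (fuel := 8) (doms_cons n736 (doms_cons n468 (doms_cons n655 (doms_cons n729 doms_nil)))) (and_l (and_r (and_l b46)))
theorem n738 : ¬ TripleMatch 3000000000 (items (st 111100111211111110011111111110100000)) 9 :=
  step (ws := ws) (ts0 := root) h0 (doms := [((st 11100111211111110011111111100000000), 8), ((st 101100111211111110011111110110000000), 8), ((st 110100111211111110001111111110000000), 8), ((st 111000111211111100011111111110000000), 8), ((st 111100011210111110011111111110000000), 8), ((st 111100111101111110011111111110000000), 8)]) (fuel := 8) (doms_cons n721 (doms_cons n294 (doms_cons n469 (doms_cons n656 (doms_cons n730 (doms_cons n737 doms_nil)))))) (and_l (and_r (and_r (and_l b46))))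
theorem n739 : ¬ TripleMatch 3000000000 (items (st 111100111321111110011111111110110000)) 10 :=
  step (ws := ws) (ts0 := root) h0 (doms := [((st 11100111321111110011111111100100000), 9), ((st 101100111321111110011111110110100000), 9), ((st 110100111321111110001111111110100000), 9), ((st 111000111321111100011111111110100000), 9), ((st 111100011320111110011111111110100000), 9), ((st 111100111211111110011111111110100000), 9)]) (fuel := 8) (doms_cons n722 (doms_cons n295 (doms_cons n470 (doms_cons n657 (doms_cons n731 (doms_cons n738 doms_nil)))))) (and_l (and_r (and_r (and_r (and_l b46)))))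
theorem n740 : ¬ TripleMatch 3000000000 (items (st 11100011320111110011111111010000000)) 8 :=
  step (ws := ws) (ts0 := root) h0 (doms := [((st 1100011320111110011111110000000000), 7), ((st 10100011320111110001111111000000000), 7), ((st 11000011320111100011111111000000000), 7), ((st 11100011210111110011111111000000000), 7)]) (fuel := 8) (doms_cons n264 (doms_cons n434 (doms_cons n637 (doms_cons n714 doms_nil)))) (and_l (and_l (and_r b46)))
theorem n741 : ¬ TripleMatch 3000000000 (items (st 11100111211111110011111111010000000)) 8 :=
  step (ws := ws) (ts0 := root) h0 (doms := [((st 1100111211111110011111110000000000), 7), ((st 10100111211111110001111111000000000), 7), ((st 11000111211111100011111111000000000), 7), ((st 11100011210111110011111111000000000), 7), ((st 11100111101111110011111111000000000), 7)]) (fuel := 8) (doms_cons n269 (doms_cons n440 (doms_cons n641 (doms_cons n714 (doms_cons n720 doms_nil))))) (and_l (and_r (and_l (and_r b46))))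
theorem n742 : ¬ TripleMatch 3000000000 (items (st 11100111321111110011111111011000000)) 9 :=
  step (ws := ws) (ts0 := root) h0 (doms := [((st 1100111321111110011111110010000000), 8), ((st 10100111321111110001111111010000000), 8), ((st 11000111321111100011111111010000000), 8), ((st 11100011320111110011111111010000000), 8), ((st 11100111211111110011111111010000000), 8)]) (fuel := 8) (doms_cons n300 (doms_cons n477 (doms_cons n663 (doms_cons n740 (doms_cons n741 doms_nil))))) (and_l (and_r (and_r (and_l (and_r b46)))))
theorem n743 : ¬ TripleMatch 3000000000 (items (st 1011100011100111110011111111010000000)) 7 :=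
  step (ws := ws) (ts0 := root) h0 (doms := [((st 1001100011100111110011111110000000000), 6), ((st 1010100011100111110001111111000000000), 6), ((st 1011000011100111100011111111000000000), 6)]) (fuel := 8) (doms_cons n315 (doms_cons n490 (doms_cons n667 doms_nil))) (and_l (and_r (and_r (and_r (and_l (and_r b46))))))
theorem n744 : ¬ TripleMatch 3000000000 (items (st 1011100011210111110011111111011000000)) 8 :=
  step (ws := ws) (ts0 := root) h0 (doms := [((st 11100011210111110011111111000000000), 7), ((st 1001100011210111110011111110010000000), 7), ((st 1010100011210111110001111111010000000), 7), ((st 1011000011210111100011111111010000000), 7), ((st 1011100011100111110011111111010000000), 7)]) (fuel := 8) (doms_cons n714 (doms_cons n316 (doms_cons n491 (doms_cons n668 (doms_cons n743 doms_nil))))) (and_l (and_l (and_r (and_r b46))))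
theorem n745 : ¬ TripleMatch 3000000000 (items (st 1011100011320111110011111111011100000)) 9 :=
  step (ws := ws) (ts0 := root) h0 (doms := [((st 11100011320111110011111111010000000), 8), ((st 1001100011320111110011111110011000000), 8), ((st 1010100011320111110001111111011000000), 8), ((st 1011000011320111100011111111011000000), 8), ((st 1011100011210111110011111111011000000), 8)]) (fuel := 8) (doms_cons n740 (doms_cons n317 (doms_cons n492 (doms_cons n669 (doms_cons n744 doms_nil))))) (and_l (and_r (and_l (and_r (and_r b46)))))
theorem n746 : ¬ TripleMatch 3000000000 (items (st 1011100111101111110011111111011000000)) 8 :=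
  step (ws := ws) (ts0 := root) h0 (doms := [((st 11100111101111110011111111000000000), 7), ((st 1001100111101111110011111110010000000), 7), ((st 1010100111101111110001111111010000000), 7), ((st 1011000111101111100011111111010000000), 7), ((st 1011100011100111110011111111010000000), 7)]) (fuel := 8) (doms_cons n720 (doms_cons n318 (doms_cons n493 (doms_cons n670 (doms_cons n743 doms_nil))))) (and_l (and_r (and_r (and_l (and_r (and_r b46))))))
theorem n747 : ¬ TripleMatch 3000000000 (items (st 1011100111211111110011111111011100000)) 9 :=
  step (ws := ws) (ts0 := root) h0 (doms := [((st 11100111211111110011111111010000000), 8), ((st 1001100111211111110011111110011000000), 8), ((st 1010100111211111110001111111011000000), 8), ((st 1011000111211111100011111111011000000), 8), ((st 1011100011210111110011111111011000000), 8), ((st 1011100111101111110011111111011000000), 8)]) (fuel := 8) (doms_cons n741 (doms_cons n319 (doms_cons n494 (doms_cons n671 (doms_cons n744 (doms_cons n746 doms_nil)))))) (and_l (and_r (and_r (and_r (and_l (and_r (and_r b46)))))))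
theorem n748 : ¬ TripleMatch 3000000000 (items (st 1011100111321111110011111111011110000)) 10 :=
  step (ws := ws) (ts0 := root) h0 (doms := [((st 11100111321111110011111111011000000), 9), ((st 1001100111321111110011111110011100000), 9), ((st 1010100111321111110001111111011100000), 9), ((st 1011000111321111100011111111011100000), 9), ((st 1011100011320111110011111111011100000), 9), ((st 1011100111211111110011111111011100000), 9)]) (fuel := 8) (doms_cons n742 (doms_cons n320 (doms_cons n495 (doms_cons n672 (doms_cons n745 (doms_cons n747 doms_nil)))))) (and_l (and_l (and_r (and_r (and_r b46)))))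
theorem n749 : ¬ TripleMatch 3000000000 (items (st 101100011320111110011111111010000000)) 8 :=
  step (ws := ws) (ts0 := root) h0 (doms := [((st 1100011320111110011111110000000000), 7), ((st 100100011320111110001111111000000000), 7), ((st 101000011320111100011111111000000000), 7), ((st 101100011210111110011111111000000000), 7)]) (fuel := 8) (doms_cons n264 (doms_cons n460 (doms_cons n648 (doms_cons n728 doms_nil)))) (and_l (and_r (and_l (and_r (and_r (and_r b46))))))
theorem n750 : ¬ TripleMatch 3000000000 (items (st 111100011320111110011111111111000000)) 9 :=
  step (ws := ws) (ts0 := root) h0 (doms := [((st 11100011320111110011111111100000000), 8), ((st 101100011320111110011111111010000000), 8), ((st 110100011320111110001111111110000000), 8), ((st 111000011320111100011111111110000000), 8), ((st 111100011210111110011111111110000000), 8)]) (fuel := 8) (doms_cons n715 (doms_cons n749 (doms_cons n464 (doms_cons n652 (doms_cons n730 doms_nil))))) (and_l (and_r (and_r (and_l (and_r (and_r (and_r b46)))))))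
theorem n751 : ¬ TripleMatch 3000000000 (items (st 1000000011210111110011110000000000000)) 5 :=
  step (ws := ws) (ts0 := root) h0 (doms := []) (fuel := 8) doms_nil (and_l (and_r (and_r (and_r (and_l (and_r (and_r (and_r b46))))))))
theorem n752 : ¬ TripleMatch 3000000000 (items (st 1000100011210111110011111100000000000)) 6 :=
  step (ws := ws) (ts0 := root) h0 (doms := [((st 1000000011210111110011110000000000000), 5), ((st 1000100011100111110011111000000000000), 5)]) (fuel := 8) (doms_cons n751 (doms_cons n313 doms_nil)) (and_l (and_l b47))
theorem n753 : ¬ TripleMatch 3000000000 (items (st 1000000011210111110011101000000000000)) 5 :=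
  step (ws := ws) (ts0 := root) h0 (doms := []) (fuel := 8) doms_nil (and_l (and_r (and_l b47)))
theorem n754 : ¬ TripleMatch 3000000000 (items (st 1001000011100111110011101100000000000)) 5 :=
  step (ws := ws) (ts0 := root) h0 (doms := []) (fuel := 8) doms_nil (and_l (and_r (and_r (and_l b47))))
theorem n755 : ¬ TripleMatch 3000000000 (items (st 1001000011210111110011101110000000000)) 6 :=
  step (ws := ws) (ts0 := root) h0 (doms := [((st 1000000011210111110011101000000000000), 5), ((st 1001000011100111110011101100000000000), 5)]) (fuel := 8) (doms_cons n753 (doms_cons n754 doms_nil)) (and_l (and_r (and_r (and_r (and_l b47)))))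
theorem n756 : ¬ TripleMatch 3000000000 (items (st 1001100011210111110011111111000000000)) 7 :=
  step (ws := ws) (ts0 := root) h0 (doms := [((st 1000100011210111110011111100000000000), 6), ((st 1001000011210111110011101110000000000), 6), ((st 1001100011100111110011111110000000000), 6)]) (fuel := 8) (doms_cons n752 (doms_cons n755 (doms_cons n315 doms_nil))) (and_l (and_l (and_r b47)))
theorem n757 : ¬ TripleMatch 3000000000 (items (st 1011100011100111110011111111100000000)) 7 :=
  step (ws := ws) (ts0 := root) h0 (doms := [((st 1001100011100111110011111110000000000), 6), ((st 1010100011100111110001111111000000000), 6), ((st 1011000011100111100011111111000000000), 6)]) (fuel := 8) (doms_cons n315 (doms_cons n490 (doms_cons n667 doms_nil))) (and_l (and_r (and_l (and_r b47))))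
theorem n758 : ¬ TripleMatch 3000000000 (items (st 1011100011210111110011111111110000000)) 8 :=
  step (ws := ws) (ts0 := root) h0 (doms := [((st 1001100011210111110011111111000000000), 7), ((st 1010100011210111110001111111100000000), 7), ((st 1011000011210111100011111111100000000), 7), ((st 1011100011100111110011111111100000000), 7)]) (fuel := 8) (doms_cons n756 (doms_cons n528 (doms_cons n680 (doms_cons n757 doms_nil)))) (and_l (and_r (and_r (and_l (and_r b47)))))
theorem n759 : ¬ TripleMatch 3000000000 (items (st 1011100011320111110011111111110100000)) 9 :=
  step (ws := ws) (ts0 := root) h0 (doms := [((st 11100011320111110011111111100000000), 8), ((st 1001100011320111110011111110110000000), 8), ((st 1010100011320111110001111111110000000), 8), ((st 1011000011320111100011111111110000000), 8), ((st 1011100011210111110011111111110000000), 8)]) (fuel := 8) (doms_cons n715 (doms_cons n342 (doms_cons n529 (doms_cons n681 (doms_cons n758 doms_nil))))) (and_l (and_r (and_r (and_r (and_l (and_r b47))))))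
theorem n760 : ¬ TripleMatch 3000000000 (items (st 1101100011100111110011111111010000000)) 7 :=
  step (ws := ws) (ts0 := root) h0 (doms := [((st 1001100011100111110011111110000000000), 6), ((st 1100100011100111110001111111000000000), 6), ((st 1101000011100111100011111111000000000), 6)]) (fuel := 8) (doms_cons n315 (doms_cons n537 (doms_cons n688 doms_nil))) (and_l (and_l (and_r (and_r b47))))
theorem n761 : ¬ TripleMatch 3000000000 (items (st 1111100011100111110011111111111000000)) 8 :=
  step (ws := ws) (ts0 := root) h0 (doms := [((st 1011100011100111110011111111100000000), 7), ((st 1101100011100111110011111111010000000), 7), ((st 1110100011100111110001111111110000000), 7), ((st 1111000011100111100011111111110000000), 7)]) (fuel := 8) (doms_cons n757 (doms_cons n760 (doms_cons n539 (doms_cons n690 doms_nil)))) (and_l (and_r (and_l (and_r (and_r b47)))))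
theorem n762 : ¬ TripleMatch 3000000000 (items (st 1111100011210111110011111111111100000)) 9 :=
  step (ws := ws) (ts0 := root) h0 (doms := [((st 1011100011210111110011111111110000000), 8), ((st 1101100011210111110011111110111000000), 8), ((st 1110100011210111110001111111111000000), 8), ((st 1111000011210111100011111111111000000), 8), ((st 1111100011100111110011111111111000000), 8)]) (fuel := 8) (doms_cons n758 (doms_cons n347 (doms_cons n540 (doms_cons n691 (doms_cons n761 doms_nil))))) (and_l (and_r (and_r (and_l (and_r (and_r b47))))))
theorem n763 : ¬ TripleMatch 3000000000 (items (st 1111100011320111110011111111111110000)) 10 :=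
  step (ws := ws) (ts0 := root) h0 (doms := [((st 111100011320111110011111111111000000), 9), ((st 1011100011320111110011111111110100000), 9), ((st 1101100011320111110011111110111100000), 9), ((st 1110100011320111110001111111111100000), 9), ((st 1111000011320111100011111111111100000), 9), ((st 1111100011210111110011111111111100000), 9)]) (fuel := 8) (doms_cons n750 (doms_cons n759 (doms_cons n348 (doms_cons n541 (doms_cons n692 (doms_cons n762 doms_nil)))))) (and_l (and_r (and_r (and_r (and_l (and_r (and_r b47)))))))
theorem n764 : ¬ TripleMatch 3000000000 (items (st 101100111211111110011111111010000000)) 8 :=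
  step (ws := ws) (ts0 := root) h0 (doms := [((st 1100111211111110011111110000000000), 7), ((st 100100111211111110001111111000000000), 7), ((st 101000111211111100011111111000000000), 7), ((st 101100011210111110011111111000000000), 7), ((st 101100111101111110011111111000000000), 7)]) (fuel := 8) (doms_cons n269 (doms_cons n467 (doms_cons n654 (doms_cons n728 (doms_cons n736 doms_nil))))) (and_l (and_l (and_r (and_r (and_r b47)))))
theorem n765 : ¬ TripleMatch 3000000000 (items (st 111100111211111110011111111111000000)) 9 :=
  step (ws := ws) (ts0 := root) h0 (doms := [((st 11100111211111110011111111100000000), 8), ((st 101100111211111110011111111010000000), 8), ((st 110100111211111110001111111110000000), 8), ((st 111000111211111100011111111110000000), 8), ((st 111100011210111110011111111110000000), 8), ((st 111100111101111110011111111110000000), 8)]) (fuel := 8) (doms_cons n721 (doms_cons n764 (doms_cons n469 (doms_cons n656 (doms_cons n730 (doms_cons n737 doms_nil)))))) (and_l (and_r (and_l (and_r (and_r (and_r b47))))))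
theorem n766 : ¬ TripleMatch 3000000000 (items (st 1000000111101111110011110000000000000)) 5 :=
  step (ws := ws) (ts0 := root) h0 (doms := []) (fuel := 8) doms_nil (and_l (and_r (and_r (and_l (and_r (and_r (and_r b47)))))))
theorem n767 : ¬ TripleMatch 3000000000 (items (st 1000100111101111110011111100000000000)) 6 :=
  step (ws := ws) (ts0 := root) h0 (doms := [((st 1000000111101111110011110000000000000), 5), ((st 1000100011100111110011111000000000000), 5)]) (fuel := 8) (doms_cons n766 (doms_cons n313 doms_nil)) (and_l (and_r (and_r (and_r (and_l (and_r (and_r (and_r b47))))))))
theorem n768 : ¬ TripleMatch 3000000000 (items (st 1000000111101111110011101000000000000)) 5 :=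
  step (ws := ws) (ts0 := root) h0 (doms := []) (fuel := 8) doms_nil (and_l (and_l b48))
theorem n769 : ¬ TripleMatch 3000000000 (items (st 1001000111101111110011101110000000000)) 6 :=
  step (ws := ws) (ts0 := root) h0 (doms := [((st 1000000111101111110011101000000000000), 5), ((st 1001000011100111110011101100000000000), 5)]) (fuel := 8) (doms_cons n768 (doms_cons n754 doms_nil)) (and_l (and_r (and_l b48)))
theorem n770 : ¬ TripleMatch 3000000000 (items (st 1001100111101111110011111111000000000)) 7 :=
  step (ws := ws) (ts0 := root) h0 (doms := [((st 1000100111101111110011111100000000000), 6), ((st 1001000111101111110011101110000000000), 6), ((st 1001100011100111110011111110000000000), 6)]) (fuel := 8) (doms_cons n767 (doms_cons n769 (doms_cons n315 doms_nil))) (and_l (and_r (and_r (and_l b48))))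
theorem n771 : ¬ TripleMatch 3000000000 (items (st 1011100111101111110011111111110000000)) 8 :=
  step (ws := ws) (ts0 := root) h0 (doms := [((st 1001100111101111110011111111000000000), 7), ((st 1010100111101111110001111111100000000), 7), ((st 1011000111101111100011111111100000000), 7), ((st 1011100011100111110011111111100000000), 7)]) (fuel := 8) (doms_cons n770 (doms_cons n533 (doms_cons n684 (doms_cons n757 doms_nil)))) (and_l (and_r (and_r (and_r (and_l b48)))))
theorem n772 : ¬ TripleMatch 3000000000 (items (st 1011100111211111110011111111110100000)) 9 :=
  step (ws := ws) (ts0 := root) h0 (doms := [((st 11100111211111110011111111100000000), 8), ((st 1001100111211111110011111110110000000), 8), ((st 1010100111211111110001111111110000000), 8), ((st 1011000111211111100011111111110000000), 8), ((st 1011100011210111110011111111110000000), 8), ((st 1011100111101111110011111111110000000), 8)]) (fuel := 8) (doms_cons n721 (doms_cons n344 (doms_cons n534 (doms_cons n685 (doms_cons n758 (doms_cons n771 doms_nil)))))) (and_l (and_l (and_r b48)))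
theorem n773 : ¬ TripleMatch 3000000000 (items (st 1111100111101111110011111111111100000)) 9 :=
  step (ws := ws) (ts0 := root) h0 (doms := [((st 1011100111101111110011111111110000000), 8), ((st 1101100111101111110011111110111000000), 8), ((st 1110100111101111110001111111111000000), 8), ((st 1111000111101111100011111111111000000), 8), ((st 1111100011100111110011111111111000000), 8)]) (fuel := 8) (doms_cons n771 (doms_cons n349 (doms_cons n543 (doms_cons n694 (doms_cons n761 doms_nil))))) (and_l (and_r (and_l (and_r b48))))
theorem n774 : ¬ TripleMatch 3000000000 (items (st 1111100111211111110011111111111110000)) 10 :=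
  step (ws := ws) (ts0 := root) h0 (doms := [((st 111100111211111110011111111111000000), 9), ((st 1011100111211111110011111111110100000), 9), ((st 1101100111211111110011111110111100000), 9), ((st 1110100111211111110001111111111100000), 9), ((st 1111000111211111100011111111111100000), 9), ((st 1111100011210111110011111111111100000), 9), ((st 1111100111101111110011111111111100000), 9)]) (fuel := 8) (doms_cons n765 (doms_cons n772 (doms_cons n350 (doms_cons n544 (doms_cons n695 (doms_cons n762 (doms_cons n773 doms_nil))))))) (and_l (and_r (and_r (and_l (and_r b48)))))
theorem n775 : ¬ TripleMatch 3000000000 (items (st 1111100111321111110011111111111111000)) 11 :=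
  step (ws := ws) (ts0 := root) h0 (doms := [((st 111100111321111110011111111110110000), 10), ((st 1011100111321111110011111111011110000), 10), ((st 1101100111321111110011111110111110000), 10), ((st 1110100111321111110001111111111110000), 10), ((st 1111000111321111100011111111111110000), 10), ((st 1111100011320111110011111111111110000), 10), ((st 1111100111211111110011111111111110000), 10)]) (fuel := 8) (doms_cons n739 (doms_cons n748 (doms_cons n351 (doms_cons n545 (doms_cons n696 (doms_cons n763 (doms_cons n774 doms_nil))))))) (and_l (and_r (and_r (and_r (and_l (and_r b48))))))
theorem n776 : ¬ TripleMatch 3000000000 (items (st 11100211102111110011111111100000000)) 8 :=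
  step (ws := ws) (ts0 := root) h0 (doms := [((st 1100211102111110011111110000000000), 7), ((st 10100211102111110001111111000000000), 7), ((st 11000211102111100011111111000000000), 7), ((st 11100111101111110011111111000000000), 7)]) (fuel := 8) (doms_cons n274 (doms_cons n444 (doms_cons n644 (doms_cons n720 doms_nil)))) (and_l (and_l (and_r (and_r b48))))
theorem n777 : ¬ TripleMatch 3000000000 (items (st 11100211212111110011111111100100000)) 9 :=
  step (ws := ws) (ts0 := root) h0 (doms := [((st 1100211212111110011111110100000000), 8), ((st 10100211212111110001111111100000000), 8), ((st 11000211212111100011111111100000000), 8), ((st 11100111211111110011111111100000000), 8), ((st 11100211102111110011111111100000000), 8)]) (fuel := 8) (doms_cons n275 (doms_cons n445 (doms_cons n645 (doms_cons n721 (doms_cons n776 doms_nil))))) (and_l (and_r (and_l (and_r (and_r b48)))))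
theorem n778 : ¬ TripleMatch 3000000000 (items (st 111100211102111110011111111110100000)) 9 :=
  step (ws := ws) (ts0 := root) h0 (doms := [((st 11100211102111110011111111100000000), 8), ((st 101100211102111110011111110110000000), 8), ((st 110100211102111110001111111110000000), 8), ((st 111000211102111100011111111110000000), 8), ((st 111100111101111110011111111110000000), 8)]) (fuel := 8) (doms_cons n776 (doms_cons n296 (doms_cons n473 (doms_cons n660 (doms_cons n737 doms_nil))))) (and_l (and_r (and_r (and_l (and_r (and_r b48))))))
theorem n779 : ¬ TripleMatch 3000000000 (items (st 111100211212111110011111111110110000)) 10 :=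
  step (ws := ws) (ts0 := root) h0 (doms := [((st 11100211212111110011111111100100000), 9), ((st 101100211212111110011111110110100000), 9), ((st 110100211212111110001111111110100000), 9), ((st 111000211212111100011111111110100000), 9), ((st 111100111211111110011111111110100000), 9), ((st 111100211102111110011111111110100000), 9)]) (fuel := 8) (doms_cons n777 (doms_cons n297 (doms_cons n474 (doms_cons n661 (doms_cons n738 (doms_cons n778 doms_nil)))))) (and_l (and_r (and_r (and_r (and_l (and_r (and_r b48)))))))
theorem n780 : ¬ TripleMatch 3000000000 (items (st 11100211102111110011111111010000000)) 8 :=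
  step (ws := ws) (ts0 := root) h0 (doms := [((st 1100211102111110011111110000000000), 7), ((st 10100211102111110001111111000000000), 7), ((st 11000211102111100011111111000000000), 7), ((st 11100111101111110011111111000000000), 7)]) (fuel := 8) (doms_cons n274 (doms_cons n444 (doms_cons n644 (doms_cons n720 doms_nil)))) (and_l (and_l (and_r (and_r (and_r b48)))))
theorem n781 : ¬ TripleMatch 3000000000 (items (st 11100211212111110011111111011000000)) 9 :=
  step (ws := ws) (ts0 := root) h0 (doms := [((st 1100211212111110011111110010000000), 8), ((st 10100211212111110001111111010000000), 8), ((st 11000211212111100011111111010000000), 8), ((st 11100111211111110011111111010000000), 8), ((st 11100211102111110011111111010000000), 8)]) (fuel := 8) (doms_cons n301 (doms_cons n478 (doms_cons n664 (doms_cons n741 (doms_cons n780 doms_nil))))) (and_l (and_r (and_l (and_r (and_r (and_r b48))))))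
theorem n782 : ¬ TripleMatch 3000000000 (items (st 1011100211102111110011111111011100000)) 9 :=
  step (ws := ws) (ts0 := root) h0 (doms := [((st 11100211102111110011111111010000000), 8), ((st 1001100211102111110011111110011000000), 8), ((st 1010100211102111110001111111011000000), 8), ((st 1011000211102111100011111111011000000), 8), ((st 1011100111101111110011111111011000000), 8)]) (fuel := 8) (doms_cons n780 (doms_cons n321 (doms_cons n496 (doms_cons n673 (doms_cons n746 doms_nil))))) (and_l (and_r (and_r (and_l (and_r (and_r (and_r b48)))))))
theorem n783 : ¬ TripleMatch 3000000000 (items (st 1011100211212111110011111111011110000)) 10 :=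
  step (ws := ws) (ts0 := root) h0 (doms := [((st 11100211212111110011111111011000000), 9), ((st 1001100211212111110011111110011100000), 9), ((st 1010100211212111110001111111011100000), 9), ((st 1011000211212111100011111111011100000), 9), ((st 1011100111211111110011111111011100000), 9), ((st 1011100211102111110011111111011100000), 9)]) (fuel := 8) (doms_cons n781 (doms_cons n322 (doms_cons n497 (doms_cons n674 (doms_cons n747 (doms_cons n782 doms_nil)))))) (and_l (and_r (and_r (and_r (and_l (and_r (and_r (and_r b48))))))))
theorem n784 : ¬ TripleMatch 3000000000 (items (st 101100211102111110011111111010000000)) 8 :=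
  step (ws := ws) (ts0 := root) h0 (doms := [((st 1100211102111110011111110000000000), 7), ((st 100100211102111110001111111000000000), 7), ((st 101000211102111100011111111000000000), 7), ((st 101100111101111110011111111000000000), 7)]) (fuel := 8) (doms_cons n274 (doms_cons n472 (doms_cons n659 (doms_cons n736 doms_nil)))) (and_l (and_l b49))
theorem n785 : ¬ TripleMatch 3000000000 (items (st 111100211102111110011111111111000000)) 9 :=
  step (ws := ws) (ts0 := root) h0 (doms := [((st 11100211102111110011111111100000000), 8), ((st 101100211102111110011111111010000000), 8), ((st 110100211102111110001111111110000000), 8), ((st 111000211102111100011111111110000000), 8), ((st 111100111101111110011111111110000000), 8)]) (fuel := 8) (doms_cons n776 (doms_cons n784 (doms_cons n473 (doms_cons n660 (doms_cons n737 doms_nil))))) (and_l (and_r (and_l b49)))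
theorem n786 : ¬ TripleMatch 3000000000 (items (st 1011100211102111110011111111110100000)) 9 :=
  step (ws := ws) (ts0 := root) h0 (doms := [((st 11100211102111110011111111100000000), 8), ((st 1001100211102111110011111110110000000), 8), ((st 1010100211102111110001111111110000000), 8), ((st 1011000211102111100011111111110000000), 8), ((st 1011100111101111110011111111110000000), 8)]) (fuel := 8) (doms_cons n776 (doms_cons n353 (doms_cons n550 (doms_cons n701 (doms_cons n771 doms_nil))))) (and_l (and_r (and_r (and_l b49))))
theorem n787 : ¬ TripleMatch 3000000000 (items (st 1111100211102111110011111111111110000)) 10 :=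
  step (ws := ws) (ts0 := root) h0 (doms := [((st 111100211102111110011111111111000000), 9), ((st 1011100211102111110011111111110100000), 9), ((st 1101100211102111110011111110111100000), 9), ((st 1110100211102111110001111111111100000), 9), ((st 1111000211102111100011111111111100000), 9), ((st 1111100111101111110011111111111100000), 9)]) (fuel := 8) (doms_cons n785 (doms_cons n786 (doms_cons n355 (doms_cons n552 (doms_cons n703 (doms_cons n773 doms_nil)))))) (and_l (and_r (and_r (and_r (and_l b49)))))
theorem n788 : ¬ TripleMatch 3000000000 (items (st 1111100211212111110011111111111111000)) 11 :=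
  step (ws := ws) (ts0 := root) h0 (doms := [((st 111100211212111110011111111110110000), 10), ((st 1011100211212111110011111111011110000), 10), ((st 1101100211212111110011111110111110000), 10), ((st 1110100211212111110001111111111110000), 10), ((st 1111000211212111100011111111111110000), 10), ((st 1111100111211111110011111111111110000), 10), ((st 1111100211102111110011111111111110000), 10)]) (fuel := 8) (doms_cons n779 (doms_cons n783 (doms_cons n356 (doms_cons n553 (doms_cons n704 (doms_cons n774 (doms_cons n787 doms_nil))))))) (and_l (and_l (and_r b49)))
theorem n789 : ¬ TripleMatch 3000000000 (items (st 1111100211322111110011111111111111100)) 12 :=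
  step (ws := ws) (ts0 := root) h0 (doms := [((st 1101100211322111110011111110111111000), 11), ((st 1110100211322111110001111111111111000), 11), ((st 1111000211322111100011111111111111000), 11), ((st 1111100111321111110011111111111111000), 11), ((st 1111100211212111110011111111111111000), 11)]) (fuel := 8) (doms_cons n357 (doms_cons n554 (doms_cons n705 (doms_cons n775 (doms_cons n788 doms_nil))))) (and_l (and_r (and_l (and_r b49))))
theorem n790 : ¬ TripleMatch 3000000000 (items (st 10000011100111111011000000000000000)) 4 :=
  step (ws := ws) (ts0 := root) h0 (doms := []) (fuel := 8) doms_nil (and_l (and_r (and_r (and_l (and_r b49)))))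
theorem n791 : ¬ TripleMatch 3000000000 (items (st 10010011100111111011110000000000000)) 5 :=
  step (ws := ws) (ts0 := root) h0 (doms := [((st 10000011100111111011000000000000000), 4)]) (fuel := 8) (doms_cons n790 doms_nil) (and_l (and_r (and_r (and_r (and_l (and_r b49))))))
theorem n792 : ¬ TripleMatch 3000000000 (items (st 10000011100111111010100000000000000)) 4 :=
  step (ws := ws) (ts0 := root) h0 (doms := []) (fuel := 8) doms_nil (and_l (and_l (and_r (and_r b49))))
theorem n793 : ¬ TripleMatch 3000000000 (items (st 10100011100111111010111000000000000)) 5 :=
  step (ws := ws) (ts0 := root) h0 (doms := [((st 10000011100111111010100000000000000), 4)]) (fuel := 8) (doms_cons n792 doms_nil) (and_l (and_r (and_l (and_r (and_r b49)))))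
theorem n794 : ¬ TripleMatch 3000000000 (items (st 10110011100111111011111100000000000)) 6 :=
  step (ws := ws) (ts0 := root) h0 (doms := [((st 10010011100111111011110000000000000), 5), ((st 10100011100111111010111000000000000), 5)]) (fuel := 8) (doms_cons n791 (doms_cons n793 doms_nil)) (and_l (and_r (and_r (and_l (and_r (and_r b49))))))
theorem n795 : ¬ TripleMatch 3000000000 (items (st 10010011100111111011101000000000000)) 5 :=
  step (ws := ws) (ts0 := root) h0 (doms := [((st 10000011100111111011000000000000000), 4)]) (fuel := 8) (doms_cons n790 doms_nil) (and_l (and_r (and_r (and_r (and_l (and_r (and_r b49)))))))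
theorem n796 : ¬ TripleMatch 3000000000 (items (st 11000011100111111010101100000000000)) 5 :=
  step (ws := ws) (ts0 := root) h0 (doms := [((st 10000011100111111010100000000000000), 4)]) (fuel := 8) (doms_cons n792 doms_nil) (and_l (and_l (and_r (and_r (and_r b49)))))
theorem n797 : ¬ TripleMatch 3000000000 (items (st 11010011100111111011101110000000000)) 6 :=
  step (ws := ws) (ts0 := root) h0 (doms := [((st 10010011100111111011101000000000000), 5), ((st 11000011100111111010101100000000000), 5)]) (fuel := 8) (doms_cons n795 (doms_cons n796 doms_nil)) (and_l (and_r (and_l (and_r (and_r (and_r b49))))))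
theorem n798 : ¬ TripleMatch 3000000000 (items (st 10000011100111111001100000000000000)) 4 :=
  step (ws := ws) (ts0 := root) h0 (doms := []) (fuel := 8) doms_nil (and_l (and_r (and_r (and_l (and_r (and_r (and_r b49)))))))
theorem n799 : ¬ TripleMatch 3000000000 (items (st 10100011100111111001111000000000000)) 5 :=
  step (ws := ws) (ts0 := root) h0 (doms := [((st 10000011100111111001100000000000000), 4)]) (fuel := 8) (doms_cons n798 doms_nil) (and_l (and_r (and_r (and_r (and_l (and_r (and_r (and_r b49))))))))
theorem n800 : ¬ TripleMatch 3000000000 (items (st 11000011100111111001110100000000000)) 5 :=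
  step (ws := ws) (ts0 := root) h0 (doms := [((st 10000011100111111001100000000000000), 4)]) (fuel := 8) (doms_cons n798 doms_nil) (and_l (and_l b50))
theorem n801 : ¬ TripleMatch 3000000000 (items (st 11100011100111111001111110000000000)) 6 :=
  step (ws := ws) (ts0 := root) h0 (doms := [((st 10100011100111111001111000000000000), 5), ((st 11000011100111111001110100000000000), 5)]) (fuel := 8) (doms_cons n799 (doms_cons n800 doms_nil)) (and_l (and_r (and_l b50)))
theorem n802 : ¬ TripleMatch 3000000000 (items (st 11110011100111111011111111000000000)) 7 :=
  step (ws := ws) (ts0 := root) h0 (doms := [((st 10110011100111111011111100000000000), 6), ((st 11010011100111111011101110000000000), 6), ((st 11100011100111111001111110000000000), 6)]) (fuel := 8) (doms_cons n794 (doms_cons n797 (doms_cons n801 doms_nil))) (and_l (and_r (and_r (and_l b50))))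
theorem n803 : ¬ TripleMatch 3000000000 (items (st 11110011210111111011111111100000000)) 8 :=
  step (ws := ws) (ts0 := root) h0 (doms := [((st 1110011210111111011111110000000000), 7), ((st 10110011210111111001111111000000000), 7), ((st 11100011210111110011111111000000000), 7), ((st 11110011100111111011111111000000000), 7)]) (fuel := 8) (doms_cons n368 (doms_cons n564 (doms_cons n714 (doms_cons n802 doms_nil)))) (and_l (and_r (and_r (and_r (and_l b50)))))
theorem n804 : ¬ TripleMatch 3000000000 (items (st 11110011320111111011111111100100000)) 9 :=
  step (ws := ws) (ts0 := root) h0 (doms := [((st 1110011320111111011111110100000000), 8), ((st 10110011320111111001111111100000000), 8), ((st 11100011320111110011111111100000000), 8), ((st 11110011210111111011111111100000000), 8)]) (fuel := 8) (doms_cons n369 (doms_cons n565 (doms_cons n715 (doms_cons n803 doms_nil)))) (and_l (and_l (and_r b50)))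
theorem n805 : ¬ TripleMatch 3000000000 (items (st 100000011100111111011000000000000000)) 4 :=
  step (ws := ws) (ts0 := root) h0 (doms := []) (fuel := 8) doms_nil (and_l (and_r (and_l (and_r b50))))
theorem n806 : ¬ TripleMatch 3000000000 (items (st 100010011100111111011110000000000000)) 5 :=
  step (ws := ws) (ts0 := root) h0 (doms := [((st 100000011100111111011000000000000000), 4)]) (fuel := 8) (doms_cons n805 doms_nil) (and_l (and_r (and_r (and_l (and_r b50)))))
theorem n807 : ¬ TripleMatch 3000000000 (items (st 100000011100111111010100000000000000)) 4 :=
  step (ws := ws) (ts0 := root) h0 (doms := []) (fuel := 8) doms_nil (and_l (and_r (and_r (and_r (and_l (and_r b50))))))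
theorem n808 : ¬ TripleMatch 3000000000 (items (st 100100011100111111010111000000000000)) 5 :=
  step (ws := ws) (ts0 := root) h0 (doms := [((st 100000011100111111010100000000000000), 4)]) (fuel := 8) (doms_cons n807 doms_nil) (and_l (and_l (and_r (and_r b50))))
theorem n809 : ¬ TripleMatch 3000000000 (items (st 100110011100111111011111100000000000)) 6 :=
  step (ws := ws) (ts0 := root) h0 (doms := [((st 100010011100111111011110000000000000), 5), ((st 100100011100111111010111000000000000), 5)]) (fuel := 8) (doms_cons n806 (doms_cons n808 doms_nil)) (and_l (and_r (and_l (and_r (and_r b50)))))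
theorem n810 : ¬ TripleMatch 3000000000 (items (st 100010011100111111011101000000000000)) 5 :=
  step (ws := ws) (ts0 := root) h0 (doms := [((st 100000011100111111011000000000000000), 4)]) (fuel := 8) (doms_cons n805 doms_nil) (and_l (and_r (and_r (and_l (and_r (and_r b50))))))
theorem n811 : ¬ TripleMatch 3000000000 (items (st 101000011100111111010101100000000000)) 5 :=
  step (ws := ws) (ts0 := root) h0 (doms := [((st 100000011100111111010100000000000000), 4)]) (fuel := 8) (doms_cons n807 doms_nil) (and_l (and_r (and_r (and_r (and_l (and_r (and_r b50)))))))
theorem n812 : ¬ TripleMatch 3000000000 (items (st 101010011100111111011101110000000000)) 6 :=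
  step (ws := ws) (ts0 := root) h0 (doms := [((st 100010011100111111011101000000000000), 5), ((st 101000011100111111010101100000000000), 5)]) (fuel := 8) (doms_cons n810 (doms_cons n811 doms_nil)) (and_l (and_l (and_r (and_r (and_r b50)))))
theorem n813 : ¬ TripleMatch 3000000000 (items (st 100000011100111111001100000000000000)) 4 :=
  step (ws := ws) (ts0 := root) h0 (doms := []) (fuel := 8) doms_nil (and_l (and_r (and_l (and_r (and_r (and_r b50))))))
theorem n814 : ¬ TripleMatch 3000000000 (items (st 100100011100111111001111000000000000)) 5 :=
  step (ws := ws) (ts0 := root) h0 (doms := [((st 100000011100111111001100000000000000), 4)]) (fuel := 8) (doms_cons n813 doms_nil) (and_l (and_r (and_r (and_l (and_r (and_r (and_r b50)))))))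
theorem n815 : ¬ TripleMatch 3000000000 (items (st 101000011100111111001110100000000000)) 5 :=
  step (ws := ws) (ts0 := root) h0 (doms := [((st 100000011100111111001100000000000000), 4)]) (fuel := 8) (doms_cons n813 doms_nil) (and_l (and_r (and_r (and_r (and_l (and_r (and_r (and_r b50))))))))
theorem n816 : ¬ TripleMatch 3000000000 (items (st 101100011100111111001111110000000000)) 6 :=
  step (ws := ws) (ts0 := root) h0 (doms := [((st 100100011100111111001111000000000000), 5), ((st 101000011100111111001110100000000000), 5)]) (fuel := 8) (doms_cons n814 (doms_cons n815 doms_nil)) (and_l (and_l b51))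
theorem n817 : ¬ TripleMatch 3000000000 (items (st 101110011100111111011111111000000000)) 7 :=
  step (ws := ws) (ts0 := root) h0 (doms := [((st 100110011100111111011111100000000000), 6), ((st 101010011100111111011101110000000000), 6), ((st 101100011100111111001111110000000000), 6)]) (fuel := 8) (doms_cons n809 (doms_cons n812 (doms_cons n816 doms_nil))) (and_l (and_r (and_l b51)))
theorem n818 : ¬ TripleMatch 3000000000 (items (st 111110011100111111011111111110000000)) 8 :=
  step (ws := ws) (ts0 := root) h0 (doms := [((st 101110011100111111011111111000000000), 7), ((st 110110011100111111001111111100000000), 7), ((st 111100011100111110011111111100000000), 7)]) (fuel := 8) (doms_cons n817 (doms_cons n577 (doms_cons n729 doms_nil))) (and_l (and_r (and_r (and_l b51))))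
theorem n819 : ¬ TripleMatch 3000000000 (items (st 111110011210111111011111111110100000)) 9 :=
  step (ws := ws) (ts0 := root) h0 (doms := [((st 11110011210111111011111111100000000), 8), ((st 101110011210111111011111110110000000), 8), ((st 110110011210111111001111111110000000), 8), ((st 111100011210111110011111111110000000), 8), ((st 111110011100111111011111111110000000), 8)]) (fuel := 8) (doms_cons n803 (doms_cons n381 (doms_cons n578 (doms_cons n730 (doms_cons n818 doms_nil))))) (and_l (and_r (and_r (and_r (and_l b51)))))
theorem n820 : ¬ TripleMatch 3000000000 (items (st 111110011320111111011111111110110000)) 10 :=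
  step (ws := ws) (ts0 := root) h0 (doms := [((st 11110011320111111011111111100100000), 9), ((st 101110011320111111011111110110100000), 9), ((st 110110011320111111001111111110100000), 9), ((st 111100011320111110011111111110100000), 9), ((st 111110011210111111011111111110100000), 9)]) (fuel := 8) (doms_cons n804 (doms_cons n382 (doms_cons n579 (doms_cons n731 (doms_cons n819 doms_nil))))) (and_l (and_l (and_r b51)))
theorem n821 : ¬ TripleMatch 3000000000 (items (st 11110011210111111011111111010000000)) 8 :=
  step (ws := ws) (ts0 := root) h0 (doms := [((st 1110011210111111011111110000000000), 7), ((st 10110011210111111001111111000000000), 7), ((st 11100011210111110011111111000000000), 7), ((st 11110011100111111011111111000000000), 7)]) (fuel := 8) (doms_cons n368 (doms_cons n564 (doms_cons n714 (doms_cons n802 doms_nil)))) (and_l (and_r (and_l (and_r b51))))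
theorem n822 : ¬ TripleMatch 3000000000 (items (st 11110011320111111011111111011000000)) 9 :=
  step (ws := ws) (ts0 := root) h0 (doms := [((st 1110011320111111011111110010000000), 8), ((st 10110011320111111001111111010000000), 8), ((st 11100011320111110011111111010000000), 8), ((st 11110011210111111011111111010000000), 8)]) (fuel := 8) (doms_cons n386 (doms_cons n586 (doms_cons n740 (doms_cons n821 doms_nil)))) (and_l (and_r (and_r (and_l (and_r b51)))))
theorem n823 : ¬ TripleMatch 3000000000 (items (st 1011110011100111111011111111011000000)) 8 :=
  step (ws := ws) (ts0 := root) h0 (doms := [((st 11110011100111111011111111000000000), 7), ((st 1001110011100111111011111110010000000), 7), ((st 1010110011100111111001111111010000000), 7), ((st 1011100011100111110011111111010000000), 7)]) (fuel := 8) (doms_cons n802 (doms_cons n389 (doms_cons n589 (doms_cons n743 doms_nil)))) (and_l (and_r (and_r (and_r (and_l (and_r b51))))))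
theorem n824 : ¬ TripleMatch 3000000000 (items (st 1011110011210111111011111111011100000)) 9 :=
  step (ws := ws) (ts0 := root) h0 (doms := [((st 11110011210111111011111111010000000), 8), ((st 1001110011210111111011111110011000000), 8), ((st 1010110011210111111001111111011000000), 8), ((st 1011100011210111110011111111011000000), 8), ((st 1011110011100111111011111111011000000), 8)]) (fuel := 8) (doms_cons n821 (doms_cons n390 (doms_cons n590 (doms_cons n744 (doms_cons n823 doms_nil))))) (and_l (and_l (and_r (and_r b51))))
theorem n825 : ¬ TripleMatch 3000000000 (items (st 1011110011320111111011111111011110000)) 10 :=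
  step (ws := ws) (ts0 := root) h0 (doms := [((st 11110011320111111011111111011000000), 9), ((st 1001110011320111111011111110011100000), 9), ((st 1010110011320111111001111111011100000), 9), ((st 1011100011320111110011111111011100000), 9), ((st 1011110011210111111011111111011100000), 9)]) (fuel := 8) (doms_cons n822 (doms_cons n391 (doms_cons n591 (doms_cons n745 (doms_cons n824 doms_nil))))) (and_l (and_r (and_l (and_r (and_r b51)))))
theorem n826 : ¬ TripleMatch 3000000000 (items (st 101110011210111111011111111010000000)) 8 :=
  step (ws := ws) (ts0 := root) h0 (doms := [((st 1110011210111111011111110000000000), 7), ((st 100110011210111111001111111000000000), 7), ((st 101100011210111110011111111000000000), 7), ((st 101110011100111111011111111000000000), 7)]) (fuel := 8) (doms_cons n368 (doms_cons n576 (doms_cons n728 (doms_cons n817 doms_nil)))) (and_l (and_r (and_r (and_l (and_r (and_r b51))))))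
theorem n827 : ¬ TripleMatch 3000000000 (items (st 111110011210111111011111111111000000)) 9 :=
  step (ws := ws) (ts0 := root) h0 (doms := [((st 11110011210111111011111111100000000), 8), ((st 101110011210111111011111111010000000), 8), ((st 110110011210111111001111111110000000), 8), ((st 111100011210111110011111111110000000), 8), ((st 111110011100111111011111111110000000), 8)]) (fuel := 8) (doms_cons n803 (doms_cons n826 (doms_cons n578 (doms_cons n730 (doms_cons n818 doms_nil))))) (and_l (and_r (and_r (and_r (and_l (and_r (and_r b51)))))))
theorem n828 : ¬ TripleMatch 3000000000 (items (st 1000000011100111111011000000000000000)) 4 :=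
  step (ws := ws) (ts0 := root) h0 (doms := []) (fuel := 8) doms_nil (and_l (and_l (and_r (and_r (and_r b51)))))
theorem n829 : ¬ TripleMatch 3000000000 (items (st 1000010011100111111011110000000000000)) 5 :=
  step (ws := ws) (ts0 := root) h0 (doms := [((st 1000000011100111111011000000000000000), 4)]) (fuel := 8) (doms_cons n828 doms_nil) (and_l (and_r (and_l (and_r (and_r (and_r b51))))))
theorem n830 : ¬ TripleMatch 3000000000 (items (st 1000000011100111111010100000000000000)) 4 :=
  step (ws := ws) (ts0 := root) h0 (doms := []) (fuel := 8) doms_nil (and_l (and_r (and_r (and_l (and_r (and_r (and_r b51)))))))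
theorem n831 : ¬ TripleMatch 3000000000 (items (st 1000100011100111111010111000000000000)) 5 :=
  step (ws := ws) (ts0 := root) h0 (doms := [((st 1000000011100111111010100000000000000), 4)]) (fuel := 8) (doms_cons n830 doms_nil) (and_l (and_r (and_r (and_r (and_l (and_r (and_r (and_r b51))))))))
theorem n832 : ¬ TripleMatch 3000000000 (items (st 1000110011100111111011111100000000000)) 6 :=
  step (ws := ws) (ts0 := root) h0 (doms := [((st 1000010011100111111011110000000000000), 5), ((st 1000100011100111111010111000000000000), 5)]) (fuel := 8) (doms_cons n829 (doms_cons n831 doms_nil)) (and_l (and_l b52))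
theorem n833 : ¬ TripleMatch 3000000000 (items (st 1000010011100111111011101000000000000)) 5 :=
  step (ws := ws) (ts0 := root) h0 (doms := [((st 1000000011100111111011000000000000000), 4)]) (fuel := 8) (doms_cons n828 doms_nil) (and_l (and_r (and_l b52)))
theorem n834 : ¬ TripleMatch 3000000000 (items (st 1001000011100111111010101100000000000)) 5 :=
  step (ws := ws) (ts0 := root) h0 (doms := [((st 1000000011100111111010100000000000000), 4)]) (fuel := 8) (doms_cons n830 doms_nil) (and_l (and_r (and_r (and_l b52))))
theorem n835 : ¬ TripleMatch 3000000000 (items (st 1001010011100111111011101110000000000)) 6 :=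
  step (ws := ws) (ts0 := root) h0 (doms := [((st 1000010011100111111011101000000000000), 5), ((st 1001000011100111111010101100000000000), 5)]) (fuel := 8) (doms_cons n833 (doms_cons n834 doms_nil)) (and_l (and_r (and_r (and_r (and_l b52)))))
theorem n836 : ¬ TripleMatch 3000000000 (items (st 1000000011100111111001100000000000000)) 4 :=
  step (ws := ws) (ts0 := root) h0 (doms := []) (fuel := 8) doms_nil (and_l (and_l (and_r b52)))
theorem n837 : ¬ TripleMatch 3000000000 (items (st 1000100011100111111001111000000000000)) 5 :=
  step (ws := ws) (ts0 := root) h0 (doms := [((st 1000000011100111111001100000000000000), 4)]) (fuel := 8) (doms_cons n836 doms_nil) (and_l (and_r (and_l (and_r b52))))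
theorem n838 : ¬ TripleMatch 3000000000 (items (st 1001000011100111111001110100000000000)) 5 :=
  step (ws := ws) (ts0 := root) h0 (doms := [((st 1000000011100111111001100000000000000), 4)]) (fuel := 8) (doms_cons n836 doms_nil) (and_l (and_r (and_r (and_l (and_r b52)))))
theorem n839 : ¬ TripleMatch 3000000000 (items (st 1001100011100111111001111110000000000)) 6 :=
  step (ws := ws) (ts0 := root) h0 (doms := [((st 1000100011100111111001111000000000000), 5), ((st 1001000011100111111001110100000000000), 5)]) (fuel := 8) (doms_cons n837 (doms_cons n838 doms_nil)) (and_l (and_r (and_r (and_r (and_l (and_r b52))))))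
theorem n840 : ¬ TripleMatch 3000000000 (items (st 1001110011100111111011111111000000000)) 7 :=
  step (ws := ws) (ts0 := root) h0 (doms := [((st 1000110011100111111011111100000000000), 6), ((st 1001010011100111111011101110000000000), 6), ((st 1001100011100111111001111110000000000), 6)]) (fuel := 8) (doms_cons n832 (doms_cons n835 (doms_cons n839 doms_nil))) (and_l (and_l (and_r (and_r b52))))
theorem n841 : ¬ TripleMatch 3000000000 (items (st 1011110011100111111011111111110000000)) 8 :=
  step (ws := ws) (ts0 := root) h0 (doms := [((st 1001110011100111111011111111000000000), 7), ((st 1010110011100111111001111111100000000), 7), ((st 1011100011100111110011111111100000000), 7)]) (fuel := 8) (doms_cons n840 (doms_cons n602 (doms_cons n757 doms_nil))) (and_l (and_r (and_l (and_r (and_r b52)))))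
theorem n842 : ¬ TripleMatch 3000000000 (items (st 1011110011210111111011111111110100000)) 9 :=
  step (ws := ws) (ts0 := root) h0 (doms := [((st 11110011210111111011111111100000000), 8), ((st 1001110011210111111011111110110000000), 8), ((st 1010110011210111111001111111110000000), 8), ((st 1011100011210111110011111111110000000), 8), ((st 1011110011100111111011111111110000000), 8)]) (fuel := 8) (doms_cons n803 (doms_cons n397 (doms_cons n603 (doms_cons n758 (doms_cons n841 doms_nil))))) (and_l (and_r (and_r (and_l (and_r (and_r b52))))))
theorem n843 : ¬ TripleMatch 3000000000 (items (st 1111110011100111111011111111111100000)) 9 :=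
  step (ws := ws) (ts0 := root) h0 (doms := [((st 1011110011100111111011111111110000000), 8), ((st 1101110011100111111011111110111000000), 8), ((st 1110110011100111111001111111111000000), 8), ((st 1111100011100111110011111111111000000), 8)]) (fuel := 8) (doms_cons n841 (doms_cons n399 (doms_cons n606 (doms_cons n761 doms_nil)))) (and_l (and_r (and_r (and_r (and_l (and_r (and_r b52)))))))
theorem n844 : ¬ TripleMatch 3000000000 (items (st 1111110011210111111011111111111110000)) 10 :=
  step (ws := ws) (ts0 := root) h0 (doms := [((st 111110011210111111011111111111000000), 9), ((st 1011110011210111111011111111110100000), 9), ((st 1101110011210111111011111110111100000), 9), ((st 1110110011210111111001111111111100000), 9), ((st 1111100011210111110011111111111100000), 9), ((st 1111110011100111111011111111111100000), 9)]) (fuel := 8) (doms_cons n827 (doms_cons n842 (doms_cons n400 (doms_cons n607 (doms_cons n762 (doms_cons n843 doms_nil)))))) (and_l (and_l (and_r (and_r (and_r b52)))))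
theorem n845 : ¬ TripleMatch 3000000000 (items (st 1111110011320111111011111111111111000)) 11 :=
  step (ws := ws) (ts0 := root) h0 (doms := [((st 111110011320111111011111111110110000), 10), ((st 1011110011320111111011111111011110000), 10), ((st 1101110011320111111011111110111110000), 10), ((st 1110110011320111111001111111111110000), 10), ((st 1111100011320111110011111111111110000), 10), ((st 1111110011210111111011111111111110000), 10)]) (fuel := 8) (doms_cons n820 (doms_cons n825 (doms_cons n401 (doms_cons n608 (doms_cons n763 (doms_cons n844 doms_nil)))))) (and_l (and_r (and_l (and_r (and_r (and_r b52))))))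
theorem n846 : ¬ TripleMatch 3000000000 (items (st 11110111101111111011111111100000000)) 8 :=
  step (ws := ws) (ts0 := root) h0 (doms := [((st 1110111101111111011111110000000000), 7), ((st 10110111101111111001111111000000000), 7), ((st 11100111101111110011111111000000000), 7), ((st 11110011100111111011111111000000000), 7)]) (fuel := 8) (doms_cons n377 (doms_cons n569 (doms_cons n720 (doms_cons n802 doms_nil)))) (and_l (and_r (and_r (and_l (and_r (and_r (and_r b52)))))))
theorem n847 : ¬ TripleMatch 3000000000 (items (st 11110111211111111011111111100100000)) 9 :=
  step (ws := ws) (ts0 := root) h0 (doms := [((st 1110111211111111011111110100000000), 8), ((st 10110111211111111001111111100000000), 8), ((st 11100111211111110011111111100000000), 8), ((st 11110011210111111011111111100000000), 8), ((st 11110111101111111011111111100000000), 8)]) (fuel := 8) (doms_cons n378 (doms_cons n570 (doms_cons n721 (doms_cons n803 (doms_cons n846 doms_nil))))) (and_l (and_r (and_r (and_r (and_l (and_r (and_r (and_r b52))))))))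
theorem n848 : ¬ TripleMatch 3000000000 (items (st 111110111101111111011111111110100000)) 9 :=
  step (ws := ws) (ts0 := root) h0 (doms := [((st 11110111101111111011111111100000000), 8), ((st 101110111101111111011111110110000000), 8), ((st 110110111101111111001111111110000000), 8), ((st 111100111101111110011111111110000000), 8), ((st 111110011100111111011111111110000000), 8)]) (fuel := 8) (doms_cons n846 (doms_cons n383 (doms_cons n583 (doms_cons n737 (doms_cons n818 doms_nil))))) (and_l (and_l b53))
theorem n849 : ¬ TripleMatch 3000000000 (items (st 111110111211111111011111111110110000)) 10 :=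
  step (ws := ws) (ts0 := root) h0 (doms := [((st 11110111211111111011111111100100000), 9), ((st 101110111211111111011111110110100000), 9), ((st 110110111211111111001111111110100000), 9), ((st 111100111211111110011111111110100000), 9), ((st 111110011210111111011111111110100000), 9), ((st 111110111101111111011111111110100000), 9)]) (fuel := 8) (doms_cons n847 (doms_cons n384 (doms_cons n584 (doms_cons n738 (doms_cons n819 (doms_cons n848 doms_nil)))))) (and_l (and_r (and_l b53)))
theorem n850 : ¬ TripleMatch 3000000000 (items (st 11110111101111111011111111010000000)) 8 :=
  step (ws := ws) (ts0 := root) h0 (doms := [((st 1110111101111111011111110000000000), 7), ((st 10110111101111111001111111000000000), 7), ((st 11100111101111110011111111000000000), 7), ((st 11110011100111111011111111000000000), 7)]) (fuel := 8) (doms_cons n377 (doms_cons n569 (doms_cons n720 (doms_cons n802 doms_nil)))) (and_l (and_r (and_r (and_l b53))))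
theorem n851 : ¬ TripleMatch 3000000000 (items (st 11110111211111111011111111011000000)) 9 :=
  step (ws := ws) (ts0 := root) h0 (doms := [((st 1110111211111111011111110010000000), 8), ((st 10110111211111111001111111010000000), 8), ((st 11100111211111110011111111010000000), 8), ((st 11110011210111111011111111010000000), 8), ((st 11110111101111111011111111010000000), 8)]) (fuel := 8) (doms_cons n387 (doms_cons n587 (doms_cons n741 (doms_cons n821 (doms_cons n850 doms_nil))))) (and_l (and_r (and_r (and_r (and_l b53)))))
theorem n852 : ¬ TripleMatch 3000000000 (items (st 1011110111101111111011111111011100000)) 9 :=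
  step (ws := ws) (ts0 := root) h0 (doms := [((st 11110111101111111011111111010000000), 8), ((st 1001110111101111111011111110011000000), 8), ((st 1010110111101111111001111111011000000), 8), ((st 1011100111101111110011111111011000000), 8), ((st 1011110011100111111011111111011000000), 8)]) (fuel := 8) (doms_cons n850 (doms_cons n392 (doms_cons n592 (doms_cons n746 (doms_cons n823 doms_nil))))) (and_l (and_l (and_r b53)))
theorem n853 : ¬ TripleMatch 3000000000 (items (st 1011110111211111111011111111011110000)) 10 :=
  step (ws := ws) (ts0 := root) h0 (doms := [((st 11110111211111111011111111011000000), 9), ((st 1001110111211111111011111110011100000), 9), ((st 1010110111211111111001111111011100000), 9), ((st 1011100111211111110011111111011100000), 9), ((st 1011110011210111111011111111011100000), 9), ((st 1011110111101111111011111111011100000), 9)]) (fuel := 8) (doms_cons n851 (doms_cons n393 (doms_cons n593 (doms_cons n747 (doms_cons n824 (doms_cons n852 doms_nil)))))) (and_l (and_r (and_l (and_r b53))))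
theorem n854 : ¬ TripleMatch 3000000000 (items (st 101110111101111111011111111010000000)) 8 :=
  step (ws := ws) (ts0 := root) h0 (doms := [((st 1110111101111111011111110000000000), 7), ((st 100110111101111111001111111000000000), 7), ((st 101100111101111110011111111000000000), 7), ((st 101110011100111111011111111000000000), 7)]) (fuel := 8) (doms_cons n377 (doms_cons n582 (doms_cons n736 (doms_cons n817 doms_nil)))) (and_l (and_r (and_r (and_l (and_r b53)))))
theorem n855 : ¬ TripleMatch 3000000000 (items (st 111110111101111111011111111111000000)) 9 :=
  step (ws := ws) (ts0 := root) h0 (doms := [((st 11110111101111111011111111100000000), 8), ((st 101110111101111111011111111010000000), 8), ((st 110110111101111111001111111110000000), 8), ((st 111100111101111110011111111110000000), 8), ((st 111110011100111111011111111110000000), 8)]) (fuel := 8) (doms_cons n846 (doms_cons n854 (doms_cons n583 (doms_cons n737 (doms_cons n818 doms_nil))))) (and_l (and_r (and_r (and_r (and_l (and_r b53))))))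
theorem n856 : ¬ TripleMatch 3000000000 (items (st 1011110111101111111011111111110100000)) 9 :=
  step (ws := ws) (ts0 := root) h0 (doms := [((st 11110111101111111011111111100000000), 8), ((st 1001110111101111111011111110110000000), 8), ((st 1010110111101111111001111111110000000), 8), ((st 1011100111101111110011111111110000000), 8), ((st 1011110011100111111011111111110000000), 8)]) (fuel := 8) (doms_cons n846 (doms_cons n403 (doms_cons n614 (doms_cons n771 (doms_cons n841 doms_nil))))) (and_l (and_l (and_r (and_r b53))))
theorem n857 : ¬ TripleMatch 3000000000 (items (st 1111110111101111111011111111111110000)) 10 :=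
  step (ws := ws) (ts0 := root) h0 (doms := [((st 111110111101111111011111111111000000), 9), ((st 1011110111101111111011111111110100000), 9), ((st 1101110111101111111011111110111100000), 9), ((st 1110110111101111111001111111111100000), 9), ((st 1111100111101111110011111111111100000), 9), ((st 1111110011100111111011111111111100000), 9)]) (fuel := 8) (doms_cons n855 (doms_cons n856 (doms_cons n405 (doms_cons n616 (doms_cons n773 (doms_cons n843 doms_nil)))))) (and_l (and_r (and_l (and_r (and_r b53)))))
theorem n858 : ¬ TripleMatch 3000000000 (items (st 1111110111211111111011111111111111000)) 11 :=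
  step (ws := ws) (ts0 := root) h0 (doms := [((st 111110111211111111011111111110110000), 10), ((st 1011110111211111111011111111011110000), 10), ((st 1101110111211111111011111110111110000), 10), ((st 1110110111211111111001111111111110000), 10), ((st 1111100111211111110011111111111110000), 10), ((st 1111110011210111111011111111111110000), 10), ((st 1111110111101111111011111111111110000), 10)]) (fuel := 8) (doms_cons n849 (doms_cons n853 (doms_cons n406 (doms_cons n617 (doms_cons n774 (doms_cons n844 (doms_cons n857 doms_nil))))))) (and_l (and_r (and_r (and_l (and_r (and_r b53))))))
theorem n859 : ¬ TripleMatch 3000000000 (items (st 1111110111321111111011111111111111100)) 12 :=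
  step (ws := ws) (ts0 := root) h0 (doms := [((st 1101110111321111111011111110111111000), 11), ((st 1110110111321111111001111111111111000), 11), ((st 1111100111321111110011111111111111000), 11), ((st 1111110011320111111011111111111111000), 11), ((st 1111110111211111111011111111111111000), 11)]) (fuel := 8) (doms_cons n407 (doms_cons n618 (doms_cons n775 (doms_cons n845 (doms_cons n858 doms_nil))))) (and_l (and_r (and_r (and_r (and_l (and_r (and_r b53)))))))
theorem n860 : ¬ TripleMatch 3000000000 (items (st 11110211102111111011111111100100000)) 9 :=
  step (ws := ws) (ts0 := root) h0 (doms := [((st 1110211102111111011111110100000000), 8), ((st 10110211102111111001111111100000000), 8), ((st 11100211102111110011111111100000000), 8), ((st 11110111101111111011111111100000000), 8)]) (fuel := 8) (doms_cons n408 (doms_cons n619 (doms_cons n776 (doms_cons n846 doms_nil)))) (and_l (and_l (and_r (and_r (and_r b53)))))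
theorem n861 : ¬ TripleMatch 3000000000 (items (st 111110211102111111011111111110110000)) 10 :=
  step (ws := ws) (ts0 := root) h0 (doms := [((st 11110211102111111011111111100100000), 9), ((st 101110211102111111011111110110100000), 9), ((st 110110211102111111001111111110100000), 9), ((st 111100211102111110011111111110100000), 9), ((st 111110111101111111011111111110100000), 9)]) (fuel := 8) (doms_cons n860 (doms_cons n410 (doms_cons n621 (doms_cons n778 (doms_cons n848 doms_nil))))) (and_l (and_r (and_l (and_r (and_r (and_r b53))))))
theorem n862 : ¬ TripleMatch 3000000000 (items (st 11110211102111111011111111011000000)) 9 :=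
  step (ws := ws) (ts0 := root) h0 (doms := [((st 1110211102111111011111110010000000), 8), ((st 10110211102111111001111111010000000), 8), ((st 11100211102111110011111111010000000), 8), ((st 11110111101111111011111111010000000), 8)]) (fuel := 8) (doms_cons n412 (doms_cons n623 (doms_cons n780 (doms_cons n850 doms_nil)))) (and_l (and_r (and_r (and_l (and_r (and_r (and_r b53)))))))
theorem n863 : ¬ TripleMatch 3000000000 (items (st 1011110211102111111011111111011110000)) 10 :=
  step (ws := ws) (ts0 := root) h0 (doms := [((st 11110211102111111011111111011000000), 9), ((st 1001110211102111111011111110011100000), 9), ((st 1010110211102111111001111111011100000), 9), ((st 1011100211102111110011111111011100000), 9), ((st 1011110111101111111011111111011100000), 9)]) (fuel := 8) (doms_cons n862 (doms_cons n414 (doms_cons n625 (doms_cons n782 (doms_cons n852 doms_nil))))) (and_l (and_r (and_r (and_r (and_l (and_r (and_r (and_r b53))))))))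
theorem n864 : ¬ TripleMatch 3000000000 (items (st 1111110211102111111011111111111111000)) 11 :=
  step (ws := ws) (ts0 := root) h0 (doms := [((st 111110211102111111011111111110110000), 10), ((st 1011110211102111111011111111011110000), 10), ((st 1101110211102111111011111110111110000), 10), ((st 1110110211102111111001111111111110000), 10), ((st 1111100211102111110011111111111110000), 10), ((st 1111110111101111111011111111111110000), 10)]) (fuel := 8) (doms_cons n861 (doms_cons n863 (doms_cons n418 (doms_cons n630 (doms_cons n787 (doms_cons n857 doms_nil)))))) (and_l (and_l b54))
theorem n865 : ¬ TripleMatch 3000000000 (items (st 1111110211212111111011111111111111100)) 12 :=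
  step (ws := ws) (ts0 := root) h0 (doms := [((st 1101110211212111111011111110111111000), 11), ((st 1110110211212111111001111111111111000), 11), ((st 1111100211212111110011111111111111000), 11), ((st 1111110111211111111011111111111111000), 11), ((st 1111110211102111111011111111111111000), 11)]) (fuel := 8) (doms_cons n419 (doms_cons n631 (doms_cons n788 (doms_cons n858 (doms_cons n864 doms_nil))))) (and_l (and_r (and_l b54)))
theorem n866 : ¬ TripleMatch 3000000000 (items (st 1111110211322111111011111111111111110)) 13 :=
  step (ws := ws) (ts0 := root) h0 (doms := [((st 1101110211322111111011111110111111100), 12), ((st 1110110211322111111001111111111111100), 12), ((st 1111100211322111110011111111111111100), 12), ((st 1111110111321111111011111111111111100), 12), ((st 1111110211212111111011111111111111100), 12)]) (fuel := 8) (doms_cons n420 (doms_cons n632 (doms_cons n789 (doms_cons n859 (doms_cons n865 doms_nil))))) (and_l (and_r (and_r (and_l b54))))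
theorem n867 : ¬ TripleMatch 3000000000 (items (st 1011100111111101000000000000000)) 4 :=
  step (ws := ws) (ts0 := root) h0 (doms := []) (fuel := 8) doms_nil (and_l (and_r (and_r (and_r (and_l b54)))))
theorem n868 : ¬ TripleMatch 3000000000 (items (st 10011100111111100100000000000000)) 4 :=
  step (ws := ws) (ts0 := root) h0 (doms := []) (fuel := 8) doms_nil (and_l (and_l (and_r b54)))
theorem n869 : ¬ TripleMatch 3000000000 (items (st 11011100111111101110000000000000)) 5 :=
  step (ws := ws) (ts0 := root) h0 (doms := [((st 1011100111111101000000000000000), 4), ((st 10011100111111100100000000000000), 4)]) (fuel := 8) (doms_cons n867 (doms_cons n868 doms_nil)) (and_l (and_r (and_l (and_r b54))))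
theorem n870 : ¬ TripleMatch 3000000000 (items (st 1011100111111100100000000000000)) 4 :=
  step (ws := ws) (ts0 := root) h0 (doms := []) (fuel := 8) doms_nil (and_l (and_r (and_r (and_l (and_r b54)))))
theorem n871 : ¬ TripleMatch 3000000000 (items (st 101011100111111100111000000000000)) 5 :=
  step (ws := ws) (ts0 := root) h0 (doms := [((st 1011100111111100100000000000000), 4), ((st 100011100111111000110000000000000), 4)]) (fuel := 8) (doms_cons n870 (doms_cons n19 doms_nil)) (and_l (and_r (and_r (and_r (and_l (and_r b54))))))
theorem n872 : ¬ TripleMatch 3000000000 (items (st 111011100111111101111100000000000)) 6 :=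
  step (ws := ws) (ts0 := root) h0 (doms := [((st 11011100111111101110000000000000), 5), ((st 101011100111111100111000000000000), 5), ((st 110011100111111001111000000000000), 5)]) (fuel := 8) (doms_cons n869 (doms_cons n871 (doms_cons n22 doms_nil))) (and_l (and_l (and_r (and_r b54))))
theorem n873 : ¬ TripleMatch 3000000000 (items (st 111011210111111101111100100000000)) 7 :=
  step (ws := ws) (ts0 := root) h0 (doms := [((st 110011210111111001111100000000000), 6), ((st 111011100111111101111100000000000), 6)]) (fuel := 8) (doms_cons n23 (doms_cons n872 doms_nil)) (and_l (and_r (and_l (and_r (and_r b54)))))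
theorem n874 : ¬ TripleMatch 3000000000 (items (st 111011320111111101111100110000000)) 8 :=
  step (ws := ws) (ts0 := root) h0 (doms := [((st 110011320111111001111100100000000), 7), ((st 111011210111111101111100100000000), 7)]) (fuel := 8) (doms_cons n24 (doms_cons n873 doms_nil)) (and_l (and_r (and_r (and_l (and_r (and_r b54))))))
theorem n875 : ¬ TripleMatch 3000000000 (items (st 111111101111111101111100100000000)) 7 :=
  step (ws := ws) (ts0 := root) h0 (doms := [((st 110111101111111001111100000000000), 6), ((st 111011100111111101111100000000000), 6)]) (fuel := 8) (doms_cons n29 (doms_cons n872 doms_nil)) (and_l (and_r (and_r (and_r (and_l (and_r (and_r b54)))))))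
theorem n876 : ¬ TripleMatch 3000000000 (items (st 111111211111111101111100110000000)) 8 :=
  step (ws := ws) (ts0 := root) h0 (doms := [((st 110111211111111001111100100000000), 7), ((st 111011210111111101111100100000000), 7), ((st 111111101111111101111100100000000), 7)]) (fuel := 8) (doms_cons n30 (doms_cons n873 (doms_cons n875 doms_nil))) (and_l (and_l (and_r (and_r (and_r b54)))))
theorem n877 : ¬ TripleMatch 3000000000 (items (st 111111321111111101111100110100000)) 9 :=
  step (ws := ws) (ts0 := root) h0 (doms := [((st 110111321111111001111100110000000), 8), ((st 111011320111111101111100110000000), 8), ((st 111111211111111101111100110000000), 8)]) (fuel := 8) (doms_cons n31 (doms_cons n874 (doms_cons n876 doms_nil))) (and_l (and_r (and_l (and_r (and_r (and_r b54))))))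
theorem n878 : ¬ TripleMatch 3000000000 (items (st 1111011100111111111111100100000000)) 7 :=
  step (ws := ws) (ts0 := root) h0 (doms := [((st 111011100111111101111100000000000), 6), ((st 1110011100111111011111100000000000), 6)]) (fuel := 8) (doms_cons n872 (doms_cons n60 doms_nil)) (and_l (and_r (and_r (and_l (and_r (and_r (and_r b54)))))))
theorem n879 : ¬ TripleMatch 3000000000 (items (st 1111011210111111111111100110000000)) 8 :=
  step (ws := ws) (ts0 := root) h0 (doms := [((st 111011210111111101111100100000000), 7), ((st 1110011210111111011111100100000000), 7), ((st 1111011100111111111111100100000000), 7)]) (fuel := 8) (doms_cons n873 (doms_cons n61 (doms_cons n878 doms_nil))) (and_l (and_r (and_r (and_r (and_l (and_r (and_r (and_r b54))))))))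
theorem n880 : ¬ TripleMatch 3000000000 (items (st 1111011320111111111111100110100000)) 9 :=
  step (ws := ws) (ts0 := root) h0 (doms := [((st 111011320111111101111100110000000), 8), ((st 1110011320111111011111100110000000), 8), ((st 1111011210111111111111100110000000), 8)]) (fuel := 8) (doms_cons n874 (doms_cons n62 (doms_cons n879 doms_nil))) (and_l (and_l b55))
theorem n881 : ¬ TripleMatch 3000000000 (items (st 1111111101111111111111100110000000)) 8 :=
  step (ws := ws) (ts0 := root) h0 (doms := [((st 111111101111111101111100100000000), 7), ((st 1110111101111111011111100100000000), 7), ((st 1111011100111111111111100100000000), 7)]) (fuel := 8) (doms_cons n875 (doms_cons n63 (doms_cons n878 doms_nil))) (and_l (and_r (and_l b55)))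
theorem n882 : ¬ TripleMatch 3000000000 (items (st 1111111211111111111111100110100000)) 9 :=
  step (ws := ws) (ts0 := root) h0 (doms := [((st 111111211111111101111100110000000), 8), ((st 1110111211111111011111100110000000), 8), ((st 1111011210111111111111100110000000), 8), ((st 1111111101111111111111100110000000), 8)]) (fuel := 8) (doms_cons n876 (doms_cons n64 (doms_cons n879 (doms_cons n881 doms_nil)))) (and_l (and_r (and_r (and_l b55))))
theorem n883 : ¬ TripleMatch 3000000000 (items (st 1111111321111111111111100110110000)) 10 :=
  step (ws := ws) (ts0 := root) h0 (doms := [((st 111111321111111101111100110100000), 9), ((st 1110111321111111011111100110100000), 9), ((st 1111011320111111111111100110100000), 9), ((st 1111111211111111111111100110100000), 9)]) (fuel := 8) (doms_cons n877 (doms_cons n65 (doms_cons n880 (doms_cons n882 doms_nil)))) (and_l (and_r (and_r (and_r (and_l b55)))))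
theorem n884 : ¬ TripleMatch 3000000000 (items (st 111111321111111101111100111000000)) 9 :=
  step (ws := ws) (ts0 := root) h0 (doms := [((st 110111321111111001111100110000000), 8), ((st 111011320111111101111100110000000), 8), ((st 111111211111111101111100110000000), 8)]) (fuel := 8) (doms_cons n31 (doms_cons n874 (doms_cons n876 doms_nil))) (and_l (and_l (and_r b55)))
theorem n885 : ¬ TripleMatch 3000000000 (items (st 1000111011100111111101111100110000000)) 7 :=
  step (ws := ws) (ts0 := root) h0 (doms := [((st 111011100111111101111100000000000), 6), ((st 1000110011100111111001111100100000000), 6)]) (fuel := 8) (doms_cons n872 (doms_cons n87 doms_nil)) (and_l (and_r (and_l (and_r b55))))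
theorem n886 : ¬ TripleMatch 3000000000 (items (st 1000111011210111111101111100111000000)) 8 :=
  step (ws := ws) (ts0 := root) h0 (doms := [((st 111011210111111101111100100000000), 7), ((st 1000110011210111111001111100110000000), 7), ((st 1000111011100111111101111100110000000), 7)]) (fuel := 8) (doms_cons n873 (doms_cons n88 (doms_cons n885 doms_nil))) (and_l (and_r (and_r (and_l (and_r b55)))))
theorem n887 : ¬ TripleMatch 3000000000 (items (st 1000111011320111111101111100111100000)) 9 :=
  step (ws := ws) (ts0 := root) h0 (doms := [((st 111011320111111101111100110000000), 8), ((st 1000110011320111111001111100111000000), 8), ((st 1000111011210111111101111100111000000), 8)]) (fuel := 8) (doms_cons n874 (doms_cons n89 (doms_cons n886 doms_nil))) (and_l (and_r (and_r (and_r (and_l (and_r b55))))))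
theorem n888 : ¬ TripleMatch 3000000000 (items (st 1000111111101111111101111100111000000)) 8 :=
  step (ws := ws) (ts0 := root) h0 (doms := [((st 111111101111111101111100100000000), 7), ((st 1000110111101111111001111100110000000), 7), ((st 1000111011100111111101111100110000000), 7)]) (fuel := 8) (doms_cons n875 (doms_cons n90 (doms_cons n885 doms_nil))) (and_l (and_l (and_r (and_r b55))))
theorem n889 : ¬ TripleMatch 3000000000 (items (st 1000111111211111111101111100111100000)) 9 :=
  step (ws := ws) (ts0 := root) h0 (doms := [((st 111111211111111101111100110000000), 8), ((st 1000110111211111111001111100111000000), 8), ((st 1000111011210111111101111100111000000), 8), ((st 1000111111101111111101111100111000000), 8)]) (fuel := 8) (doms_cons n876 (doms_cons n91 (doms_cons n886 (doms_cons n888 doms_nil)))) (and_l (and_r (and_l (and_r (and_r b55)))))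
theorem n890 : ¬ TripleMatch 3000000000 (items (st 1000111111321111111101111100111110000)) 10 :=
  step (ws := ws) (ts0 := root) h0 (doms := [((st 111111321111111101111100111000000), 9), ((st 1000110111321111111001111100111100000), 9), ((st 1000111011320111111101111100111100000), 9), ((st 1000111111211111111101111100111100000), 9)]) (fuel := 8) (doms_cons n884 (doms_cons n92 (doms_cons n887 (doms_cons n889 doms_nil)))) (and_l (and_r (and_r (and_l (and_r (and_r b55))))))
theorem n891 : ¬ TripleMatch 3000000000 (items (st 1111011320111111111111100111000000)) 9 :=
  step (ws := ws) (ts0 := root) h0 (doms := [((st 111011320111111101111100110000000), 8), ((st 1110011320111111011111100110000000), 8), ((st 1111011210111111111111100110000000), 8)]) (fuel := 8) (doms_cons n874 (doms_cons n62 (doms_cons n879 doms_nil))) (and_l (and_r (and_r (and_r (and_l (and_r (and_r b55)))))))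
theorem n892 : ¬ TripleMatch 3000000000 (items (st 1001111011100111111111111100111000000)) 8 :=
  step (ws := ws) (ts0 := root) h0 (doms := [((st 1111011100111111111111100100000000), 7), ((st 1000111011100111111101111100110000000), 7), ((st 1001110011100111111011111100110000000), 7)]) (fuel := 8) (doms_cons n878 (doms_cons n885 (doms_cons n116 doms_nil))) (and_l (and_l (and_r (and_r (and_r b55)))))
theorem n893 : ¬ TripleMatch 3000000000 (items (st 1001111011210111111111111100111100000)) 9 :=
  step (ws := ws) (ts0 := root) h0 (doms := [((st 1111011210111111111111100110000000), 8), ((st 1000111011210111111101111100111000000), 8), ((st 1001110011210111111011111100111000000), 8), ((st 1001111011100111111111111100111000000), 8)]) (fuel := 8) (doms_cons n879 (doms_cons n886 (doms_cons n117 (doms_cons n892 doms_nil)))) (and_l (and_r (and_l (and_r (and_r (and_r b55))))))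
theorem n894 : ¬ TripleMatch 3000000000 (items (st 1001111011320111111111111100111110000)) 10 :=
  step (ws := ws) (ts0 := root) h0 (doms := [((st 1111011320111111111111100111000000), 9), ((st 1000111011320111111101111100111100000), 9), ((st 1001110011320111111011111100111100000), 9), ((st 1001111011210111111111111100111100000), 9)]) (fuel := 8) (doms_cons n891 (doms_cons n887 (doms_cons n118 (doms_cons n893 doms_nil)))) (and_l (and_r (and_r (and_l (and_r (and_r (and_r b55)))))))
theorem n895 : ¬ TripleMatch 3000000000 (items (st 1111111211111111111111100111000000)) 9 :=
  step (ws := ws) (ts0 := root) h0 (doms := [((st 111111211111111101111100110000000), 8), ((st 1110111211111111011111100110000000), 8), ((st 1111011210111111111111100110000000), 8), ((st 1111111101111111111111100110000000), 8)]) (fuel := 8) (doms_cons n876 (doms_cons n64 (doms_cons n879 (doms_cons n881 doms_nil)))) (and_l (and_r (and_r (and_r (and_l (and_r (and_r (and_r b55))))))))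
theorem n896 : ¬ TripleMatch 3000000000 (items (st 1001111111101111111111111100111100000)) 9 :=
  step (ws := ws) (ts0 := root) h0 (doms := [((st 1111111101111111111111100110000000), 8), ((st 1000111111101111111101111100111000000), 8), ((st 1001110111101111111011111100111000000), 8), ((st 1001111011100111111111111100111000000), 8)]) (fuel := 8) (doms_cons n881 (doms_cons n888 (doms_cons n119 (doms_cons n892 doms_nil)))) (and_l (and_l b56))
theorem n897 : ¬ TripleMatch 3000000000 (items (st 1001111111211111111111111100111110000)) 10 :=
  step (ws := ws) (ts0 := root) h0 (doms := [((st 1111111211111111111111100111000000), 9), ((st 1000111111211111111101111100111100000), 9), ((st 1001110111211111111011111100111100000), 9), ((st 1001111011210111111111111100111100000), 9), ((st 1001111111101111111111111100111100000), 9)]) (fuel := 8) (doms_cons n895 (doms_cons n889 (doms_cons n120 (doms_cons n893 (doms_cons n896 doms_nil))))) (and_l (and_r (and_l b56)))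
theorem n898 : ¬ TripleMatch 3000000000 (items (st 1001111111321111111111111100111111000)) 11 :=
  step (ws := ws) (ts0 := root) h0 (doms := [((st 1111111321111111111111100110110000), 10), ((st 1000111111321111111101111100111110000), 10), ((st 1001110111321111111011111100111110000), 10), ((st 1001111011320111111111111100111110000), 10), ((st 1001111111211111111111111100111110000), 10)]) (fuel := 8) (doms_cons n883 (doms_cons n890 (doms_cons n121 (doms_cons n894 (doms_cons n897 doms_nil))))) (and_l (and_r (and_r (and_l b56))))
theorem n899 : ¬ TripleMatch 3000000000 (items (st 1011210111111100110000000000000)) 5 :=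
  step (ws := ws) (ts0 := root) h0 (doms := [((st 11210111111000100000000000000), 4), ((st 1011100111111100100000000000000), 4)]) (fuel := 8) (doms_cons n18 (doms_cons n870 doms_nil)) (and_l (and_r (and_r (and_r (and_l b56)))))
theorem n900 : ¬ TripleMatch 3000000000 (items (st 11011210111111101110100000000000)) 6 :=
  step (ws := ws) (ts0 := root) h0 (doms := [((st 1011210111111100110000000000000), 5), ((st 10011210111111001110000000000000), 5), ((st 11011100111111101110000000000000), 5)]) (fuel := 8) (doms_cons n899 (doms_cons n17 (doms_cons n869 doms_nil))) (and_l (and_l (and_r b56)))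
theorem n901 : ¬ TripleMatch 3000000000 (items (st 101011210111111100111100000000000)) 6 :=
  step (ws := ws) (ts0 := root) h0 (doms := [((st 1011210111111100110000000000000), 5), ((st 100011210111111000111000000000000), 5), ((st 101011100111111100111000000000000), 5)]) (fuel := 8) (doms_cons n899 (doms_cons n20 (doms_cons n871 doms_nil))) (and_l (and_r (and_l (and_r b56))))
theorem n902 : ¬ TripleMatch 3000000000 (items (st 111011210111111101111110000000000)) 7 :=
  step (ws := ws) (ts0 := root) h0 (doms := [((st 11011210111111101110100000000000), 6), ((st 101011210111111100111100000000000), 6), ((st 110011210111111001111100000000000), 6), ((st 111011100111111101111100000000000), 6)]) (fuel := 8) (doms_cons n900 (doms_cons n901 (doms_cons n23 (doms_cons n872 doms_nil)))) (and_l (and_r (and_r (and_l (and_r b56)))))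
theorem n903 : ¬ TripleMatch 3000000000 (items (st 111011320111111101111110100000000)) 8 :=
  step (ws := ws) (ts0 := root) h0 (doms := [((st 110011320111111001111110000000000), 7), ((st 111011210111111101111110000000000), 7)]) (fuel := 8) (doms_cons n135 (doms_cons n902 doms_nil)) (and_l (and_r (and_r (and_r (and_l (and_r b56))))))
theorem n904 : ¬ TripleMatch 3000000000 (items (st 1111101111111100110000000000000)) 5 :=
  step (ws := ws) (ts0 := root) h0 (doms := [((st 111101111111000100000000000000), 4), ((st 1011100111111100100000000000000), 4)]) (fuel := 8) (doms_cons n27 (doms_cons n870 doms_nil)) (and_l (and_l (and_r (and_r b56))))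
theorem n905 : ¬ TripleMatch 3000000000 (items (st 11111101111111101110100000000000)) 6 :=
  step (ws := ws) (ts0 := root) h0 (doms := [((st 1111101111111100110000000000000), 5), ((st 10111101111111001110000000000000), 5), ((st 11011100111111101110000000000000), 5)]) (fuel := 8) (doms_cons n904 (doms_cons n26 (doms_cons n869 doms_nil))) (and_l (and_r (and_l (and_r (and_r b56)))))
theorem n906 : ¬ TripleMatch 3000000000 (items (st 101111101111111100111100000000000)) 6 :=
  step (ws := ws) (ts0 := root) h0 (doms := [((st 1111101111111100110000000000000), 5), ((st 100111101111111000111000000000000), 5), ((st 101011100111111100111000000000000), 5)]) (fuel := 8) (doms_cons n904 (doms_cons n28 (doms_cons n871 doms_nil))) (and_l (and_r (and_r (and_l (and_r (and_r b56))))))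
theorem n907 : ¬ TripleMatch 3000000000 (items (st 111111101111111101111110000000000)) 7 :=
  step (ws := ws) (ts0 := root) h0 (doms := [((st 11111101111111101110100000000000), 6), ((st 101111101111111100111100000000000), 6), ((st 110111101111111001111100000000000), 6), ((st 111011100111111101111100000000000), 6)]) (fuel := 8) (doms_cons n905 (doms_cons n906 (doms_cons n29 (doms_cons n872 doms_nil)))) (and_l (and_r (and_r (and_r (and_l (and_r (and_r b56)))))))
theorem n908 : ¬ TripleMatch 3000000000 (items (st 111111211111111101111110100000000)) 8 :=
  step (ws := ws) (ts0 := root) h0 (doms := [((st 110111211111111001111110000000000), 7), ((st 111011210111111101111110000000000), 7), ((st 111111101111111101111110000000000), 7)]) (fuel := 8) (doms_cons n139 (doms_cons n902 (doms_cons n907 doms_nil))) (and_l (and_l (and_r (and_r (and_r b56)))))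
theorem n909 : ¬ TripleMatch 3000000000 (items (st 111111321111111101111110100100000)) 9 :=
  step (ws := ws) (ts0 := root) h0 (doms := [((st 110111321111111001111110100000000), 8), ((st 111011320111111101111110100000000), 8), ((st 111111211111111101111110100000000), 8)]) (fuel := 8) (doms_cons n140 (doms_cons n903 (doms_cons n908 doms_nil))) (and_l (and_r (and_l (and_r (and_r (and_r b56))))))
theorem n910 : ¬ TripleMatch 3000000000 (items (st 100111011100111111101111110100000000)) 7 :=
  step (ws := ws) (ts0 := root) h0 (doms := [((st 111011100111111101111100000000000), 6), ((st 100110011100111111001111110000000000), 6)]) (fuel := 8) (doms_cons n872 (doms_cons n169 doms_nil)) (and_l (and_r (and_r (and_l (and_r (and_r (and_r b56)))))))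
theorem n911 : ¬ TripleMatch 3000000000 (items (st 100111011210111111101111110110000000)) 8 :=
  step (ws := ws) (ts0 := root) h0 (doms := [((st 111011210111111101111110000000000), 7), ((st 100110011210111111001111110100000000), 7), ((st 100111011100111111101111110100000000), 7)]) (fuel := 8) (doms_cons n902 (doms_cons n170 (doms_cons n910 doms_nil))) (and_l (and_r (and_r (and_r (and_l (and_r (and_r (and_r b56))))))))
theorem n912 : ¬ TripleMatch 3000000000 (items (st 100111011320111111101111110110100000)) 9 :=
  step (ws := ws) (ts0 := root) h0 (doms := [((st 111011320111111101111110100000000), 8), ((st 100110011320111111001111110110000000), 8), ((st 100111011210111111101111110110000000), 8)]) (fuel := 8) (doms_cons n903 (doms_cons n171 (doms_cons n911 doms_nil))) (and_l (and_l b57))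
theorem n913 : ¬ TripleMatch 3000000000 (items (st 100111111101111111101111110110000000)) 8 :=
  step (ws := ws) (ts0 := root) h0 (doms := [((st 111111101111111101111110000000000), 7), ((st 100110111101111111001111110100000000), 7), ((st 100111011100111111101111110100000000), 7)]) (fuel := 8) (doms_cons n907 (doms_cons n172 (doms_cons n910 doms_nil))) (and_l (and_r (and_l b57)))
theorem n914 : ¬ TripleMatch 3000000000 (items (st 100111111211111111101111110110100000)) 9 :=
  step (ws := ws) (ts0 := root) h0 (doms := [((st 111111211111111101111110100000000), 8), ((st 100110111211111111001111110110000000), 8), ((st 100111011210111111101111110110000000), 8), ((st 100111111101111111101111110110000000), 8)]) (fuel := 8) (doms_cons n908 (doms_cons n173 (doms_cons n911 (doms_cons n913 doms_nil)))) (and_l (and_r (and_r (and_l b57))))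
theorem n915 : ¬ TripleMatch 3000000000 (items (st 100111111321111111101111110110110000)) 10 :=
  step (ws := ws) (ts0 := root) h0 (doms := [((st 111111321111111101111110100100000), 9), ((st 100110111321111111001111110110100000), 9), ((st 100111011320111111101111110110100000), 9), ((st 100111111211111111101111110110100000), 9)]) (fuel := 8) (doms_cons n909 (doms_cons n174 (doms_cons n912 (doms_cons n914 doms_nil)))) (and_l (and_r (and_r (and_r (and_l b57)))))
theorem n916 : ¬ TripleMatch 3000000000 (items (st 111011320111111101111110010000000)) 8 :=
  step (ws := ws) (ts0 := root) h0 (doms := [((st 110011320111111001111110000000000), 7), ((st 111011210111111101111110000000000), 7)]) (fuel := 8) (doms_cons n135 (doms_cons n902 doms_nil)) (and_l (and_l (and_r b57)))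
theorem n917 : ¬ TripleMatch 3000000000 (items (st 111111211111111101111110010000000)) 8 :=
  step (ws := ws) (ts0 := root) h0 (doms := [((st 110111211111111001111110000000000), 7), ((st 111011210111111101111110000000000), 7), ((st 111111101111111101111110000000000), 7)]) (fuel := 8) (doms_cons n139 (doms_cons n902 (doms_cons n907 doms_nil))) (and_l (and_r (and_l (and_r b57))))
theorem n918 : ¬ TripleMatch 3000000000 (items (st 111111321111111101111110011000000)) 9 :=
  step (ws := ws) (ts0 := root) h0 (doms := [((st 110111321111111001111110010000000), 8), ((st 111011320111111101111110010000000), 8), ((st 111111211111111101111110010000000), 8)]) (fuel := 8) (doms_cons n179 (doms_cons n916 (doms_cons n917 doms_nil))) (and_l (and_r (and_r (and_l (and_r b57)))))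
theorem n919 : ¬ TripleMatch 3000000000 (items (st 1000111011100111111101111110010000000)) 7 :=
  step (ws := ws) (ts0 := root) h0 (doms := [((st 111011100111111101111100000000000), 6), ((st 1000110011100111111001111110000000000), 6)]) (fuel := 8) (doms_cons n872 (doms_cons n201 doms_nil)) (and_l (and_r (and_r (and_r (and_l (and_r b57))))))
theorem n920 : ¬ TripleMatch 3000000000 (items (st 1000111011210111111101111110011000000)) 8 :=
  step (ws := ws) (ts0 := root) h0 (doms := [((st 111011210111111101111110000000000), 7), ((st 1000110011210111111001111110010000000), 7), ((st 1000111011100111111101111110010000000), 7)]) (fuel := 8) (doms_cons n902 (doms_cons n202 (doms_cons n919 doms_nil))) (and_l (and_l (and_r (and_r b57))))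
theorem n921 : ¬ TripleMatch 3000000000 (items (st 1000111011320111111101111110011100000)) 9 :=
  step (ws := ws) (ts0 := root) h0 (doms := [((st 111011320111111101111110010000000), 8), ((st 1000110011320111111001111110011000000), 8), ((st 1000111011210111111101111110011000000), 8)]) (fuel := 8) (doms_cons n916 (doms_cons n203 (doms_cons n920 doms_nil))) (and_l (and_r (and_l (and_r (and_r b57)))))
theorem n922 : ¬ TripleMatch 3000000000 (items (st 1000111111101111111101111110011000000)) 8 :=
  step (ws := ws) (ts0 := root) h0 (doms := [((st 111111101111111101111110000000000), 7), ((st 1000110111101111111001111110010000000), 7), ((st 1000111011100111111101111110010000000), 7)]) (fuel := 8) (doms_cons n907 (doms_cons n204 (doms_cons n919 doms_nil))) (and_l (and_r (and_r (and_l (and_r (and_r b57))))))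
theorem n923 : ¬ TripleMatch 3000000000 (items (st 1000111111211111111101111110011100000)) 9 :=
  step (ws := ws) (ts0 := root) h0 (doms := [((st 111111211111111101111110010000000), 8), ((st 1000110111211111111001111110011000000), 8), ((st 1000111011210111111101111110011000000), 8), ((st 1000111111101111111101111110011000000), 8)]) (fuel := 8) (doms_cons n917 (doms_cons n205 (doms_cons n920 (doms_cons n922 doms_nil)))) (and_l (and_r (and_r (and_r (and_l (and_r (and_r b57)))))))
theorem n924 : ¬ TripleMatch 3000000000 (items (st 1000111111321111111101111110011110000)) 10 :=
  step (ws := ws) (ts0 := root) h0 (doms := [((st 111111321111111101111110011000000), 9), ((st 1000110111321111111001111110011100000), 9), ((st 1000111011320111111101111110011100000), 9), ((st 1000111111211111111101111110011100000), 9)]) (fuel := 8) (doms_cons n918 (doms_cons n206 (doms_cons n921 (doms_cons n923 doms_nil)))) (and_l (and_l (and_r (and_r (and_r b57)))))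
theorem n925 : ¬ TripleMatch 3000000000 (items (st 100111011320111111101111110111000000)) 9 :=
  step (ws := ws) (ts0 := root) h0 (doms := [((st 111011320111111101111110100000000), 8), ((st 100110011320111111001111110110000000), 8), ((st 100111011210111111101111110110000000), 8)]) (fuel := 8) (doms_cons n903 (doms_cons n171 (doms_cons n911 doms_nil))) (and_l (and_r (and_l (and_r (and_r (and_r b57))))))
theorem n926 : ¬ TripleMatch 3000000000 (items (st 1000111011100111111101111110100000000)) 7 :=
  step (ws := ws) (ts0 := root) h0 (doms := [((st 111011100111111101111100000000000), 6), ((st 1000110011100111111001111110000000000), 6)]) (fuel := 8) (doms_cons n872 (doms_cons n201 doms_nil)) (and_l (and_r (and_r (and_l (and_r (and_r (and_r b57)))))))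
theorem n927 : ¬ TripleMatch 3000000000 (items (st 1000111011210111111101111110110000000)) 8 :=
  step (ws := ws) (ts0 := root) h0 (doms := [((st 111011210111111101111110000000000), 7), ((st 1000110011210111111001111110100000000), 7), ((st 1000111011100111111101111110100000000), 7)]) (fuel := 8) (doms_cons n902 (doms_cons n239 (doms_cons n926 doms_nil))) (and_l (and_r (and_r (and_r (and_l (and_r (and_r (and_r b57))))))))
theorem n928 : ¬ TripleMatch 3000000000 (items (st 1000111011320111111101111110110100000)) 9 :=
  step (ws := ws) (ts0 := root) h0 (doms := [((st 111011320111111101111110100000000), 8), ((st 1000110011320111111001111110110000000), 8), ((st 1000111011210111111101111110110000000), 8)]) (fuel := 8) (doms_cons n903 (doms_cons n240 (doms_cons n927 doms_nil))) (and_l (and_l b58))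
theorem n929 : ¬ TripleMatch 3000000000 (items (st 1100111011100111111101111110111000000)) 8 :=
  step (ws := ws) (ts0 := root) h0 (doms := [((st 1000111011100111111101111110100000000), 7), ((st 1100110011100111111001111110110000000), 7)]) (fuel := 8) (doms_cons n926 (doms_cons n244 doms_nil)) (and_l (and_r (and_l b58)))
theorem n930 : ¬ TripleMatch 3000000000 (items (st 1100111011210111111101111110111100000)) 9 :=
  step (ws := ws) (ts0 := root) h0 (doms := [((st 1000111011210111111101111110110000000), 8), ((st 1100110011210111111001111110111000000), 8), ((st 1100111011100111111101111110111000000), 8)]) (fuel := 8) (doms_cons n927 (doms_cons n245 (doms_cons n929 doms_nil))) (and_l (and_r (and_r (and_l b58))))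
theorem n931 : ¬ TripleMatch 3000000000 (items (st 1100111011320111111101111110111110000)) 10 :=
  step (ws := ws) (ts0 := root) h0 (doms := [((st 100111011320111111101111110111000000), 9), ((st 1000111011320111111101111110110100000), 9), ((st 1100110011320111111001111110111100000), 9), ((st 1100111011210111111101111110111100000), 9)]) (fuel := 8) (doms_cons n925 (doms_cons n928 (doms_cons n246 (doms_cons n930 doms_nil)))) (and_l (and_r (and_r (and_r (and_l b58)))))
theorem n932 : ¬ TripleMatch 3000000000 (items (st 100111111211111111101111110111000000)) 9 :=
  step (ws := ws) (ts0 := root) h0 (doms := [((st 111111211111111101111110100000000), 8), ((st 100110111211111111001111110110000000), 8), ((st 100111011210111111101111110110000000), 8), ((st 100111111101111111101111110110000000), 8)]) (fuel := 8) (doms_cons n908 (doms_cons n173 (doms_cons n911 (doms_cons n913 doms_nil)))) (and_l (and_l (and_r b58)))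
theorem n933 : ¬ TripleMatch 3000000000 (items (st 1000111111101111111101111110110000000)) 8 :=
  step (ws := ws) (ts0 := root) h0 (doms := [((st 111111101111111101111110000000000), 7), ((st 1000110111101111111001111110100000000), 7), ((st 1000111011100111111101111110100000000), 7)]) (fuel := 8) (doms_cons n907 (doms_cons n241 (doms_cons n926 doms_nil))) (and_l (and_r (and_l (and_r b58))))
theorem n934 : ¬ TripleMatch 3000000000 (items (st 1000111111211111111101111110110100000)) 9 :=
  step (ws := ws) (ts0 := root) h0 (doms := [((st 111111211111111101111110100000000), 8), ((st 1000110111211111111001111110110000000), 8), ((st 1000111011210111111101111110110000000), 8), ((st 1000111111101111111101111110110000000), 8)]) (fuel := 8) (doms_cons n908 (doms_cons n242 (doms_cons n927 (doms_cons n933 doms_nil)))) (and_l (and_r (and_r (and_l (and_r b58)))))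
theorem n935 : ¬ TripleMatch 3000000000 (items (st 1100111111101111111101111110111100000)) 9 :=
  step (ws := ws) (ts0 := root) h0 (doms := [((st 1000111111101111111101111110110000000), 8), ((st 1100110111101111111001111110111000000), 8), ((st 1100111011100111111101111110111000000), 8)]) (fuel := 8) (doms_cons n933 (doms_cons n247 (doms_cons n929 doms_nil))) (and_l (and_r (and_r (and_r (and_l (and_r b58))))))
theorem n936 : ¬ TripleMatch 3000000000 (items (st 1100111111211111111101111110111110000)) 10 :=
  step (ws := ws) (ts0 := root) h0 (doms := [((st 100111111211111111101111110111000000), 9), ((st 1000111111211111111101111110110100000), 9), ((st 1100110111211111111001111110111100000), 9), ((st 1100111011210111111101111110111100000), 9), ((st 1100111111101111111101111110111100000), 9)]) (fuel := 8) (doms_cons n932 (doms_cons n934 (doms_cons n248 (doms_cons n930 (doms_cons n935 doms_nil))))) (and_l (and_l (and_r (and_r b58))))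
theorem n937 : ¬ TripleMatch 3000000000 (items (st 1100111111321111111101111110111111000)) 11 :=
  step (ws := ws) (ts0 := root) h0 (doms := [((st 100111111321111111101111110110110000), 10), ((st 1000111111321111111101111110011110000), 10), ((st 1100110111321111111001111110111110000), 10), ((st 1100111011320111111101111110111110000), 10), ((st 1100111111211111111101111110111110000), 10)]) (fuel := 8) (doms_cons n915 (doms_cons n924 (doms_cons n249 (doms_cons n931 (doms_cons n936 doms_nil))))) (and_l (and_r (and_l (and_r (and_r b58)))))
theorem n938 : ¬ TripleMatch 3000000000 (items (st 10011100111111110000000000000000)) 4 :=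
  step (ws := ws) (ts0 := root) h0 (doms := []) (fuel := 8) doms_nil (and_l (and_r (and_r (and_l (and_r (and_r b58))))))
theorem n939 : ¬ TripleMatch 3000000000 (items (st 11011100111111111100000000000000)) 5 :=
  step (ws := ws) (ts0 := root) h0 (doms := [((st 10011100111111110000000000000000), 4)]) (fuel := 8) (doms_cons n938 doms_nil) (and_l (and_r (and_r (and_r (and_l (and_r (and_r b58)))))))
theorem n940 : ¬ TripleMatch 3000000000 (items (st 100011100111111110000000000000000)) 4 :=
  step (ws := ws) (ts0 := root) h0 (doms := []) (fuel := 8) doms_nil (and_l (and_l (and_r (and_r (and_r b58)))))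
theorem n941 : ¬ TripleMatch 3000000000 (items (st 101011100111111111010000000000000)) 5 :=
  step (ws := ws) (ts0 := root) h0 (doms := [((st 100011100111111110000000000000000), 4)]) (fuel := 8) (doms_cons n940 doms_nil) (and_l (and_r (and_l (and_r (and_r (and_r b58))))))
theorem n942 : ¬ TripleMatch 3000000000 (items (st 110011100111111110110000000000000)) 5 :=
  step (ws := ws) (ts0 := root) h0 (doms := [((st 100011100111111110000000000000000), 4)]) (fuel := 8) (doms_cons n940 doms_nil) (and_l (and_r (and_r (and_l (and_r (and_r (and_r b58)))))))
theorem n943 : ¬ TripleMatch 3000000000 (items (st 111011100111111111111000000000000)) 6 :=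
  step (ws := ws) (ts0 := root) h0 (doms := [((st 11011100111111111100000000000000), 5), ((st 101011100111111111010000000000000), 5), ((st 110011100111111110110000000000000), 5)]) (fuel := 8) (doms_cons n939 (doms_cons n941 (doms_cons n942 doms_nil))) (and_l (and_r (and_r (and_r (and_l (and_r (and_r (and_r b58))))))))
theorem n944 : ¬ TripleMatch 3000000000 (items (st 1011100111111110000000000000000)) 4 :=
  step (ws := ws) (ts0 := root) h0 (doms := []) (fuel := 8) doms_nil (and_l (and_l b59))
theorem n945 : ¬ TripleMatch 3000000000 (items (st 1000011100111111100100000000000000)) 4 :=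
  step (ws := ws) (ts0 := root) h0 (doms := []) (fuel := 8) doms_nil (and_l (and_r (and_l b59)))
theorem n946 : ¬ TripleMatch 3000000000 (items (st 1001011100111111110110000000000000)) 5 :=
  step (ws := ws) (ts0 := root) h0 (doms := [((st 1011100111111110000000000000000), 4), ((st 1000011100111111100100000000000000), 4)]) (fuel := 8) (doms_cons n944 (doms_cons n945 doms_nil)) (and_l (and_r (and_r (and_l b59))))
theorem n947 : ¬ TripleMatch 3000000000 (items (st 1000011100111111101000000000000000)) 4 :=
  step (ws := ws) (ts0 := root) h0 (doms := []) (fuel := 8) doms_nil (and_l (and_r (and_r (and_r (and_l b59)))))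
theorem n948 : ¬ TripleMatch 3000000000 (items (st 1010011100111111101110000000000000)) 5 :=
  step (ws := ws) (ts0 := root) h0 (doms := [((st 1000011100111111101000000000000000), 4)]) (fuel := 8) (doms_cons n947 doms_nil) (and_l (and_l (and_r b59)))
theorem n949 : ¬ TripleMatch 3000000000 (items (st 1011011100111111111110100000000000)) 6 :=
  step (ws := ws) (ts0 := root) h0 (doms := [((st 11011100111111111100000000000000), 5), ((st 1001011100111111110110000000000000), 5), ((st 1010011100111111101110000000000000), 5)]) (fuel := 8) (doms_cons n939 (doms_cons n946 (doms_cons n948 doms_nil))) (and_l (and_r (and_l (and_r b59))))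
theorem n950 : ¬ TripleMatch 3000000000 (items (st 1100011100111111100111000000000000)) 5 :=
  step (ws := ws) (ts0 := root) h0 (doms := [((st 1000011100111111100100000000000000), 4)]) (fuel := 8) (doms_cons n945 doms_nil) (and_l (and_r (and_r (and_l (and_r b59)))))
theorem n951 : ¬ TripleMatch 3000000000 (items (st 1101011100111111110111100000000000)) 6 :=
  step (ws := ws) (ts0 := root) h0 (doms := [((st 1001011100111111110110000000000000), 5), ((st 1100011100111111100111000000000000), 5)]) (fuel := 8) (doms_cons n946 (doms_cons n950 doms_nil)) (and_l (and_r (and_r (and_r (and_l (and_r b59))))))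
theorem n952 : ¬ TripleMatch 3000000000 (items (st 1110011100111111101111100000000000)) 6 :=
  step (ws := ws) (ts0 := root) h0 (doms := [((st 1010011100111111101110000000000000), 5), ((st 1100011100111111100111000000000000), 5)]) (fuel := 8) (doms_cons n948 (doms_cons n950 doms_nil)) (and_l (and_l (and_r (and_r b59))))
theorem n953 : ¬ TripleMatch 3000000000 (items (st 1111011100111111111111110000000000)) 7 :=
  step (ws := ws) (ts0 := root) h0 (doms := [((st 111011100111111111111000000000000), 6), ((st 1011011100111111111110100000000000), 6), ((st 1101011100111111110111100000000000), 6), ((st 1110011100111111101111100000000000), 6)]) (fuel := 8) (doms_cons n943 (doms_cons n949 (doms_cons n951 (doms_cons n952 doms_nil)))) (and_l (and_r (and_l (and_r (and_r b59)))))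
theorem n954 : ¬ TripleMatch 3000000000 (items (st 1111011210111111111111110100000000)) 8 :=
  step (ws := ws) (ts0 := root) h0 (doms := [((st 111011210111111101111110000000000), 7), ((st 1110011210111111011111110000000000), 7), ((st 1111011100111111111111110000000000), 7)]) (fuel := 8) (doms_cons n902 (doms_cons n368 (doms_cons n953 doms_nil))) (and_l (and_r (and_r (and_l (and_r (and_r b59))))))
theorem n955 : ¬ TripleMatch 3000000000 (items (st 1111011320111111111111110100100000)) 9 :=
  step (ws := ws) (ts0 := root) h0 (doms := [((st 111011320111111101111110100000000), 8), ((st 1110011320111111011111110100000000), 8), ((st 1111011210111111111111110100000000), 8)]) (fuel := 8) (doms_cons n903 (doms_cons n369 (doms_cons n954 doms_nil))) (and_l (and_r (and_r (and_r (and_l (and_r (and_r b59)))))))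
theorem n956 : ¬ TripleMatch 3000000000 (items (st 101111011100111111111111110110000000)) 8 :=
  step (ws := ws) (ts0 := root) h0 (doms := [((st 1111011100111111111111110000000000), 7), ((st 100111011100111111101111110100000000), 7), ((st 101110011100111111011111110100000000), 7)]) (fuel := 8) (doms_cons n953 (doms_cons n910 (doms_cons n380 doms_nil))) (and_l (and_l (and_r (and_r (and_r b59)))))
theorem n957 : ¬ TripleMatch 3000000000 (items (st 101111011210111111111111110110100000)) 9 :=
  step (ws := ws) (ts0 := root) h0 (doms := [((st 1111011210111111111111110100000000), 8), ((st 100111011210111111101111110110000000), 8), ((st 101110011210111111011111110110000000), 8), ((st 101111011100111111111111110110000000), 8)]) (fuel := 8) (doms_cons n954 (doms_cons n911 (doms_cons n381 (doms_cons n956 doms_nil)))) (and_l (and_r (and_l (and_r (and_r (and_r b59))))))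
theorem n958 : ¬ TripleMatch 3000000000 (items (st 101111011320111111111111110110110000)) 10 :=
  step (ws := ws) (ts0 := root) h0 (doms := [((st 1111011320111111111111110100100000), 9), ((st 100111011320111111101111110110100000), 9), ((st 101110011320111111011111110110100000), 9), ((st 101111011210111111111111110110100000), 9)]) (fuel := 8) (doms_cons n955 (doms_cons n912 (doms_cons n382 (doms_cons n957 doms_nil)))) (and_l (and_r (and_r (and_l (and_r (and_r (and_r b59)))))))
theorem n959 : ¬ TripleMatch 3000000000 (items (st 1111011210111111111111110010000000)) 8 :=
  step (ws := ws) (ts0 := root) h0 (doms := [((st 111011210111111101111110000000000), 7), ((st 1110011210111111011111110000000000), 7), ((st 1111011100111111111111110000000000), 7)]) (fuel := 8) (doms_cons n902 (doms_cons n368 (doms_cons n953 doms_nil))) (and_l (and_r (and_r (and_r (and_l (and_r (and_r (and_r b59))))))))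
theorem n960 : ¬ TripleMatch 3000000000 (items (st 1111011320111111111111110011000000)) 9 :=
  step (ws := ws) (ts0 := root) h0 (doms := [((st 111011320111111101111110010000000), 8), ((st 1110011320111111011111110010000000), 8), ((st 1111011210111111111111110010000000), 8)]) (fuel := 8) (doms_cons n916 (doms_cons n386 (doms_cons n959 doms_nil))) (and_l (and_l b60))
theorem n961 : ¬ TripleMatch 3000000000 (items (st 1001111011100111111111111110011000000)) 8 :=
  step (ws := ws) (ts0 := root) h0 (doms := [((st 1111011100111111111111110000000000), 7), ((st 1000111011100111111101111110010000000), 7), ((st 1001110011100111111011111110010000000), 7)]) (fuel := 8) (doms_cons n953 (doms_cons n919 (doms_cons n389 doms_nil))) (and_l (and_r (and_l b60)))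
theorem n962 : ¬ TripleMatch 3000000000 (items (st 1001111011210111111111111110011100000)) 9 :=
  step (ws := ws) (ts0 := root) h0 (doms := [((st 1111011210111111111111110010000000), 8), ((st 1000111011210111111101111110011000000), 8), ((st 1001110011210111111011111110011000000), 8), ((st 1001111011100111111111111110011000000), 8)]) (fuel := 8) (doms_cons n959 (doms_cons n920 (doms_cons n390 (doms_cons n961 doms_nil)))) (and_l (and_r (and_r (and_l b60))))
theorem n963 : ¬ TripleMatch 3000000000 (items (st 1001111011320111111111111110011110000)) 10 :=
  step (ws := ws) (ts0 := root) h0 (doms := [((st 1111011320111111111111110011000000), 9), ((st 1000111011320111111101111110011100000), 9), ((st 1001110011320111111011111110011100000), 9), ((st 1001111011210111111111111110011100000), 9)]) (fuel := 8) (doms_cons n960 (doms_cons n921 (doms_cons n391 (doms_cons n962 doms_nil)))) (and_l (and_r (and_r (and_r (and_l b60)))))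
theorem n964 : ¬ TripleMatch 3000000000 (items (st 101111011210111111111111110111000000)) 9 :=
  step (ws := ws) (ts0 := root) h0 (doms := [((st 1111011210111111111111110100000000), 8), ((st 100111011210111111101111110110000000), 8), ((st 101110011210111111011111110110000000), 8), ((st 101111011100111111111111110110000000), 8)]) (fuel := 8) (doms_cons n954 (doms_cons n911 (doms_cons n381 (doms_cons n956 doms_nil)))) (and_l (and_l (and_r b60)))
theorem n965 : ¬ TripleMatch 3000000000 (items (st 1001111011100111111111111110110000000)) 8 :=
  step (ws := ws) (ts0 := root) h0 (doms := [((st 1111011100111111111111110000000000), 7), ((st 1000111011100111111101111110100000000), 7), ((st 1001110011100111111011111110100000000), 7)]) (fuel := 8) (doms_cons n953 (doms_cons n926 (doms_cons n396 doms_nil))) (and_l (and_r (and_l (and_r b60))))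
theorem n966 : ¬ TripleMatch 3000000000 (items (st 1001111011210111111111111110110100000)) 9 :=
  step (ws := ws) (ts0 := root) h0 (doms := [((st 1111011210111111111111110100000000), 8), ((st 1000111011210111111101111110110000000), 8), ((st 1001110011210111111011111110110000000), 8), ((st 1001111011100111111111111110110000000), 8)]) (fuel := 8) (doms_cons n954 (doms_cons n927 (doms_cons n397 (doms_cons n965 doms_nil)))) (and_l (and_r (and_r (and_l (and_r b60)))))
theorem n967 : ¬ TripleMatch 3000000000 (items (st 1101111011100111111111111110111100000)) 9 :=
  step (ws := ws) (ts0 := root) h0 (doms := [((st 1001111011100111111111111110110000000), 8), ((st 1100111011100111111101111110111000000), 8), ((st 1101110011100111111011111110111000000), 8)]) (fuel := 8) (doms_cons n965 (doms_cons n929 (doms_cons n399 doms_nil))) (and_l (and_r (and_r (and_r (and_l (and_r b60))))))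
theorem n968 : ¬ TripleMatch 3000000000 (items (st 1101111011210111111111111110111110000)) 10 :=
  step (ws := ws) (ts0 := root) h0 (doms := [((st 101111011210111111111111110111000000), 9), ((st 1001111011210111111111111110110100000), 9), ((st 1100111011210111111101111110111100000), 9), ((st 1101110011210111111011111110111100000), 9), ((st 1101111011100111111111111110111100000), 9)]) (fuel := 8) (doms_cons n964 (doms_cons n966 (doms_cons n930 (doms_cons n400 (doms_cons n967 doms_nil))))) (and_l (and_l (and_r (and_r b60))))
theorem n969 : ¬ TripleMatch 3000000000 (items (st 1101111011320111111111111110111111000)) 11 :=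
  step (ws := ws) (ts0 := root) h0 (doms := [((st 101111011320111111111111110110110000), 10), ((st 1001111011320111111111111110011110000), 10), ((st 1100111011320111111101111110111110000), 10), ((st 1101110011320111111011111110111110000), 10), ((st 1101111011210111111111111110111110000), 10)]) (fuel := 8) (doms_cons n958 (doms_cons n963 (doms_cons n931 (doms_cons n401 (doms_cons n968 doms_nil))))) (and_l (and_r (and_l (and_r (and_r b60)))))
theorem n970 : ¬ TripleMatch 3000000000 (items (st 1111111101111111111111110100000000)) 8 :=
  step (ws := ws) (ts0 := root) h0 (doms := [((st 111111101111111101111110000000000), 7), ((st 1110111101111111011111110000000000), 7), ((st 1111011100111111111111110000000000), 7)]) (fuel := 8) (doms_cons n907 (doms_cons n377 (doms_cons n953 doms_nil))) (and_l (and_r (and_r (and_l (and_r (and_r b60))))))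
theorem n971 : ¬ TripleMatch 3000000000 (items (st 1111111211111111111111110100100000)) 9 :=
  step (ws := ws) (ts0 := root) h0 (doms := [((st 111111211111111101111110100000000), 8), ((st 1110111211111111011111110100000000), 8), ((st 1111011210111111111111110100000000), 8), ((st 1111111101111111111111110100000000), 8)]) (fuel := 8) (doms_cons n908 (doms_cons n378 (doms_cons n954 (doms_cons n970 doms_nil)))) (and_l (and_r (and_r (and_r (and_l (and_r (and_r b60)))))))
theorem n972 : ¬ TripleMatch 3000000000 (items (st 101111111101111111111111110110100000)) 9 :=
  step (ws := ws) (ts0 := root) h0 (doms := [((st 1111111101111111111111110100000000), 8), ((st 100111111101111111101111110110000000), 8), ((st 101110111101111111011111110110000000), 8), ((st 101111011100111111111111110110000000), 8)]) (fuel := 8) (doms_cons n970 (doms_cons n913 (doms_cons n383 (doms_cons n956 doms_nil)))) (and_l (and_l (and_r (and_r (and_r b60)))))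
theorem n973 : ¬ TripleMatch 3000000000 (items (st 101111111211111111111111110110110000)) 10 :=
  step (ws := ws) (ts0 := root) h0 (doms := [((st 1111111211111111111111110100100000), 9), ((st 100111111211111111101111110110100000), 9), ((st 101110111211111111011111110110100000), 9), ((st 101111011210111111111111110110100000), 9), ((st 101111111101111111111111110110100000), 9)]) (fuel := 8) (doms_cons n971 (doms_cons n914 (doms_cons n384 (doms_cons n957 (doms_cons n972 doms_nil))))) (and_l (and_r (and_l (and_r (and_r (and_r b60))))))
theorem n974 : ¬ TripleMatch 3000000000 (items (st 1111111101111111111111110010000000)) 8 :=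
  step (ws := ws) (ts0 := root) h0 (doms := [((st 111111101111111101111110000000000), 7), ((st 1110111101111111011111110000000000), 7), ((st 1111011100111111111111110000000000), 7)]) (fuel := 8) (doms_cons n907 (doms_cons n377 (doms_cons n953 doms_nil))) (and_l (and_r (and_r (and_l (and_r (and_r (and_r b60)))))))
theorem n975 : ¬ TripleMatch 3000000000 (items (st 1111111211111111111111110011000000)) 9 :=
  step (ws := ws) (ts0 := root) h0 (doms := [((st 111111211111111101111110010000000), 8), ((st 1110111211111111011111110010000000), 8), ((st 1111011210111111111111110010000000), 8), ((st 1111111101111111111111110010000000), 8)]) (fuel := 8) (doms_cons n917 (doms_cons n387 (doms_cons n959 (doms_cons n974 doms_nil)))) (and_l (and_r (and_r (and_r (and_l (and_r (and_r (and_r b60))))))))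
theorem n976 : ¬ TripleMatch 3000000000 (items (st 1001111111101111111111111110011100000)) 9 :=
  step (ws := ws) (ts0 := root) h0 (doms := [((st 1111111101111111111111110010000000), 8), ((st 1000111111101111111101111110011000000), 8), ((st 1001110111101111111011111110011000000), 8), ((st 1001111011100111111111111110011000000), 8)]) (fuel := 8) (doms_cons n974 (doms_cons n922 (doms_cons n392 (doms_cons n961 doms_nil)))) (and_l (and_l b61))
theorem n977 : ¬ TripleMatch 3000000000 (items (st 1001111111211111111111111110011110000)) 10 :=
  step (ws := ws) (ts0 := root) h0 (doms := [((st 1111111211111111111111110011000000), 9), ((st 1000111111211111111101111110011100000), 9), ((st 1001110111211111111011111110011100000), 9), ((st 1001111011210111111111111110011100000), 9), ((st 1001111111101111111111111110011100000), 9)]) (fuel := 8) (doms_cons n975 (doms_cons n923 (doms_cons n393 (doms_cons n962 (doms_cons n976 doms_nil))))) (and_l (and_r (and_l b61)))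
theorem n978 : ¬ TripleMatch 3000000000 (items (st 101111111101111111111111110111000000)) 9 :=
  step (ws := ws) (ts0 := root) h0 (doms := [((st 1111111101111111111111110100000000), 8), ((st 100111111101111111101111110110000000), 8), ((st 101110111101111111011111110110000000), 8), ((st 101111011100111111111111110110000000), 8)]) (fuel := 8) (doms_cons n970 (doms_cons n913 (doms_cons n383 (doms_cons n956 doms_nil)))) (and_l (and_r (and_r (and_l b61))))
theorem n979 : ¬ TripleMatch 3000000000 (items (st 1001111111101111111111111110110100000)) 9 :=
  step (ws := ws) (ts0 := root) h0 (doms := [((st 1111111101111111111111110100000000), 8), ((st 1000111111101111111101111110110000000), 8), ((st 1001110111101111111011111110110000000), 8), ((st 1001111011100111111111111110110000000), 8)]) (fuel := 8) (doms_cons n970 (doms_cons n933 (doms_cons n403 (doms_cons n965 doms_nil)))) (and_l (and_r (and_r (and_r (and_l b61)))))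
theorem n980 : ¬ TripleMatch 3000000000 (items (st 1101111111101111111111111110111110000)) 10 :=
  step (ws := ws) (ts0 := root) h0 (doms := [((st 101111111101111111111111110111000000), 9), ((st 1001111111101111111111111110110100000), 9), ((st 1100111111101111111101111110111100000), 9), ((st 1101110111101111111011111110111100000), 9), ((st 1101111011100111111111111110111100000), 9)]) (fuel := 8) (doms_cons n978 (doms_cons n979 (doms_cons n935 (doms_cons n405 (doms_cons n967 doms_nil))))) (and_l (and_l (and_r b61)))
theorem n981 : ¬ TripleMatch 3000000000 (items (st 1101111111211111111111111110111111000)) 11 :=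
  step (ws := ws) (ts0 := root) h0 (doms := [((st 101111111211111111111111110110110000), 10), ((st 1001111111211111111111111110011110000), 10), ((st 1100111111211111111101111110111110000), 10), ((st 1101110111211111111011111110111110000), 10), ((st 1101111011210111111111111110111110000), 10), ((st 1101111111101111111111111110111110000), 10)]) (fuel := 8) (doms_cons n973 (doms_cons n977 (doms_cons n936 (doms_cons n406 (doms_cons n968 (doms_cons n980 doms_nil)))))) (and_l (and_r (and_l (and_r b61))))
theorem n982 : ¬ TripleMatch 3000000000 (items (st 1101111111321111111111111110111111100)) 12 :=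
  step (ws := ws) (ts0 := root) h0 (doms := [((st 1001111111321111111111111100111111000), 11), ((st 1100111111321111111101111110111111000), 11), ((st 1101110111321111111011111110111111000), 11), ((st 1101111011320111111111111110111111000), 11), ((st 1101111111211111111111111110111111000), 11)]) (fuel := 8) (doms_cons n898 (doms_cons n937 (doms_cons n407 (doms_cons n969 (doms_cons n981 doms_nil))))) (and_l (and_r (and_r (and_l (and_r b61)))))
theorem n983 : ¬ TripleMatch 3000000000 (items (st 11011100111111101101000000000000)) 5 :=
  step (ws := ws) (ts0 := root) h0 (doms := [((st 1011100111111101000000000000000), 4), ((st 10011100111111100100000000000000), 4)]) (fuel := 8) (doms_cons n867 (doms_cons n868 doms_nil)) (and_l (and_r (and_r (and_r (and_l (and_r b61))))))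
theorem n984 : ¬ TripleMatch 3000000000 (items (st 10001011100111111100101100000000000)) 5 :=
  step (ws := ws) (ts0 := root) h0 (doms := [((st 1011100111111100100000000000000), 4), ((st 10000011100111111000101000000000000), 4)]) (fuel := 8) (doms_cons n870 (doms_cons n556 doms_nil)) (and_l (and_l (and_r (and_r b61))))
theorem n985 : ¬ TripleMatch 3000000000 (items (st 10011011100111111101101110000000000)) 6 :=
  step (ws := ws) (ts0 := root) h0 (doms := [((st 11011100111111101101000000000000), 5), ((st 10001011100111111100101100000000000), 5), ((st 10010011100111111001101100000000000), 5)]) (fuel := 8) (doms_cons n983 (doms_cons n984 (doms_cons n558 doms_nil))) (and_l (and_r (and_l (and_r (and_r b61)))))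
theorem n986 : ¬ TripleMatch 3000000000 (items (st 10111011100111111101111111000000000)) 7 :=
  step (ws := ws) (ts0 := root) h0 (doms := [((st 111011100111111101111100000000000), 6), ((st 10011011100111111101101110000000000), 6), ((st 10110011100111111001111110000000000), 6)]) (fuel := 8) (doms_cons n872 (doms_cons n985 (doms_cons n563 doms_nil))) (and_l (and_r (and_r (and_l (and_r (and_r b61))))))
theorem n987 : ¬ TripleMatch 3000000000 (items (st 10111011210111111101111111100000000)) 8 :=
  step (ws := ws) (ts0 := root) h0 (doms := [((st 111011210111111101111110000000000), 7), ((st 10110011210111111001111111000000000), 7), ((st 10111011100111111101111111000000000), 7)]) (fuel := 8) (doms_cons n902 (doms_cons n564 (doms_cons n986 doms_nil))) (and_l (and_r (and_r (and_r (and_l (and_r (and_r b61)))))))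
theorem n988 : ¬ TripleMatch 3000000000 (items (st 10111011320111111101111111100100000)) 9 :=
  step (ws := ws) (ts0 := root) h0 (doms := [((st 111011320111111101111110100000000), 8), ((st 10110011320111111001111111100000000), 8), ((st 10111011210111111101111111100000000), 8)]) (fuel := 8) (doms_cons n903 (doms_cons n565 (doms_cons n987 doms_nil))) (and_l (and_l (and_r (and_r (and_r b61)))))
theorem n989 : ¬ TripleMatch 3000000000 (items (st 100001011100111111100101100000000000)) 5 :=
  step (ws := ws) (ts0 := root) h0 (doms := [((st 1011100111111100100000000000000), 4), ((st 100000011100111111000101000000000000), 4)]) (fuel := 8) (doms_cons n870 (doms_cons n572 doms_nil)) (and_l (and_r (and_l (and_r (and_r (and_r b61))))))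
theorem n990 : ¬ TripleMatch 3000000000 (items (st 100011011100111111101101110000000000)) 6 :=
  step (ws := ws) (ts0 := root) h0 (doms := [((st 11011100111111101101000000000000), 5), ((st 100001011100111111100101100000000000), 5), ((st 100010011100111111001101100000000000), 5)]) (fuel := 8) (doms_cons n983 (doms_cons n989 (doms_cons n574 doms_nil))) (and_l (and_r (and_r (and_l (and_r (and_r (and_r b61)))))))
theorem n991 : ¬ TripleMatch 3000000000 (items (st 100111011100111111101111111000000000)) 7 :=
  step (ws := ws) (ts0 := root) h0 (doms := [((st 111011100111111101111100000000000), 6), ((st 100011011100111111101101110000000000), 6), ((st 100110011100111111001111110000000000), 6)]) (fuel := 8) (doms_cons n872 (doms_cons n990 (doms_cons n169 doms_nil))) (and_l (and_r (and_r (and_r (and_l (and_r (and_r (and_r b61))))))))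
theorem n992 : ¬ TripleMatch 3000000000 (items (st 110111011100111111101111111110000000)) 8 :=
  step (ws := ws) (ts0 := root) h0 (doms := [((st 100111011100111111101111111000000000), 7), ((st 110110011100111111001111111100000000), 7)]) (fuel := 8) (doms_cons n991 (doms_cons n577 doms_nil)) (and_l (and_l b62))
theorem n993 : ¬ TripleMatch 3000000000 (items (st 110111011210111111101111111110100000)) 9 :=
  step (ws := ws) (ts0 := root) h0 (doms := [((st 10111011210111111101111111100000000), 8), ((st 100111011210111111101111110110000000), 8), ((st 110110011210111111001111111110000000), 8), ((st 110111011100111111101111111110000000), 8)]) (fuel := 8) (doms_cons n987 (doms_cons n911 (doms_cons n578 (doms_cons n992 doms_nil)))) (and_l (and_r (and_l b62)))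
theorem n994 : ¬ TripleMatch 3000000000 (items (st 110111011320111111101111111110110000)) 10 :=
  step (ws := ws) (ts0 := root) h0 (doms := [((st 10111011320111111101111111100100000), 9), ((st 100111011320111111101111110110100000), 9), ((st 110110011320111111001111111110100000), 9), ((st 110111011210111111101111111110100000), 9)]) (fuel := 8) (doms_cons n988 (doms_cons n912 (doms_cons n579 (doms_cons n993 doms_nil)))) (and_l (and_r (and_r (and_l b62))))
theorem n995 : ¬ TripleMatch 3000000000 (items (st 10111011210111111101111111010000000)) 8 :=
  step (ws := ws) (ts0 := root) h0 (doms := [((st 111011210111111101111110000000000), 7), ((st 10110011210111111001111111000000000), 7), ((st 10111011100111111101111111000000000), 7)]) (fuel := 8) (doms_cons n902 (doms_cons n564 (doms_cons n986 doms_nil))) (and_l (and_r (and_r (and_r (and_l b62)))))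
theorem n996 : ¬ TripleMatch 3000000000 (items (st 10111011320111111101111111011000000)) 9 :=
  step (ws := ws) (ts0 := root) h0 (doms := [((st 111011320111111101111110010000000), 8), ((st 10110011320111111001111111010000000), 8), ((st 10111011210111111101111111010000000), 8)]) (fuel := 8) (doms_cons n916 (doms_cons n586 (doms_cons n995 doms_nil))) (and_l (and_l (and_r b62)))
theorem n997 : ¬ TripleMatch 3000000000 (items (st 1010111011100111111101111111011000000)) 8 :=
  step (ws := ws) (ts0 := root) h0 (doms := [((st 10111011100111111101111111000000000), 7), ((st 1000111011100111111101111110010000000), 7), ((st 1010110011100111111001111111010000000), 7)]) (fuel := 8) (doms_cons n986 (doms_cons n919 (doms_cons n589 doms_nil))) (and_l (and_r (and_l (and_r b62))))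
theorem n998 : ¬ TripleMatch 3000000000 (items (st 1010111011210111111101111111011100000)) 9 :=
  step (ws := ws) (ts0 := root) h0 (doms := [((st 10111011210111111101111111010000000), 8), ((st 1000111011210111111101111110011000000), 8), ((st 1010110011210111111001111111011000000), 8), ((st 1010111011100111111101111111011000000), 8)]) (fuel := 8) (doms_cons n995 (doms_cons n920 (doms_cons n590 (doms_cons n997 doms_nil)))) (and_l (and_r (and_r (and_l (and_r b62)))))
theorem n999 : ¬ TripleMatch 3000000000 (items (st 1010111011320111111101111111011110000)) 10 :=
  step (ws := ws) (ts0 := root) h0 (doms := [((st 10111011320111111101111111011000000), 9), ((st 1000111011320111111101111110011100000), 9), ((st 1010110011320111111001111111011100000), 9), ((st 1010111011210111111101111111011100000), 9)]) (fuel := 8) (doms_cons n996 (doms_cons n921 (doms_cons n591 (doms_cons n998 doms_nil)))) (and_l (and_r (and_r (and_r (and_l (and_r b62))))))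
theorem n1000 : ¬ TripleMatch 3000000000 (items (st 100111011210111111101111111010000000)) 8 :=
  step (ws := ws) (ts0 := root) h0 (doms := [((st 111011210111111101111110000000000), 7), ((st 100110011210111111001111111000000000), 7), ((st 100111011100111111101111111000000000), 7)]) (fuel := 8) (doms_cons n902 (doms_cons n576 (doms_cons n991 doms_nil))) (and_l (and_l (and_r (and_r b62))))
theorem n1001 : ¬ TripleMatch 3000000000 (items (st 110111011210111111101111111111000000)) 9 :=
  step (ws := ws) (ts0 := root) h0 (doms := [((st 10111011210111111101111111100000000), 8), ((st 100111011210111111101111111010000000), 8), ((st 110110011210111111001111111110000000), 8), ((st 110111011100111111101111111110000000), 8)]) (fuel := 8) (doms_cons n987 (doms_cons n1000 (doms_cons n578 (doms_cons n992 doms_nil)))) (and_l (and_r (and_l (and_r (and_r b62)))))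
theorem n1002 : ¬ TripleMatch 3000000000 (items (st 1000001011100111111100101100000000000)) 5 :=
  step (ws := ws) (ts0 := root) h0 (doms := [((st 1011100111111100100000000000000), 4), ((st 1000000011100111111000101000000000000), 4)]) (fuel := 8) (doms_cons n870 (doms_cons n597 doms_nil)) (and_l (and_r (and_r (and_l (and_r (and_r b62))))))
theorem n1003 : ¬ TripleMatch 3000000000 (items (st 1000011011100111111101101110000000000)) 6 :=
  step (ws := ws) (ts0 := root) h0 (doms := [((st 11011100111111101101000000000000), 5), ((st 1000001011100111111100101100000000000), 5), ((st 1000010011100111111001101100000000000), 5)]) (fuel := 8) (doms_cons n983 (doms_cons n1002 (doms_cons n599 doms_nil))) (and_l (and_r (and_r (and_r (and_l (and_r (and_r b62)))))))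
theorem n1004 : ¬ TripleMatch 3000000000 (items (st 1000111011100111111101111111000000000)) 7 :=
  step (ws := ws) (ts0 := root) h0 (doms := [((st 111011100111111101111100000000000), 6), ((st 1000011011100111111101101110000000000), 6), ((st 1000110011100111111001111110000000000), 6)]) (fuel := 8) (doms_cons n872 (doms_cons n1003 (doms_cons n201 doms_nil))) (and_l (and_l (and_r (and_r (and_r b62)))))
theorem n1005 : ¬ TripleMatch 3000000000 (items (st 1010111011100111111101111111110000000)) 8 :=
  step (ws := ws) (ts0 := root) h0 (doms := [((st 1000111011100111111101111111000000000), 7), ((st 1010110011100111111001111111100000000), 7)]) (fuel := 8) (doms_cons n1004 (doms_cons n602 doms_nil)) (and_l (and_r (and_l (and_r (and_r (and_r b62))))))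
theorem n1006 : ¬ TripleMatch 3000000000 (items (st 1010111011210111111101111111110100000)) 9 :=
  step (ws := ws) (ts0 := root) h0 (doms := [((st 10111011210111111101111111100000000), 8), ((st 1000111011210111111101111110110000000), 8), ((st 1010110011210111111001111111110000000), 8), ((st 1010111011100111111101111111110000000), 8)]) (fuel := 8) (doms_cons n987 (doms_cons n927 (doms_cons n603 (doms_cons n1005 doms_nil)))) (and_l (and_r (and_r (and_l (and_r (and_r (and_r b62)))))))
theorem n1007 : ¬ TripleMatch 3000000000 (items (st 1110111011100111111101111111111100000)) 9 :=
  step (ws := ws) (ts0 := root) h0 (doms := [((st 1010111011100111111101111111110000000), 8), ((st 1100111011100111111101111110111000000), 8), ((st 1110110011100111111001111111111000000), 8)]) (fuel := 8) (doms_cons n1005 (doms_cons n929 (doms_cons n606 doms_nil))) (and_l (and_r (and_r (and_r (and_l (and_r (and_r (and_r b62))))))))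
theorem n1008 : ¬ TripleMatch 3000000000 (items (st 1110111011210111111101111111111110000)) 10 :=
  step (ws := ws) (ts0 := root) h0 (doms := [((st 110111011210111111101111111111000000), 9), ((st 1010111011210111111101111111110100000), 9), ((st 1100111011210111111101111110111100000), 9), ((st 1110110011210111111001111111111100000), 9), ((st 1110111011100111111101111111111100000), 9)]) (fuel := 8) (doms_cons n1001 (doms_cons n1006 (doms_cons n930 (doms_cons n607 (doms_cons n1007 doms_nil))))) (and_l (and_l b63))
theorem n1009 : ¬ TripleMatch 3000000000 (items (st 1110111011320111111101111111111111000)) 11 :=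
  step (ws := ws) (ts0 := root) h0 (doms := [((st 110111011320111111101111111110110000), 10), ((st 1010111011320111111101111111011110000), 10), ((st 1100111011320111111101111110111110000), 10), ((st 1110110011320111111001111111111110000), 10), ((st 1110111011210111111101111111111110000), 10)]) (fuel := 8) (doms_cons n994 (doms_cons n999 (doms_cons n931 (doms_cons n608 (doms_cons n1008 doms_nil))))) (and_l (and_r (and_l b63)))
theorem n1010 : ¬ TripleMatch 3000000000 (items (st 10111111101111111101111111100000000)) 8 :=
  step (ws := ws) (ts0 := root) h0 (doms := [((st 111111101111111101111110000000000), 7), ((st 10110111101111111001111111000000000), 7), ((st 10111011100111111101111111000000000), 7)]) (fuel := 8) (doms_cons n907 (doms_cons n569 (doms_cons n986 doms_nil))) (and_l (and_r (and_r (and_l b63))))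
theorem n1011 : ¬ TripleMatch 3000000000 (items (st 10111111211111111101111111100100000)) 9 :=
  step (ws := ws) (ts0 := root) h0 (doms := [((st 111111211111111101111110100000000), 8), ((st 10110111211111111001111111100000000), 8), ((st 10111011210111111101111111100000000), 8), ((st 10111111101111111101111111100000000), 8)]) (fuel := 8) (doms_cons n908 (doms_cons n570 (doms_cons n987 (doms_cons n1010 doms_nil)))) (and_l (and_r (and_r (and_r (and_l b63)))))
theorem n1012 : ¬ TripleMatch 3000000000 (items (st 110111111101111111101111111110100000)) 9 :=
  step (ws := ws) (ts0 := root) h0 (doms := [((st 10111111101111111101111111100000000), 8), ((st 100111111101111111101111110110000000), 8), ((st 110110111101111111001111111110000000), 8), ((st 110111011100111111101111111110000000), 8)]) (fuel := 8) (doms_cons n1010 (doms_cons n913 (doms_cons n583 (doms_cons n992 doms_nil)))) (and_l (and_l (and_r b63)))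
theorem n1013 : ¬ TripleMatch 3000000000 (items (st 110111111211111111101111111110110000)) 10 :=
  step (ws := ws) (ts0 := root) h0 (doms := [((st 10111111211111111101111111100100000), 9), ((st 100111111211111111101111110110100000), 9), ((st 110110111211111111001111111110100000), 9), ((st 110111011210111111101111111110100000), 9), ((st 110111111101111111101111111110100000), 9)]) (fuel := 8) (doms_cons n1011 (doms_cons n914 (doms_cons n584 (doms_cons n993 (doms_cons n1012 doms_nil))))) (and_l (and_r (and_l (and_r b63))))
theorem n1014 : ¬ TripleMatch 3000000000 (items (st 10111111101111111101111111010000000)) 8 :=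
  step (ws := ws) (ts0 := root) h0 (doms := [((st 111111101111111101111110000000000), 7), ((st 10110111101111111001111111000000000), 7), ((st 10111011100111111101111111000000000), 7)]) (fuel := 8) (doms_cons n907 (doms_cons n569 (doms_cons n986 doms_nil))) (and_l (and_r (and_r (and_l (and_r b63)))))
theorem n1015 : ¬ TripleMatch 3000000000 (items (st 10111111211111111101111111011000000)) 9 :=
  step (ws := ws) (ts0 := root) h0 (doms := [((st 111111211111111101111110010000000), 8), ((st 10110111211111111001111111010000000), 8), ((st 10111011210111111101111111010000000), 8), ((st 10111111101111111101111111010000000), 8)]) (fuel := 8) (doms_cons n917 (doms_cons n587 (doms_cons n995 (doms_cons n1014 doms_nil)))) (and_l (and_r (and_r (and_r (and_l (and_r b63))))))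
theorem n1016 : ¬ TripleMatch 3000000000 (items (st 1010111111101111111101111111011100000)) 9 :=
  step (ws := ws) (ts0 := root) h0 (doms := [((st 10111111101111111101111111010000000), 8), ((st 1000111111101111111101111110011000000), 8), ((st 1010110111101111111001111111011000000), 8), ((st 1010111011100111111101111111011000000), 8)]) (fuel := 8) (doms_cons n1014 (doms_cons n922 (doms_cons n592 (doms_cons n997 doms_nil)))) (and_l (and_l (and_r (and_r b63))))
theorem n1017 : ¬ TripleMatch 3000000000 (items (st 1010111111211111111101111111011110000)) 10 :=
  step (ws := ws) (ts0 := root) h0 (doms := [((st 10111111211111111101111111011000000), 9), ((st 1000111111211111111101111110011100000), 9), ((st 1010110111211111111001111111011100000), 9), ((st 1010111011210111111101111111011100000), 9), ((st 1010111111101111111101111111011100000), 9)]) (fuel := 8) (doms_cons n1015 (doms_cons n923 (doms_cons n593 (doms_cons n998 (doms_cons n1016 doms_nil))))) (and_l (and_r (and_l (and_r (and_r b63)))))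
theorem n1018 : ¬ TripleMatch 3000000000 (items (st 100111111101111111101111111010000000)) 8 :=
  step (ws := ws) (ts0 := root) h0 (doms := [((st 111111101111111101111110000000000), 7), ((st 100110111101111111001111111000000000), 7), ((st 100111011100111111101111111000000000), 7)]) (fuel := 8) (doms_cons n907 (doms_cons n582 (doms_cons n991 doms_nil))) (and_l (and_r (and_r (and_l (and_r (and_r b63))))))
theorem n1019 : ¬ TripleMatch 3000000000 (items (st 110111111101111111101111111111000000)) 9 :=
  step (ws := ws) (ts0 := root) h0 (doms := [((st 10111111101111111101111111100000000), 8), ((st 100111111101111111101111111010000000), 8), ((st 110110111101111111001111111110000000), 8), ((st 110111011100111111101111111110000000), 8)]) (fuel := 8) (doms_cons n1010 (doms_cons n1018 (doms_cons n583 (doms_cons n992 doms_nil)))) (and_l (and_r (and_r (and_r (and_l (and_r (and_r b63)))))))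
theorem n1020 : ¬ TripleMatch 3000000000 (items (st 1010111111101111111101111111110100000)) 9 :=
  step (ws := ws) (ts0 := root) h0 (doms := [((st 10111111101111111101111111100000000), 8), ((st 1000111111101111111101111110110000000), 8), ((st 1010110111101111111001111111110000000), 8), ((st 1010111011100111111101111111110000000), 8)]) (fuel := 8) (doms_cons n1010 (doms_cons n933 (doms_cons n614 (doms_cons n1005 doms_nil)))) (and_l (and_l (and_r (and_r (and_r b63)))))
theorem n1021 : ¬ TripleMatch 3000000000 (items (st 1110111111101111111101111111111110000)) 10 :=
  step (ws := ws) (ts0 := root) h0 (doms := [((st 110111111101111111101111111111000000), 9), ((st 1010111111101111111101111111110100000), 9), ((st 1100111111101111111101111110111100000), 9), ((st 1110110111101111111001111111111100000), 9), ((st 1110111011100111111101111111111100000), 9)]) (fuel := 8) (doms_cons n1019 (doms_cons n1020 (doms_cons n935 (doms_cons n616 (doms_cons n1007 doms_nil))))) (and_l (and_r (and_l (and_r (and_r (and_r b63))))))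
theorem n1022 : ¬ TripleMatch 3000000000 (items (st 1110111111211111111101111111111111000)) 11 :=
  step (ws := ws) (ts0 := root) h0 (doms := [((st 110111111211111111101111111110110000), 10), ((st 1010111111211111111101111111011110000), 10), ((st 1100111111211111111101111110111110000), 10), ((st 1110110111211111111001111111111110000), 10), ((st 1110111011210111111101111111111110000), 10), ((st 1110111111101111111101111111111110000), 10)]) (fuel := 8) (doms_cons n1013 (doms_cons n1017 (doms_cons n936 (doms_cons n617 (doms_cons n1008 (doms_cons n1021 doms_nil)))))) (and_l (and_r (and_r (and_l (and_r (and_r (and_r b63)))))))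
theorem n1023 : ¬ TripleMatch 3000000000 (items (st 1110111111321111111101111111111111100)) 12 :=
  step (ws := ws) (ts0 := root) h0 (doms := [((st 1100111111321111111101111110111111000), 11), ((st 1110110111321111111001111111111111000), 11), ((st 1110111011320111111101111111111111000), 11), ((st 1110111111211111111101111111111111000), 11)]) (fuel := 8) (doms_cons n937 (doms_cons n618 (doms_cons n1009 (doms_cons n1022 doms_nil)))) (and_l (and_r (and_r (and_r (and_l (and_r (and_r (and_r b63))))))))
theorem n1024 : ¬ TripleMatch 3000000000 (items (st 11111011100111111111111111100000000)) 8 :=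
  step (ws := ws) (ts0 := root) h0 (doms := [((st 1111011100111111111111110000000000), 7), ((st 10111011100111111101111111000000000), 7), ((st 11110011100111111011111111000000000), 7)]) (fuel := 8) (doms_cons n953 (doms_cons n986 (doms_cons n802 doms_nil))) (and_l (and_l b64))
theorem n1025 : ¬ TripleMatch 3000000000 (items (st 11111011210111111111111111100100000)) 9 :=
  step (ws := ws) (ts0 := root) h0 (doms := [((st 1111011210111111111111110100000000), 8), ((st 10111011210111111101111111100000000), 8), ((st 11110011210111111011111111100000000), 8), ((st 11111011100111111111111111100000000), 8)]) (fuel := 8) (doms_cons n954 (doms_cons n987 (doms_cons n803 (doms_cons n1024 doms_nil)))) (and_l (and_r (and_l b64)))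
theorem n1026 : ¬ TripleMatch 3000000000 (items (st 111111011100111111111111111110100000)) 9 :=
  step (ws := ws) (ts0 := root) h0 (doms := [((st 11111011100111111111111111100000000), 8), ((st 101111011100111111111111110110000000), 8), ((st 110111011100111111101111111110000000), 8), ((st 111110011100111111011111111110000000), 8)]) (fuel := 8) (doms_cons n1024 (doms_cons n956 (doms_cons n992 (doms_cons n818 doms_nil)))) (and_l (and_r (and_r (and_l b64))))
theorem n1027 : ¬ TripleMatch 3000000000 (items (st 111111011210111111111111111110110000)) 10 :=
  step (ws := ws) (ts0 := root) h0 (doms := [((st 11111011210111111111111111100100000), 9), ((st 101111011210111111111111110110100000), 9), ((st 110111011210111111101111111110100000), 9), ((st 111110011210111111011111111110100000), 9), ((st 111111011100111111111111111110100000), 9)]) (fuel := 8) (doms_cons n1025 (doms_cons n957 (doms_cons n993 (doms_cons n819 (doms_cons n1026 doms_nil))))) (and_l (and_r (and_r (and_r (and_l b64)))))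
theorem n1028 : ¬ TripleMatch 3000000000 (items (st 11111011100111111111111111010000000)) 8 :=
  step (ws := ws) (ts0 := root) h0 (doms := [((st 1111011100111111111111110000000000), 7), ((st 10111011100111111101111111000000000), 7), ((st 11110011100111111011111111000000000), 7)]) (fuel := 8) (doms_cons n953 (doms_cons n986 (doms_cons n802 doms_nil))) (and_l (and_l (and_r b64)))
theorem n1029 : ¬ TripleMatch 3000000000 (items (st 11111011210111111111111111011000000)) 9 :=
  step (ws := ws) (ts0 := root) h0 (doms := [((st 1111011210111111111111110010000000), 8), ((st 10111011210111111101111111010000000), 8), ((st 11110011210111111011111111010000000), 8), ((st 11111011100111111111111111010000000), 8)]) (fuel := 8) (doms_cons n959 (doms_cons n995 (doms_cons n821 (doms_cons n1028 doms_nil)))) (and_l (and_r (and_l (and_r b64))))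
theorem n1030 : ¬ TripleMatch 3000000000 (items (st 1011111011100111111111111111011100000)) 9 :=
  step (ws := ws) (ts0 := root) h0 (doms := [((st 11111011100111111111111111010000000), 8), ((st 1001111011100111111111111110011000000), 8), ((st 1010111011100111111101111111011000000), 8), ((st 1011110011100111111011111111011000000), 8)]) (fuel := 8) (doms_cons n1028 (doms_cons n961 (doms_cons n997 (doms_cons n823 doms_nil)))) (and_l (and_r (and_r (and_l (and_r b64)))))
theorem n1031 : ¬ TripleMatch 3000000000 (items (st 1011111011210111111111111111011110000)) 10 :=
  step (ws := ws) (ts0 := root) h0 (doms := [((st 11111011210111111111111111011000000), 9), ((st 1001111011210111111111111110011100000), 9), ((st 1010111011210111111101111111011100000), 9), ((st 1011110011210111111011111111011100000), 9), ((st 1011111011100111111111111111011100000), 9)]) (fuel := 8) (doms_cons n1029 (doms_cons n962 (doms_cons n998 (doms_cons n824 (doms_cons n1030 doms_nil))))) (and_l (and_r (and_r (and_r (and_l (and_r b64))))))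
theorem n1032 : ¬ TripleMatch 3000000000 (items (st 101111011100111111111111111010000000)) 8 :=
  step (ws := ws) (ts0 := root) h0 (doms := [((st 1111011100111111111111110000000000), 7), ((st 100111011100111111101111111000000000), 7), ((st 101110011100111111011111111000000000), 7)]) (fuel := 8) (doms_cons n953 (doms_cons n991 (doms_cons n817 doms_nil))) (and_l (and_l (and_r (and_r b64))))
theorem n1033 : ¬ TripleMatch 3000000000 (items (st 111111011100111111111111111111000000)) 9 :=
  step (ws := ws) (ts0 := root) h0 (doms := [((st 11111011100111111111111111100000000), 8), ((st 101111011100111111111111111010000000), 8), ((st 110111011100111111101111111110000000), 8), ((st 111110011100111111011111111110000000), 8)]) (fuel := 8) (doms_cons n1024 (doms_cons n1032 (doms_cons n992 (doms_cons n818 doms_nil)))) (and_l (and_r (and_l (and_r (and_r b64)))))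
theorem n1034 : ¬ TripleMatch 3000000000 (items (st 1011111011100111111111111111110100000)) 9 :=
  step (ws := ws) (ts0 := root) h0 (doms := [((st 11111011100111111111111111100000000), 8), ((st 1001111011100111111111111110110000000), 8), ((st 1010111011100111111101111111110000000), 8), ((st 1011110011100111111011111111110000000), 8)]) (fuel := 8) (doms_cons n1024 (doms_cons n965 (doms_cons n1005 (doms_cons n841 doms_nil)))) (and_l (and_r (and_r (and_l (and_r (and_r b64))))))
theorem n1035 : ¬ TripleMatch 3000000000 (items (st 1111111011100111111111111111111110000)) 10 :=
  step (ws := ws) (ts0 := root) h0 (doms := [((st 111111011100111111111111111111000000), 9), ((st 1011111011100111111111111111110100000), 9), ((st 1101111011100111111111111110111100000), 9), ((st 1110111011100111111101111111111100000), 9), ((st 1111110011100111111011111111111100000), 9)]) (fuel := 8) (doms_cons n1033 (doms_cons n1034 (doms_cons n967 (doms_cons n1007 (doms_cons n843 doms_nil))))) (and_l (and_r (and_r (and_r (and_l (and_r (and_r b64)))))))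
theorem n1036 : ¬ TripleMatch 3000000000 (items (st 1111111011210111111111111111111111000)) 11 :=
  step (ws := ws) (ts0 := root) h0 (doms := [((st 111111011210111111111111111110110000), 10), ((st 1011111011210111111111111111011110000), 10), ((st 1101111011210111111111111110111110000), 10), ((st 1110111011210111111101111111111110000), 10), ((st 1111110011210111111011111111111110000), 10), ((st 1111111011100111111111111111111110000), 10)]) (fuel := 8) (doms_cons n1027 (doms_cons n1031 (doms_cons n968 (doms_cons n1008 (doms_cons n844 (doms_cons n1035 doms_nil)))))) (and_l (and_l (and_r (and_r (and_r b64)))))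
theorem n1037 : ¬ TripleMatch 3000000000 (items (st 1111111011320111111111111111111111100)) 12 :=
  step (ws := ws) (ts0 := root) h0 (doms := [((st 1101111011320111111111111110111111000), 11), ((st 1110111011320111111101111111111111000), 11), ((st 1111110011320111111011111111111111000), 11), ((st 1111111011210111111111111111111111000), 11)]) (fuel := 8) (doms_cons n969 (doms_cons n1009 (doms_cons n845 (doms_cons n1036 doms_nil)))) (and_l (and_r (and_l (and_r (and_r (and_r b64))))))
theorem n1038 : ¬ TripleMatch 3000000000 (items (st 11111111101111111111111111100100000)) 9 :=
  step (ws := ws) (ts0 := root) h0 (doms := [((st 1111111101111111111111110100000000), 8), ((st 10111111101111111101111111100000000), 8), ((st 11110111101111111011111111100000000), 8), ((st 11111011100111111111111111100000000), 8)]) (fuel := 8) (doms_cons n970 (doms_cons n1010 (doms_cons n846 (doms_cons n1024 doms_nil)))) (and_l (and_r (and_r (and_l (and_r (and_r (and_r b64)))))))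
theorem n1039 : ¬ TripleMatch 3000000000 (items (st 111111111101111111111111111110110000)) 10 :=
  step (ws := ws) (ts0 := root) h0 (doms := [((st 11111111101111111111111111100100000), 9), ((st 101111111101111111111111110110100000), 9), ((st 110111111101111111101111111110100000), 9), ((st 111110111101111111011111111110100000), 9), ((st 111111011100111111111111111110100000), 9)]) (fuel := 8) (doms_cons n1038 (doms_cons n972 (doms_cons n1012 (doms_cons n848 (doms_cons n1026 doms_nil))))) (and_l (and_r (and_r (and_r (and_l (and_r (and_r (and_r b64))))))))
theorem n1040 : ¬ TripleMatch 3000000000 (items (st 11111111101111111111111111011000000)) 9 :=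
  step (ws := ws) (ts0 := root) h0 (doms := [((st 1111111101111111111111110010000000), 8), ((st 10111111101111111101111111010000000), 8), ((st 11110111101111111011111111010000000), 8), ((st 11111011100111111111111111010000000), 8)]) (fuel := 8) (doms_cons n974 (doms_cons n1014 (doms_cons n850 (doms_cons n1028 doms_nil)))) (and_l (and_l b65))
theorem n1041 : ¬ TripleMatch 3000000000 (items (st 1011111111101111111111111111011110000)) 10 :=
  step (ws := ws) (ts0 := root) h0 (doms := [((st 11111111101111111111111111011000000), 9), ((st 1001111111101111111111111110011100000), 9), ((st 1010111111101111111101111111011100000), 9), ((st 1011110111101111111011111111011100000), 9), ((st 1011111011100111111111111111011100000), 9)]) (fuel := 8) (doms_cons n1040 (doms_cons n976 (doms_cons n1016 (doms_cons n852 (doms_cons n1030 doms_nil))))) (and_l (and_r (and_l b65)))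
theorem n1042 : ¬ TripleMatch 3000000000 (items (st 1111111111101111111111111111111111000)) 11 :=
  step (ws := ws) (ts0 := root) h0 (doms := [((st 111111111101111111111111111110110000), 10), ((st 1011111111101111111111111111011110000), 10), ((st 1101111111101111111111111110111110000), 10), ((st 1110111111101111111101111111111110000), 10), ((st 1111110111101111111011111111111110000), 10), ((st 1111111011100111111111111111111110000), 10)]) (fuel := 8) (doms_cons n1039 (doms_cons n1041 (doms_cons n980 (doms_cons n1021 (doms_cons n857 (doms_cons n1035 doms_nil)))))) (and_l (and_r (and_r (and_l b65))))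
theorem n1043 : ¬ TripleMatch 3000000000 (items (st 1111111111211111111111111111111111100)) 12 :=
  step (ws := ws) (ts0 := root) h0 (doms := [((st 1101111111211111111111111110111111000), 11), ((st 1110111111211111111101111111111111000), 11), ((st 1111110111211111111011111111111111000), 11), ((st 1111111011210111111111111111111111000), 11), ((st 1111111111101111111111111111111111000), 11)]) (fuel := 8) (doms_cons n981 (doms_cons n1022 (doms_cons n858 (doms_cons n1036 (doms_cons n1042 doms_nil))))) (and_l (and_r (and_r (and_r (and_l b65)))))
theorem n1044 : ¬ TripleMatch 3000000000 (items (st 1111111111321111111111111111111111110)) 13 :=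
  step (ws := ws) (ts0 := root) h0 (doms := [((st 1101111111321111111111111110111111100), 12), ((st 1110111111321111111101111111111111100), 12), ((st 1111110111321111111011111111111111100), 12), ((st 1111111011320111111111111111111111100), 12), ((st 1111111111211111111111111111111111100), 12)]) (fuel := 8) (doms_cons n982 (doms_cons n1023 (doms_cons n859 (doms_cons n1037 (doms_cons n1043 doms_nil))))) (and_l (and_l (and_r b65)))
theorem n1045 : ¬ TripleMatch 3000000000 (items (st 111211102111111101111100110000000)) 8 :=
  step (ws := ws) (ts0 := root) h0 (doms := [((st 110211102111111001111100100000000), 7), ((st 111111101111111101111100100000000), 7)]) (fuel := 8) (doms_cons n32 (doms_cons n875 doms_nil)) (and_l (and_r (and_l (and_r b65))))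
theorem n1046 : ¬ TripleMatch 3000000000 (items (st 111211212111111101111100110100000)) 9 :=
  step (ws := ws) (ts0 := root) h0 (doms := [((st 110211212111111001111100110000000), 8), ((st 111111211111111101111100110000000), 8), ((st 111211102111111101111100110000000), 8)]) (fuel := 8) (doms_cons n33 (doms_cons n876 (doms_cons n1045 doms_nil))) (and_l (and_r (and_r (and_l (and_r b65)))))
theorem n1047 : ¬ TripleMatch 3000000000 (items (st 1111211102111111111111100110100000)) 9 :=
  step (ws := ws) (ts0 := root) h0 (doms := [((st 111211102111111101111100110000000), 8), ((st 1110211102111111011111100110000000), 8), ((st 1111111101111111111111100110000000), 8)]) (fuel := 8) (doms_cons n1045 (doms_cons n66 (doms_cons n881 doms_nil))) (and_l (and_r (and_r (and_r (and_l (and_r b65))))))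
theorem n1048 : ¬ TripleMatch 3000000000 (items (st 1111211212111111111111100110110000)) 10 :=
  step (ws := ws) (ts0 := root) h0 (doms := [((st 111211212111111101111100110100000), 9), ((st 1110211212111111011111100110100000), 9), ((st 1111111211111111111111100110100000), 9), ((st 1111211102111111111111100110100000), 9)]) (fuel := 8) (doms_cons n1046 (doms_cons n67 (doms_cons n882 (doms_cons n1047 doms_nil)))) (and_l (and_l (and_r (and_r b65))))
theorem n1049 : ¬ TripleMatch 3000000000 (items (st 111211212111111101111100111000000)) 9 :=
  step (ws := ws) (ts0 := root) h0 (doms := [((st 110211212111111001111100110000000), 8), ((st 111111211111111101111100110000000), 8), ((st 111211102111111101111100110000000), 8)]) (fuel := 8) (doms_cons n33 (doms_cons n876 (doms_cons n1045 doms_nil))) (and_l (and_r (and_l (and_r (and_r b65)))))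
theorem n1050 : ¬ TripleMatch 3000000000 (items (st 1000111211102111111101111100111100000)) 9 :=
  step (ws := ws) (ts0 := root) h0 (doms := [((st 111211102111111101111100110000000), 8), ((st 1000110211102111111001111100111000000), 8), ((st 1000111111101111111101111100111000000), 8)]) (fuel := 8) (doms_cons n1045 (doms_cons n93 (doms_cons n888 doms_nil))) (and_l (and_r (and_r (and_l (and_r (and_r b65))))))
theorem n1051 : ¬ TripleMatch 3000000000 (items (st 1000111211212111111101111100111110000)) 10 :=
  step (ws := ws) (ts0 := root) h0 (doms := [((st 111211212111111101111100111000000), 9), ((st 1000110211212111111001111100111100000), 9), ((st 1000111111211111111101111100111100000), 9), ((st 1000111211102111111101111100111100000), 9)]) (fuel := 8) (doms_cons n1049 (doms_cons n94 (doms_cons n889 (doms_cons n1050 doms_nil)))) (and_l (and_r (and_r (and_r (and_l (and_r (and_r b65)))))))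
theorem n1052 : ¬ TripleMatch 3000000000 (items (st 1111211102111111111111100111000000)) 9 :=
  step (ws := ws) (ts0 := root) h0 (doms := [((st 111211102111111101111100110000000), 8), ((st 1110211102111111011111100110000000), 8), ((st 1111111101111111111111100110000000), 8)]) (fuel := 8) (doms_cons n1045 (doms_cons n66 (doms_cons n881 doms_nil))) (and_l (and_l (and_r (and_r (and_r b65)))))
theorem n1053 : ¬ TripleMatch 3000000000 (items (st 1001111211102111111111111100111110000)) 10 :=
  step (ws := ws) (ts0 := root) h0 (doms := [((st 1111211102111111111111100111000000), 9), ((st 1000111211102111111101111100111100000), 9), ((st 1001110211102111111011111100111100000), 9), ((st 1001111111101111111111111100111100000), 9)]) (fuel := 8) (doms_cons n1052 (doms_cons n1050 (doms_cons n123 (doms_cons n896 doms_nil)))) (and_l (and_r (and_l (and_r (and_r (and_r b65))))))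
theorem n1054 : ¬ TripleMatch 3000000000 (items (st 1001111211212111111111111100111111000)) 11 :=
  step (ws := ws) (ts0 := root) h0 (doms := [((st 1111211212111111111111100110110000), 10), ((st 1000111211212111111101111100111110000), 10), ((st 1001110211212111111011111100111110000), 10), ((st 1001111111211111111111111100111110000), 10), ((st 1001111211102111111111111100111110000), 10)]) (fuel := 8) (doms_cons n1048 (doms_cons n1051 (doms_cons n124 (doms_cons n897 (doms_cons n1053 doms_nil))))) (and_l (and_r (and_r (and_l (and_r (and_r (and_r b65)))))))
theorem n1055 : ¬ TripleMatch 3000000000 (items (st 111211102111111101111110100000000)) 8 :=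
  step (ws := ws) (ts0 := root) h0 (doms := [((st 110211102111111001111110000000000), 7), ((st 111111101111111101111110000000000), 7)]) (fuel := 8) (doms_cons n144 (doms_cons n907 doms_nil)) (and_l (and_r (and_r (and_r (and_l (and_r (and_r (and_r b65))))))))
theorem n1056 : ¬ TripleMatch 3000000000 (items (st 111211212111111101111110100100000)) 9 :=
  step (ws := ws) (ts0 := root) h0 (doms := [((st 110211212111111001111110100000000), 8), ((st 111111211111111101111110100000000), 8), ((st 111211102111111101111110100000000), 8)]) (fuel := 8) (doms_cons n145 (doms_cons n908 (doms_cons n1055 doms_nil))) (and_l (and_l b66))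
theorem n1057 : ¬ TripleMatch 3000000000 (items (st 100111211102111111101111110110100000)) 9 :=
  step (ws := ws) (ts0 := root) h0 (doms := [((st 111211102111111101111110100000000), 8), ((st 100110211102111111001111110110000000), 8), ((st 100111111101111111101111110110000000), 8)]) (fuel := 8) (doms_cons n1055 (doms_cons n175 (doms_cons n913 doms_nil))) (and_l (and_r (and_l b66)))
theorem n1058 : ¬ TripleMatch 3000000000 (items (st 100111211212111111101111110110110000)) 10 :=
  step (ws := ws) (ts0 := root) h0 (doms := [((st 111211212111111101111110100100000), 9), ((st 100110211212111111001111110110100000), 9), ((st 100111111211111111101111110110100000), 9), ((st 100111211102111111101111110110100000), 9)]) (fuel := 8) (doms_cons n1056 (doms_cons n176 (doms_cons n914 (doms_cons n1057 doms_nil)))) (and_l (and_r (and_r (and_l b66))))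
theorem n1059 : ¬ TripleMatch 3000000000 (items (st 111211102111111101111110010000000)) 8 :=
  step (ws := ws) (ts0 := root) h0 (doms := [((st 110211102111111001111110000000000), 7), ((st 111111101111111101111110000000000), 7)]) (fuel := 8) (doms_cons n144 (doms_cons n907 doms_nil)) (and_l (and_r (and_r (and_r (and_l b66)))))
theorem n1060 : ¬ TripleMatch 3000000000 (items (st 111211212111111101111110011000000)) 9 :=
  step (ws := ws) (ts0 := root) h0 (doms := [((st 110211212111111001111110010000000), 8), ((st 111111211111111101111110010000000), 8), ((st 111211102111111101111110010000000), 8)]) (fuel := 8) (doms_cons n180 (doms_cons n917 (doms_cons n1059 doms_nil))) (and_l (and_l (and_r b66)))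
theorem n1061 : ¬ TripleMatch 3000000000 (items (st 1000111211102111111101111110011100000)) 9 :=
  step (ws := ws) (ts0 := root) h0 (doms := [((st 111211102111111101111110010000000), 8), ((st 1000110211102111111001111110011000000), 8), ((st 1000111111101111111101111110011000000), 8)]) (fuel := 8) (doms_cons n1059 (doms_cons n207 (doms_cons n922 doms_nil))) (and_l (and_r (and_l (and_r b66))))
theorem n1062 : ¬ TripleMatch 3000000000 (items (st 1000111211212111111101111110011110000)) 10 :=
  step (ws := ws) (ts0 := root) h0 (doms := [((st 111211212111111101111110011000000), 9), ((st 1000110211212111111001111110011100000), 9), ((st 1000111111211111111101111110011100000), 9), ((st 1000111211102111111101111110011100000), 9)]) (fuel := 8) (doms_cons n1060 (doms_cons n208 (doms_cons n923 (doms_cons n1061 doms_nil)))) (and_l (and_r (and_r (and_l (and_r b66)))))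
theorem n1063 : ¬ TripleMatch 3000000000 (items (st 100111211102111111101111110111000000)) 9 :=
  step (ws := ws) (ts0 := root) h0 (doms := [((st 111211102111111101111110100000000), 8), ((st 100110211102111111001111110110000000), 8), ((st 100111111101111111101111110110000000), 8)]) (fuel := 8) (doms_cons n1055 (doms_cons n175 (doms_cons n913 doms_nil))) (and_l (and_r (and_r (and_r (and_l (and_r b66))))))
theorem n1064 : ¬ TripleMatch 3000000000 (items (st 1000111211102111111101111110110100000)) 9 :=
  step (ws := ws) (ts0 := root) h0 (doms := [((st 111211102111111101111110100000000), 8), ((st 1000110211102111111001111110110000000), 8), ((st 1000111111101111111101111110110000000), 8)]) (fuel := 8) (doms_cons n1055 (doms_cons n251 (doms_cons n933 doms_nil))) (and_l (and_l (and_r (and_r b66))))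
theorem n1065 : ¬ TripleMatch 3000000000 (items (st 1100111211102111111101111110111110000)) 10 :=
  step (ws := ws) (ts0 := root) h0 (doms := [((st 100111211102111111101111110111000000), 9), ((st 1000111211102111111101111110110100000), 9), ((st 1100110211102111111001111110111100000), 9), ((st 1100111111101111111101111110111100000), 9)]) (fuel := 8) (doms_cons n1063 (doms_cons n1064 (doms_cons n253 (doms_cons n935 doms_nil)))) (and_l (and_r (and_l (and_r (and_r b66)))))
theorem n1066 : ¬ TripleMatch 3000000000 (items (st 1100111211212111111101111110111111000)) 11 :=
  step (ws := ws) (ts0 := root) h0 (doms := [((st 100111211212111111101111110110110000), 10), ((st 1000111211212111111101111110011110000), 10), ((st 1100110211212111111001111110111110000), 10), ((st 1100111111211111111101111110111110000), 10), ((st 1100111211102111111101111110111110000), 10)]) (fuel := 8) (doms_cons n1058 (doms_cons n1062 (doms_cons n254 (doms_cons n936 (doms_cons n1065 doms_nil))))) (and_l (and_r (and_r (and_l (and_r (and_r b66))))))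
theorem n1067 : ¬ TripleMatch 3000000000 (items (st 1111211102111111111111110100100000)) 9 :=
  step (ws := ws) (ts0 := root) h0 (doms := [((st 111211102111111101111110100000000), 8), ((st 1110211102111111011111110100000000), 8), ((st 1111111101111111111111110100000000), 8)]) (fuel := 8) (doms_cons n1055 (doms_cons n408 (doms_cons n970 doms_nil))) (and_l (and_r (and_r (and_r (and_l (and_r (and_r b66)))))))
theorem n1068 : ¬ TripleMatch 3000000000 (items (st 101111211102111111111111110110110000)) 10 :=
  step (ws := ws) (ts0 := root) h0 (doms := [((st 1111211102111111111111110100100000), 9), ((st 100111211102111111101111110110100000), 9), ((st 101110211102111111011111110110100000), 9), ((st 101111111101111111111111110110100000), 9)]) (fuel := 8) (doms_cons n1067 (doms_cons n1057 (doms_cons n410 (doms_cons n972 doms_nil)))) (and_l (and_l (and_r (and_r (and_r b66)))))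
theorem n1069 : ¬ TripleMatch 3000000000 (items (st 1111211102111111111111110011000000)) 9 :=
  step (ws := ws) (ts0 := root) h0 (doms := [((st 111211102111111101111110010000000), 8), ((st 1110211102111111011111110010000000), 8), ((st 1111111101111111111111110010000000), 8)]) (fuel := 8) (doms_cons n1059 (doms_cons n412 (doms_cons n974 doms_nil))) (and_l (and_r (and_l (and_r (and_r (and_r b66))))))
theorem n1070 : ¬ TripleMatch 3000000000 (items (st 1001111211102111111111111110011110000)) 10 :=
  step (ws := ws) (ts0 := root) h0 (doms := [((st 1111211102111111111111110011000000), 9), ((st 1000111211102111111101111110011100000), 9), ((st 1001110211102111111011111110011100000), 9), ((st 1001111111101111111111111110011100000), 9)]) (fuel := 8) (doms_cons n1069 (doms_cons n1061 (doms_cons n414 (doms_cons n976 doms_nil)))) (and_l (and_r (and_r (and_l (and_r (and_r (and_r b66)))))))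
theorem n1071 : ¬ TripleMatch 3000000000 (items (st 1101111211102111111111111110111111000)) 11 :=
  step (ws := ws) (ts0 := root) h0 (doms := [((st 101111211102111111111111110110110000), 10), ((st 1001111211102111111111111110011110000), 10), ((st 1100111211102111111101111110111110000), 10), ((st 1101110211102111111011111110111110000), 10), ((st 1101111111101111111111111110111110000), 10)]) (fuel := 8) (doms_cons n1068 (doms_cons n1070 (doms_cons n1065 (doms_cons n418 (doms_cons n980 doms_nil))))) (and_l (and_r (and_r (and_r (and_l (and_r (and_r (and_r b66))))))))
theorem n1072 : ¬ TripleMatch 3000000000 (items (st 1101111211212111111111111110111111100)) 12 :=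
  step (ws := ws) (ts0 := root) h0 (doms := [((st 1001111211212111111111111100111111000), 11), ((st 1100111211212111111101111110111111000), 11), ((st 1101110211212111111011111110111111000), 11), ((st 1101111111211111111111111110111111000), 11), ((st 1101111211102111111111111110111111000), 11)]) (fuel := 8) (doms_cons n1054 (doms_cons n1066 (doms_cons n419 (doms_cons n981 (doms_cons n1071 doms_nil))))) (and_l (and_l b67))
theorem n1073 : ¬ TripleMatch 3000000000 (items (st 10111211102111111101111111100100000)) 9 :=
  step (ws := ws) (ts0 := root) h0 (doms := [((st 111211102111111101111110100000000), 8), ((st 10110211102111111001111111100000000), 8), ((st 10111111101111111101111111100000000), 8)]) (fuel := 8) (doms_cons n1055 (doms_cons n619 (doms_cons n1010 doms_nil))) (and_l (and_r (and_l b67)))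
theorem n1074 : ¬ TripleMatch 3000000000 (items (st 110111211102111111101111111110110000)) 10 :=
  step (ws := ws) (ts0 := root) h0 (doms := [((st 10111211102111111101111111100100000), 9), ((st 100111211102111111101111110110100000), 9), ((st 110110211102111111001111111110100000), 9), ((st 110111111101111111101111111110100000), 9)]) (fuel := 8) (doms_cons n1073 (doms_cons n1057 (doms_cons n621 (doms_cons n1012 doms_nil)))) (and_l (and_r (and_r (and_l b67))))
theorem n1075 : ¬ TripleMatch 3000000000 (items (st 10111211102111111101111111011000000)) 9 :=
  step (ws := ws) (ts0 := root) h0 (doms := [((st 111211102111111101111110010000000), 8), ((st 10110211102111111001111111010000000), 8), ((st 10111111101111111101111111010000000), 8)]) (fuel := 8) (doms_cons n1059 (doms_cons n623 (doms_cons n1014 doms_nil))) (and_l (and_r (and_r (and_r (and_l b67)))))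
theorem n1076 : ¬ TripleMatch 3000000000 (items (st 1010111211102111111101111111011110000)) 10 :=
  step (ws := ws) (ts0 := root) h0 (doms := [((st 10111211102111111101111111011000000), 9), ((st 1000111211102111111101111110011100000), 9), ((st 1010110211102111111001111111011100000), 9), ((st 1010111111101111111101111111011100000), 9)]) (fuel := 8) (doms_cons n1075 (doms_cons n1061 (doms_cons n625 (doms_cons n1016 doms_nil)))) (and_l (and_l (and_r b67)))
theorem n1077 : ¬ TripleMatch 3000000000 (items (st 1110111211102111111101111111111111000)) 11 :=
  step (ws := ws) (ts0 := root) h0 (doms := [((st 110111211102111111101111111110110000), 10), ((st 1010111211102111111101111111011110000), 10), ((st 1100111211102111111101111110111110000), 10), ((st 1110110211102111111001111111111110000), 10), ((st 1110111111101111111101111111111110000), 10)]) (fuel := 8) (doms_cons n1074 (doms_cons n1076 (doms_cons n1065 (doms_cons n630 (doms_cons n1021 doms_nil))))) (and_l (and_r (and_l (and_r b67))))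
theorem n1078 : ¬ TripleMatch 3000000000 (items (st 1110111211212111111101111111111111100)) 12 :=
  step (ws := ws) (ts0 := root) h0 (doms := [((st 1100111211212111111101111110111111000), 11), ((st 1110110211212111111001111111111111000), 11), ((st 1110111111211111111101111111111111000), 11), ((st 1110111211102111111101111111111111000), 11)]) (fuel := 8) (doms_cons n1066 (doms_cons n631 (doms_cons n1022 (doms_cons n1077 doms_nil)))) (and_l (and_r (and_r (and_l (and_r b67)))))
theorem n1079 : ¬ TripleMatch 3000000000 (items (st 1111111211102111111111111111111111100)) 12 :=
  step (ws := ws) (ts0 := root) h0 (doms := [((st 1101111211102111111111111110111111000), 11), ((st 1110111211102111111101111111111111000), 11), ((st 1111110211102111111011111111111111000), 11), ((st 1111111111101111111111111111111111000), 11)]) (fuel := 8) (doms_cons n1071 (doms_cons n1077 (doms_cons n864 (doms_cons n1042 doms_nil)))) (and_l (and_r (and_r (and_r (and_l (and_r b67))))))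
theorem n1080 : ¬ TripleMatch 3000000000 (items (st 1111111211212111111111111111111111110)) 13 :=
  step (ws := ws) (ts0 := root) h0 (doms := [((st 1101111211212111111111111110111111100), 12), ((st 1110111211212111111101111111111111100), 12), ((st 1111110211212111111011111111111111100), 12), ((st 1111111111211111111111111111111111100), 12), ((st 1111111211102111111111111111111111100), 12)]) (fuel := 8) (doms_cons n1072 (doms_cons n1078 (doms_cons n865 (doms_cons n1043 (doms_cons n1079 doms_nil))))) (and_l (and_l (and_r (and_r b67))))
theorem n1081 : ¬ TripleMatch 3000000000 (items (st 1111111211322111111111111111111111111)) 14 :=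
  step (ws := ws) (ts0 := root) h0 (doms := [((st 1111110211322111111011111111111111110), 13), ((st 1111111111321111111111111111111111110), 13), ((st 1111111211212111111111111111111111110), 13)]) (fuel := 8) (doms_cons n866 (doms_cons n1044 (doms_cons n1080 doms_nil))) (and_l (and_r (and_l (and_r (and_r b67)))))
theorem n1082 : ¬ TripleMatch 3000000000 (items (st 112011100111111201111100100000000)) 7 :=
  step (ws := ws) (ts0 := root) h0 (doms := [((st 111011100111111101111100000000000), 6)]) (fuel := 8) (doms_cons n872 doms_nil) (and_l (and_r (and_r (and_l (and_r (and_r b67))))))
theorem n1083 : ¬ TripleMatch 3000000000 (items (st 112011210111111201111100110000000)) 8 :=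
  step (ws := ws) (ts0 := root) h0 (doms := [((st 111011210111111101111100100000000), 7), ((st 112011100111111201111100100000000), 7)]) (fuel := 8) (doms_cons n873 (doms_cons n1082 doms_nil)) (and_l (and_r (and_r (and_r (and_l (and_r (and_r b67)))))))
theorem n1084 : ¬ TripleMatch 3000000000 (items (st 112011320111111201111100110100000)) 9 :=
  step (ws := ws) (ts0 := root) h0 (doms := [((st 111011320111111101111100110000000), 8), ((st 112011210111111201111100110000000), 8)]) (fuel := 8) (doms_cons n874 (doms_cons n1083 doms_nil)) (and_l (and_l (and_r (and_r (and_r b67)))))
theorem n1085 : ¬ TripleMatch 3000000000 (items (st 1112011100111111211111100110000000)) 8 :=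
  step (ws := ws) (ts0 := root) h0 (doms := [((st 112011100111111201111100100000000), 7), ((st 1111011100111111111111100100000000), 7)]) (fuel := 8) (doms_cons n1082 (doms_cons n878 doms_nil)) (and_l (and_r (and_l (and_r (and_r (and_r b67))))))
theorem n1086 : ¬ TripleMatch 3000000000 (items (st 1112011210111111211111100110100000)) 9 :=
  step (ws := ws) (ts0 := root) h0 (doms := [((st 112011210111111201111100110000000), 8), ((st 1111011210111111111111100110000000), 8), ((st 1112011100111111211111100110000000), 8)]) (fuel := 8) (doms_cons n1083 (doms_cons n879 (doms_cons n1085 doms_nil))) (and_l (and_r (and_r (and_l (and_r (and_r (and_r b67)))))))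
theorem n1087 : ¬ TripleMatch 3000000000 (items (st 1112011320111111211111100110110000)) 10 :=
  step (ws := ws) (ts0 := root) h0 (doms := [((st 112011320111111201111100110100000), 9), ((st 1111011320111111111111100110100000), 9), ((st 1112011210111111211111100110100000), 9)]) (fuel := 8) (doms_cons n1084 (doms_cons n880 (doms_cons n1086 doms_nil))) (and_l (and_r (and_r (and_r (and_l (and_r (and_r (and_r b67))))))))
theorem n1088 : ¬ TripleMatch 3000000000 (items (st 112011320111111201111100111000000)) 9 :=
  step (ws := ws) (ts0 := root) h0 (doms := [((st 111011320111111101111100110000000), 8), ((st 112011210111111201111100110000000), 8)]) (fuel := 8) (doms_cons n874 (doms_cons n1083 doms_nil)) (and_l (and_l b68))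
theorem n1089 : ¬ TripleMatch 3000000000 (items (st 1000112011100111111201111100111000000)) 8 :=
  step (ws := ws) (ts0 := root) h0 (doms := [((st 112011100111111201111100100000000), 7), ((st 1000111011100111111101111100110000000), 7)]) (fuel := 8) (doms_cons n1082 (doms_cons n885 doms_nil)) (and_l (and_r (and_l b68)))
theorem n1090 : ¬ TripleMatch 3000000000 (items (st 1000112011210111111201111100111100000)) 9 :=
  step (ws := ws) (ts0 := root) h0 (doms := [((st 112011210111111201111100110000000), 8), ((st 1000111011210111111101111100111000000), 8), ((st 1000112011100111111201111100111000000), 8)]) (fuel := 8) (doms_cons n1083 (doms_cons n886 (doms_cons n1089 doms_nil))) (and_l (and_r (and_r (and_l b68))))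
theorem n1091 : ¬ TripleMatch 3000000000 (items (st 1000112011320111111201111100111110000)) 10 :=
  step (ws := ws) (ts0 := root) h0 (doms := [((st 112011320111111201111100111000000), 9), ((st 1000111011320111111101111100111100000), 9), ((st 1000112011210111111201111100111100000), 9)]) (fuel := 8) (doms_cons n1088 (doms_cons n887 (doms_cons n1090 doms_nil))) (and_l (and_r (and_r (and_r (and_l b68)))))
theorem n1092 : ¬ TripleMatch 3000000000 (items (st 1112011210111111211111100111000000)) 9 :=
  step (ws := ws) (ts0 := root) h0 (doms := [((st 112011210111111201111100110000000), 8), ((st 1111011210111111111111100110000000), 8), ((st 1112011100111111211111100110000000), 8)]) (fuel := 8) (doms_cons n1083 (doms_cons n879 (doms_cons n1085 doms_nil))) (and_l (and_l (and_r b68)))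
theorem n1093 : ¬ TripleMatch 3000000000 (items (st 1001112011100111111211111100111100000)) 9 :=
  step (ws := ws) (ts0 := root) h0 (doms := [((st 1112011100111111211111100110000000), 8), ((st 1000112011100111111201111100111000000), 8), ((st 1001111011100111111111111100111000000), 8)]) (fuel := 8) (doms_cons n1085 (doms_cons n1089 (doms_cons n892 doms_nil))) (and_l (and_r (and_l (and_r b68))))
theorem n1094 : ¬ TripleMatch 3000000000 (items (st 1001112011210111111211111100111110000)) 10 :=
  step (ws := ws) (ts0 := root) h0 (doms := [((st 1112011210111111211111100111000000), 9), ((st 1000112011210111111201111100111100000), 9), ((st 1001111011210111111111111100111100000), 9), ((st 1001112011100111111211111100111100000), 9)]) (fuel := 8) (doms_cons n1092 (doms_cons n1090 (doms_cons n893 (doms_cons n1093 doms_nil)))) (and_l (and_r (and_r (and_l (and_r b68)))))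
theorem n1095 : ¬ TripleMatch 3000000000 (items (st 1001112011320111111211111100111111000)) 11 :=
  step (ws := ws) (ts0 := root) h0 (doms := [((st 1112011320111111211111100110110000), 10), ((st 1000112011320111111201111100111110000), 10), ((st 1001111011320111111111111100111110000), 10), ((st 1001112011210111111211111100111110000), 10)]) (fuel := 8) (doms_cons n1087 (doms_cons n1091 (doms_cons n894 (doms_cons n1094 doms_nil)))) (and_l (and_r (and_r (and_r (and_l (and_r b68))))))
theorem n1096 : ¬ TripleMatch 3000000000 (items (st 2011100111111200110000000000000)) 5 :=
  step (ws := ws) (ts0 := root) h0 (doms := [((st 1011100111111100100000000000000), 4)]) (fuel := 8) (doms_cons n870 doms_nil) (and_l (and_l (and_r (and_r b68))))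
theorem n1097 : ¬ TripleMatch 3000000000 (items (st 12011100111111201110100000000000)) 6 :=
  step (ws := ws) (ts0 := root) h0 (doms := [((st 2011100111111200110000000000000), 5), ((st 11011100111111101110000000000000), 5)]) (fuel := 8) (doms_cons n1096 (doms_cons n869 doms_nil)) (and_l (and_r (and_l (and_r (and_r b68)))))
theorem n1098 : ¬ TripleMatch 3000000000 (items (st 102011100111111200111100000000000)) 6 :=
  step (ws := ws) (ts0 := root) h0 (doms := [((st 2011100111111200110000000000000), 5), ((st 101011100111111100111000000000000), 5)]) (fuel := 8) (doms_cons n1096 (doms_cons n871 doms_nil)) (and_l (and_r (and_r (and_l (and_r (and_r b68))))))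
theorem n1099 : ¬ TripleMatch 3000000000 (items (st 112011100111111201111110000000000)) 7 :=
  step (ws := ws) (ts0 := root) h0 (doms := [((st 12011100111111201110100000000000), 6), ((st 102011100111111200111100000000000), 6), ((st 111011100111111101111100000000000), 6)]) (fuel := 8) (doms_cons n1097 (doms_cons n1098 (doms_cons n872 doms_nil))) (and_l (and_r (and_r (and_r (and_l (and_r (and_r b68)))))))
theorem n1100 : ¬ TripleMatch 3000000000 (items (st 112011210111111201111110100000000)) 8 :=
  step (ws := ws) (ts0 := root) h0 (doms := [((st 111011210111111101111110000000000), 7), ((st 112011100111111201111110000000000), 7)]) (fuel := 8) (doms_cons n902 (doms_cons n1099 doms_nil)) (and_l (and_l (and_r (and_r (and_r b68)))))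
theorem n1101 : ¬ TripleMatch 3000000000 (items (st 112011320111111201111110100100000)) 9 :=
  step (ws := ws) (ts0 := root) h0 (doms := [((st 111011320111111101111110100000000), 8), ((st 112011210111111201111110100000000), 8)]) (fuel := 8) (doms_cons n903 (doms_cons n1100 doms_nil)) (and_l (and_r (and_l (and_r (and_r (and_r b68))))))
theorem n1102 : ¬ TripleMatch 3000000000 (items (st 100112011100111111201111110110000000)) 8 :=
  step (ws := ws) (ts0 := root) h0 (doms := [((st 112011100111111201111110000000000), 7), ((st 100111011100111111101111110100000000), 7)]) (fuel := 8) (doms_cons n1099 (doms_cons n910 doms_nil)) (and_l (and_r (and_r (and_l (and_r (and_r (and_r b68)))))))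
theorem n1103 : ¬ TripleMatch 3000000000 (items (st 100112011210111111201111110110100000)) 9 :=
  step (ws := ws) (ts0 := root) h0 (doms := [((st 112011210111111201111110100000000), 8), ((st 100111011210111111101111110110000000), 8), ((st 100112011100111111201111110110000000), 8)]) (fuel := 8) (doms_cons n1100 (doms_cons n911 (doms_cons n1102 doms_nil))) (and_l (and_r (and_r (and_r (and_l (and_r (and_r (and_r b68))))))))
theorem n1104 : ¬ TripleMatch 3000000000 (items (st 100112011320111111201111110110110000)) 10 :=
  step (ws := ws) (ts0 := root) h0 (doms := [((st 112011320111111201111110100100000), 9), ((st 100111011320111111101111110110100000), 9), ((st 100112011210111111201111110110100000), 9)]) (fuel := 8) (doms_cons n1101 (doms_cons n912 (doms_cons n1103 doms_nil))) (and_l (and_l b69))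
theorem n1105 : ¬ TripleMatch 3000000000 (items (st 112011210111111201111110010000000)) 8 :=
  step (ws := ws) (ts0 := root) h0 (doms := [((st 111011210111111101111110000000000), 7), ((st 112011100111111201111110000000000), 7)]) (fuel := 8) (doms_cons n902 (doms_cons n1099 doms_nil)) (and_l (and_r (and_l b69)))
theorem n1106 : ¬ TripleMatch 3000000000 (items (st 112011320111111201111110011000000)) 9 :=
  step (ws := ws) (ts0 := root) h0 (doms := [((st 111011320111111101111110010000000), 8), ((st 112011210111111201111110010000000), 8)]) (fuel := 8) (doms_cons n916 (doms_cons n1105 doms_nil)) (and_l (and_r (and_r (and_l b69))))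
theorem n1107 : ¬ TripleMatch 3000000000 (items (st 1000112011100111111201111110011000000)) 8 :=
  step (ws := ws) (ts0 := root) h0 (doms := [((st 112011100111111201111110000000000), 7), ((st 1000111011100111111101111110010000000), 7)]) (fuel := 8) (doms_cons n1099 (doms_cons n919 doms_nil)) (and_l (and_r (and_r (and_r (and_l b69)))))
theorem n1108 : ¬ TripleMatch 3000000000 (items (st 1000112011210111111201111110011100000)) 9 :=
  step (ws := ws) (ts0 := root) h0 (doms := [((st 112011210111111201111110010000000), 8), ((st 1000111011210111111101111110011000000), 8), ((st 1000112011100111111201111110011000000), 8)]) (fuel := 8) (doms_cons n1105 (doms_cons n920 (doms_cons n1107 doms_nil))) (and_l (and_l (and_r b69)))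
theorem n1109 : ¬ TripleMatch 3000000000 (items (st 1000112011320111111201111110011110000)) 10 :=
  step (ws := ws) (ts0 := root) h0 (doms := [((st 112011320111111201111110011000000), 9), ((st 1000111011320111111101111110011100000), 9), ((st 1000112011210111111201111110011100000), 9)]) (fuel := 8) (doms_cons n1106 (doms_cons n921 (doms_cons n1108 doms_nil))) (and_l (and_r (and_l (and_r b69))))
theorem n1110 : ¬ TripleMatch 3000000000 (items (st 100112011210111111201111110111000000)) 9 :=
  step (ws := ws) (ts0 := root) h0 (doms := [((st 112011210111111201111110100000000), 8), ((st 100111011210111111101111110110000000), 8), ((st 100112011100111111201111110110000000), 8)]) (fuel := 8) (doms_cons n1100 (doms_cons n911 (doms_cons n1102 doms_nil))) (and_l (and_r (and_r (and_l (and_r b69)))))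
theorem n1111 : ¬ TripleMatch 3000000000 (items (st 1000112011100111111201111110110000000)) 8 :=
  step (ws := ws) (ts0 := root) h0 (doms := [((st 112011100111111201111110000000000), 7), ((st 1000111011100111111101111110100000000), 7)]) (fuel := 8) (doms_cons n1099 (doms_cons n926 doms_nil)) (and_l (and_r (and_r (and_r (and_l (and_r b69))))))
theorem n1112 : ¬ TripleMatch 3000000000 (items (st 1000112011210111111201111110110100000)) 9 :=
  step (ws := ws) (ts0 := root) h0 (doms := [((st 112011210111111201111110100000000), 8), ((st 1000111011210111111101111110110000000), 8), ((st 1000112011100111111201111110110000000), 8)]) (fuel := 8) (doms_cons n1100 (doms_cons n927 (doms_cons n1111 doms_nil))) (and_l (and_l (and_r (and_r b69))))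
theorem n1113 : ¬ TripleMatch 3000000000 (items (st 1100112011100111111201111110111100000)) 9 :=
  step (ws := ws) (ts0 := root) h0 (doms := [((st 1000112011100111111201111110110000000), 8), ((st 1100111011100111111101111110111000000), 8)]) (fuel := 8) (doms_cons n1111 (doms_cons n929 doms_nil)) (and_l (and_r (and_l (and_r (and_r b69)))))
theorem n1114 : ¬ TripleMatch 3000000000 (items (st 1100112011210111111201111110111110000)) 10 :=
  step (ws := ws) (ts0 := root) h0 (doms := [((st 100112011210111111201111110111000000), 9), ((st 1000112011210111111201111110110100000), 9), ((st 1100111011210111111101111110111100000), 9), ((st 1100112011100111111201111110111100000), 9)]) (fuel := 8) (doms_cons n1110 (doms_cons n1112 (doms_cons n930 (doms_cons n1113 doms_nil)))) (and_l (and_r (and_r (and_l (and_r (and_r b69))))))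
theorem n1115 : ¬ TripleMatch 3000000000 (items (st 1100112011320111111201111110111111000)) 11 :=
  step (ws := ws) (ts0 := root) h0 (doms := [((st 100112011320111111201111110110110000), 10), ((st 1000112011320111111201111110011110000), 10), ((st 1100111011320111111101111110111110000), 10), ((st 1100112011210111111201111110111110000), 10)]) (fuel := 8) (doms_cons n1104 (doms_cons n1109 (doms_cons n931 (doms_cons n1114 doms_nil)))) (and_l (and_r (and_r (and_r (and_l (and_r (and_r b69)))))))
theorem n1116 : ¬ TripleMatch 3000000000 (items (st 1112011100111111211111110100000000)) 8 :=
  step (ws := ws) (ts0 := root) h0 (doms := [((st 112011100111111201111110000000000), 7), ((st 1111011100111111111111110000000000), 7)]) (fuel := 8) (doms_cons n1099 (doms_cons n953 doms_nil)) (and_l (and_l (and_r (and_r (and_r b69)))))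
theorem n1117 : ¬ TripleMatch 3000000000 (items (st 1112011210111111211111110100100000)) 9 :=
  step (ws := ws) (ts0 := root) h0 (doms := [((st 112011210111111201111110100000000), 8), ((st 1111011210111111111111110100000000), 8), ((st 1112011100111111211111110100000000), 8)]) (fuel := 8) (doms_cons n1100 (doms_cons n954 (doms_cons n1116 doms_nil))) (and_l (and_r (and_l (and_r (and_r (and_r b69))))))
theorem n1118 : ¬ TripleMatch 3000000000 (items (st 101112011100111111211111110110100000)) 9 :=
  step (ws := ws) (ts0 := root) h0 (doms := [((st 1112011100111111211111110100000000), 8), ((st 100112011100111111201111110110000000), 8), ((st 101111011100111111111111110110000000), 8)]) (fuel := 8) (doms_cons n1116 (doms_cons n1102 (doms_cons n956 doms_nil))) (and_l (and_r (and_r (and_l (and_r (and_r (and_r b69)))))))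
theorem n1119 : ¬ TripleMatch 3000000000 (items (st 101112011210111111211111110110110000)) 10 :=
  step (ws := ws) (ts0 := root) h0 (doms := [((st 1112011210111111211111110100100000), 9), ((st 100112011210111111201111110110100000), 9), ((st 101111011210111111111111110110100000), 9), ((st 101112011100111111211111110110100000), 9)]) (fuel := 8) (doms_cons n1117 (doms_cons n1103 (doms_cons n957 (doms_cons n1118 doms_nil)))) (and_l (and_r (and_r (and_r (and_l (and_r (and_r (and_r b69))))))))
theorem n1120 : ¬ TripleMatch 3000000000 (items (st 1112011100111111211111110010000000)) 8 :=
  step (ws := ws) (ts0 := root) h0 (doms := [((st 112011100111111201111110000000000), 7), ((st 1111011100111111111111110000000000), 7)]) (fuel := 8) (doms_cons n1099 (doms_cons n953 doms_nil)) (and_l (and_l b70))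
theorem n1121 : ¬ TripleMatch 3000000000 (items (st 1112011210111111211111110011000000)) 9 :=
  step (ws := ws) (ts0 := root) h0 (doms := [((st 112011210111111201111110010000000), 8), ((st 1111011210111111111111110010000000), 8), ((st 1112011100111111211111110010000000), 8)]) (fuel := 8) (doms_cons n1105 (doms_cons n959 (doms_cons n1120 doms_nil))) (and_l (and_r (and_l b70)))
theorem n1122 : ¬ TripleMatch 3000000000 (items (st 1001112011100111111211111110011100000)) 9 :=
  step (ws := ws) (ts0 := root) h0 (doms := [((st 1112011100111111211111110010000000), 8), ((st 1000112011100111111201111110011000000), 8), ((st 1001111011100111111111111110011000000), 8)]) (fuel := 8) (doms_cons n1120 (doms_cons n1107 (doms_cons n961 doms_nil))) (and_l (and_r (and_r (and_l b70))))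
theorem n1123 : ¬ TripleMatch 3000000000 (items (st 1001112011210111111211111110011110000)) 10 :=
  step (ws := ws) (ts0 := root) h0 (doms := [((st 1112011210111111211111110011000000), 9), ((st 1000112011210111111201111110011100000), 9), ((st 1001111011210111111111111110011100000), 9), ((st 1001112011100111111211111110011100000), 9)]) (fuel := 8) (doms_cons n1121 (doms_cons n1108 (doms_cons n962 (doms_cons n1122 doms_nil)))) (and_l (and_r (and_r (and_r (and_l b70)))))
theorem n1124 : ¬ TripleMatch 3000000000 (items (st 101112011100111111211111110111000000)) 9 :=
  step (ws := ws) (ts0 := root) h0 (doms := [((st 1112011100111111211111110100000000), 8), ((st 100112011100111111201111110110000000), 8), ((st 101111011100111111111111110110000000), 8)]) (fuel := 8) (doms_cons n1116 (doms_cons n1102 (doms_cons n956 doms_nil))) (and_l (and_l (and_r b70)))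
theorem n1125 : ¬ TripleMatch 3000000000 (items (st 1001112011100111111211111110110100000)) 9 :=
  step (ws := ws) (ts0 := root) h0 (doms := [((st 1112011100111111211111110100000000), 8), ((st 1000112011100111111201111110110000000), 8), ((st 1001111011100111111111111110110000000), 8)]) (fuel := 8) (doms_cons n1116 (doms_cons n1111 (doms_cons n965 doms_nil))) (and_l (and_r (and_l (and_r b70))))
theorem n1126 : ¬ TripleMatch 3000000000 (items (st 1101112011100111111211111110111110000)) 10 :=
  step (ws := ws) (ts0 := root) h0 (doms := [((st 101112011100111111211111110111000000), 9), ((st 1001112011100111111211111110110100000), 9), ((st 1100112011100111111201111110111100000), 9), ((st 1101111011100111111111111110111100000), 9)]) (fuel := 8) (doms_cons n1124 (doms_cons n1125 (doms_cons n1113 (doms_cons n967 doms_nil)))) (and_l (and_r (and_r (and_l (and_r b70)))))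
theorem n1127 : ¬ TripleMatch 3000000000 (items (st 1101112011210111111211111110111111000)) 11 :=
  step (ws := ws) (ts0 := root) h0 (doms := [((st 101112011210111111211111110110110000), 10), ((st 1001112011210111111211111110011110000), 10), ((st 1100112011210111111201111110111110000), 10), ((st 1101111011210111111111111110111110000), 10), ((st 1101112011100111111211111110111110000), 10)]) (fuel := 8) (doms_cons n1119 (doms_cons n1123 (doms_cons n1114 (doms_cons n968 (doms_cons n1126 doms_nil))))) (and_l (and_r (and_r (and_r (and_l (and_r b70))))))
theorem n1128 : ¬ TripleMatch 3000000000 (items (st 1101112011320111111211111110111111100)) 12 :=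
  step (ws := ws) (ts0 := root) h0 (doms := [((st 1001112011320111111211111100111111000), 11), ((st 1100112011320111111201111110111111000), 11), ((st 1101111011320111111111111110111111000), 11), ((st 1101112011210111111211111110111111000), 11)]) (fuel := 8) (doms_cons n1095 (doms_cons n1115 (doms_cons n969 (doms_cons n1127 doms_nil)))) (and_l (and_l (and_r (and_r b70))))
theorem n1129 : ¬ TripleMatch 3000000000 (items (st 10112011100111111201111111100000000)) 8 :=
  step (ws := ws) (ts0 := root) h0 (doms := [((st 112011100111111201111110000000000), 7), ((st 10111011100111111101111111000000000), 7)]) (fuel := 8) (doms_cons n1099 (doms_cons n986 doms_nil)) (and_l (and_r (and_l (and_r (and_r b70)))))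
theorem n1130 : ¬ TripleMatch 3000000000 (items (st 10112011210111111201111111100100000)) 9 :=
  step (ws := ws) (ts0 := root) h0 (doms := [((st 112011210111111201111110100000000), 8), ((st 10111011210111111101111111100000000), 8), ((st 10112011100111111201111111100000000), 8)]) (fuel := 8) (doms_cons n1100 (doms_cons n987 (doms_cons n1129 doms_nil))) (and_l (and_r (and_r (and_l (and_r (and_r b70))))))
theorem n1131 : ¬ TripleMatch 3000000000 (items (st 110112011100111111201111111110100000)) 9 :=
  step (ws := ws) (ts0 := root) h0 (doms := [((st 10112011100111111201111111100000000), 8), ((st 100112011100111111201111110110000000), 8), ((st 110111011100111111101111111110000000), 8)]) (fuel := 8) (doms_cons n1129 (doms_cons n1102 (doms_cons n992 doms_nil))) (and_l (and_r (and_r (and_r (and_l (and_r (and_r b70)))))))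
theorem n1132 : ¬ TripleMatch 3000000000 (items (st 110112011210111111201111111110110000)) 10 :=
  step (ws := ws) (ts0 := root) h0 (doms := [((st 10112011210111111201111111100100000), 9), ((st 100112011210111111201111110110100000), 9), ((st 110111011210111111101111111110100000), 9), ((st 110112011100111111201111111110100000), 9)]) (fuel := 8) (doms_cons n1130 (doms_cons n1103 (doms_cons n993 (doms_cons n1131 doms_nil)))) (and_l (and_l (and_r (and_r (and_r b70)))))
theorem n1133 : ¬ TripleMatch 3000000000 (items (st 10112011100111111201111111010000000)) 8 :=
  step (ws := ws) (ts0 := root) h0 (doms := [((st 112011100111111201111110000000000), 7), ((st 10111011100111111101111111000000000), 7)]) (fuel := 8) (doms_cons n1099 (doms_cons n986 doms_nil)) (and_l (and_r (and_l (and_r (and_r (and_r b70))))))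
theorem n1134 : ¬ TripleMatch 3000000000 (items (st 10112011210111111201111111011000000)) 9 :=
  step (ws := ws) (ts0 := root) h0 (doms := [((st 112011210111111201111110010000000), 8), ((st 10111011210111111101111111010000000), 8), ((st 10112011100111111201111111010000000), 8)]) (fuel := 8) (doms_cons n1105 (doms_cons n995 (doms_cons n1133 doms_nil))) (and_l (and_r (and_r (and_l (and_r (and_r (and_r b70)))))))
theorem n1135 : ¬ TripleMatch 3000000000 (items (st 1010112011100111111201111111011100000)) 9 :=
  step (ws := ws) (ts0 := root) h0 (doms := [((st 10112011100111111201111111010000000), 8), ((st 1000112011100111111201111110011000000), 8), ((st 1010111011100111111101111111011000000), 8)]) (fuel := 8) (doms_cons n1133 (doms_cons n1107 (doms_cons n997 doms_nil))) (and_l (and_r (and_r (and_r (and_l (and_r (and_r (and_r b70))))))))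
theorem n1136 : ¬ TripleMatch 3000000000 (items (st 1010112011210111111201111111011110000)) 10 :=
  step (ws := ws) (ts0 := root) h0 (doms := [((st 10112011210111111201111111011000000), 9), ((st 1000112011210111111201111110011100000), 9), ((st 1010111011210111111101111111011100000), 9), ((st 1010112011100111111201111111011100000), 9)]) (fuel := 8) (doms_cons n1134 (doms_cons n1108 (doms_cons n998 (doms_cons n1135 doms_nil)))) (and_l (and_l b71))
theorem n1137 : ¬ TripleMatch 3000000000 (items (st 100112011100111111201111111010000000)) 8 :=
  step (ws := ws) (ts0 := root) h0 (doms := [((st 112011100111111201111110000000000), 7), ((st 100111011100111111101111111000000000), 7)]) (fuel := 8) (doms_cons n1099 (doms_cons n991 doms_nil)) (and_l (and_r (and_l b71)))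
theorem n1138 : ¬ TripleMatch 3000000000 (items (st 110112011100111111201111111111000000)) 9 :=
  step (ws := ws) (ts0 := root) h0 (doms := [((st 10112011100111111201111111100000000), 8), ((st 100112011100111111201111111010000000), 8), ((st 110111011100111111101111111110000000), 8)]) (fuel := 8) (doms_cons n1129 (doms_cons n1137 (doms_cons n992 doms_nil))) (and_l (and_r (and_r (and_l b71))))
theorem n1139 : ¬ TripleMatch 3000000000 (items (st 1010112011100111111201111111110100000)) 9 :=
  step (ws := ws) (ts0 := root) h0 (doms := [((st 10112011100111111201111111100000000), 8), ((st 1000112011100111111201111110110000000), 8), ((st 1010111011100111111101111111110000000), 8)]) (fuel := 8) (doms_cons n1129 (doms_cons n1111 (doms_cons n1005 doms_nil))) (and_l (and_r (and_r (and_r (and_l b71)))))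
theorem n1140 : ¬ TripleMatch 3000000000 (items (st 1110112011100111111201111111111110000)) 10 :=
  step (ws := ws) (ts0 := root) h0 (doms := [((st 110112011100111111201111111111000000), 9), ((st 1010112011100111111201111111110100000), 9), ((st 1100112011100111111201111110111100000), 9), ((st 1110111011100111111101111111111100000), 9)]) (fuel := 8) (doms_cons n1138 (doms_cons n1139 (doms_cons n1113 (doms_cons n1007 doms_nil)))) (and_l (and_l (and_r b71)))
theorem n1141 : ¬ TripleMatch 3000000000 (items (st 1110112011210111111201111111111111000)) 11 :=
  step (ws := ws) (ts0 := root) h0 (doms := [((st 110112011210111111201111111110110000), 10), ((st 1010112011210111111201111111011110000), 10), ((st 1100112011210111111201111110111110000), 10), ((st 1110111011210111111101111111111110000), 10), ((st 1110112011100111111201111111111110000), 10)]) (fuel := 8) (doms_cons n1132 (doms_cons n1136 (doms_cons n1114 (doms_cons n1008 (doms_cons n1140 doms_nil))))) (and_l (and_r (and_l (and_r b71))))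
theorem n1142 : ¬ TripleMatch 3000000000 (items (st 1110112011320111111201111111111111100)) 12 :=
  step (ws := ws) (ts0 := root) h0 (doms := [((st 1100112011320111111201111110111111000), 11), ((st 1110111011320111111101111111111111000), 11), ((st 1110112011210111111201111111111111000), 11)]) (fuel := 8) (doms_cons n1115 (doms_cons n1009 (doms_cons n1141 doms_nil))) (and_l (and_r (and_r (and_l (and_r b71)))))
theorem n1143 : ¬ TripleMatch 3000000000 (items (st 11112011100111111211111111100100000)) 9 :=
  step (ws := ws) (ts0 := root) h0 (doms := [((st 1112011100111111211111110100000000), 8), ((st 10112011100111111201111111100000000), 8), ((st 11111011100111111111111111100000000), 8)]) (fuel := 8) (doms_cons n1116 (doms_cons n1129 (doms_cons n1024 doms_nil))) (and_l (and_r (and_r (and_r (and_l (and_r b71))))))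
theorem n1144 : ¬ TripleMatch 3000000000 (items (st 111112011100111111211111111110110000)) 10 :=
  step (ws := ws) (ts0 := root) h0 (doms := [((st 11112011100111111211111111100100000), 9), ((st 101112011100111111211111110110100000), 9), ((st 110112011100111111201111111110100000), 9), ((st 111111011100111111111111111110100000), 9)]) (fuel := 8) (doms_cons n1143 (doms_cons n1118 (doms_cons n1131 (doms_cons n1026 doms_nil)))) (and_l (and_l (and_r (and_r b71))))
theorem n1145 : ¬ TripleMatch 3000000000 (items (st 11112011100111111211111111011000000)) 9 :=
  step (ws := ws) (ts0 := root) h0 (doms := [((st 1112011100111111211111110010000000), 8), ((st 10112011100111111201111111010000000), 8), ((st 11111011100111111111111111010000000), 8)]) (fuel := 8) (doms_cons n1120 (doms_cons n1133 (doms_cons n1028 doms_nil))) (and_l (and_r (and_l (and_r (and_r b71)))))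
theorem n1146 : ¬ TripleMatch 3000000000 (items (st 1011112011100111111211111111011110000)) 10 :=
  step (ws := ws) (ts0 := root) h0 (doms := [((st 11112011100111111211111111011000000), 9), ((st 1001112011100111111211111110011100000), 9), ((st 1010112011100111111201111111011100000), 9), ((st 1011111011100111111111111111011100000), 9)]) (fuel := 8) (doms_cons n1145 (doms_cons n1122 (doms_cons n1135 (doms_cons n1030 doms_nil)))) (and_l (and_r (and_r (and_l (and_r (and_r b71))))))
theorem n1147 : ¬ TripleMatch 3000000000 (items (st 1111112011100111111211111111111111000)) 11 :=
  step (ws := ws) (ts0 := root) h0 (doms := [((st 111112011100111111211111111110110000), 10), ((st 1011112011100111111211111111011110000), 10), ((st 1101112011100111111211111110111110000), 10), ((st 1110112011100111111201111111111110000), 10), ((st 1111111011100111111111111111111110000), 10)]) (fuel := 8) (doms_cons n1144 (doms_cons n1146 (doms_cons n1126 (doms_cons n1140 (doms_cons n1035 doms_nil))))) (and_l (and_r (and_r (and_r (and_l (and_r (and_r b71)))))))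
theorem n1148 : ¬ TripleMatch 3000000000 (items (st 1111112011210111111211111111111111100)) 12 :=
  step (ws := ws) (ts0 := root) h0 (doms := [((st 1101112011210111111211111110111111000), 11), ((st 1110112011210111111201111111111111000), 11), ((st 1111111011210111111111111111111111000), 11), ((st 1111112011100111111211111111111111000), 11)]) (fuel := 8) (doms_cons n1127 (doms_cons n1141 (doms_cons n1036 (doms_cons n1147 doms_nil)))) (and_l (and_l (and_r (and_r (and_r b71)))))
theorem n1149 : ¬ TripleMatch 3000000000 (items (st 1111112011320111111211111111111111110)) 13 :=
  step (ws := ws) (ts0 := root) h0 (doms := [((st 1101112011320111111211111110111111100), 12), ((st 1110112011320111111201111111111111100), 12), ((st 1111111011320111111111111111111111100), 12), ((st 1111112011210111111211111111111111100), 12)]) (fuel := 8) (doms_cons n1128 (doms_cons n1142 (doms_cons n1037 (doms_cons n1148 doms_nil)))) (and_l (and_r (and_l (and_r (and_r (and_r b71))))))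
theorem n1150 : ¬ TripleMatch 3000000000 (items (st 112111101111111201111100110000000)) 8 :=
  step (ws := ws) (ts0 := root) h0 (doms := [((st 111111101111111101111100100000000), 7), ((st 112011100111111201111100100000000), 7)]) (fuel := 8) (doms_cons n875 (doms_cons n1082 doms_nil)) (and_l (and_r (and_r (and_l (and_r (and_r (and_r b71)))))))
theorem n1151 : ¬ TripleMatch 3000000000 (items (st 112111211111111201111100110100000)) 9 :=
  step (ws := ws) (ts0 := root) h0 (doms := [((st 111111211111111101111100110000000), 8), ((st 112011210111111201111100110000000), 8), ((st 112111101111111201111100110000000), 8)]) (fuel := 8) (doms_cons n876 (doms_cons n1083 (doms_cons n1150 doms_nil))) (and_l (and_r (and_r (and_r (and_l (and_r (and_r (and_r b71))))))))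
theorem n1152 : ¬ TripleMatch 3000000000 (items (st 1112111101111111211111100110100000)) 9 :=
  step (ws := ws) (ts0 := root) h0 (doms := [((st 112111101111111201111100110000000), 8), ((st 1111111101111111111111100110000000), 8), ((st 1112011100111111211111100110000000), 8)]) (fuel := 8) (doms_cons n1150 (doms_cons n881 (doms_cons n1085 doms_nil))) (and_l (and_l b72))
theorem n1153 : ¬ TripleMatch 3000000000 (items (st 1112111211111111211111100110110000)) 10 :=
  step (ws := ws) (ts0 := root) h0 (doms := [((st 112111211111111201111100110100000), 9), ((st 1111111211111111111111100110100000), 9), ((st 1112011210111111211111100110100000), 9), ((st 1112111101111111211111100110100000), 9)]) (fuel := 8) (doms_cons n1151 (doms_cons n882 (doms_cons n1086 (doms_cons n1152 doms_nil)))) (and_l (and_r (and_l b72)))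
theorem n1154 : ¬ TripleMatch 3000000000 (items (st 112111211111111201111100111000000)) 9 :=
  step (ws := ws) (ts0 := root) h0 (doms := [((st 111111211111111101111100110000000), 8), ((st 112011210111111201111100110000000), 8), ((st 112111101111111201111100110000000), 8)]) (fuel := 8) (doms_cons n876 (doms_cons n1083 (doms_cons n1150 doms_nil))) (and_l (and_r (and_r (and_l b72))))
theorem n1155 : ¬ TripleMatch 3000000000 (items (st 1000112111101111111201111100111100000)) 9 :=
  step (ws := ws) (ts0 := root) h0 (doms := [((st 112111101111111201111100110000000), 8), ((st 1000111111101111111101111100111000000), 8), ((st 1000112011100111111201111100111000000), 8)]) (fuel := 8) (doms_cons n1150 (doms_cons n888 (doms_cons n1089 doms_nil))) (and_l (and_r (and_r (and_r (and_l b72)))))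
theorem n1156 : ¬ TripleMatch 3000000000 (items (st 1000112111211111111201111100111110000)) 10 :=
  step (ws := ws) (ts0 := root) h0 (doms := [((st 112111211111111201111100111000000), 9), ((st 1000111111211111111101111100111100000), 9), ((st 1000112011210111111201111100111100000), 9), ((st 1000112111101111111201111100111100000), 9)]) (fuel := 8) (doms_cons n1154 (doms_cons n889 (doms_cons n1090 (doms_cons n1155 doms_nil)))) (and_l (and_l (and_r b72)))
theorem n1157 : ¬ TripleMatch 3000000000 (items (st 1112111101111111211111100111000000)) 9 :=
  step (ws := ws) (ts0 := root) h0 (doms := [((st 112111101111111201111100110000000), 8), ((st 1111111101111111111111100110000000), 8), ((st 1112011100111111211111100110000000), 8)]) (fuel := 8) (doms_cons n1150 (doms_cons n881 (doms_cons n1085 doms_nil))) (and_l (and_r (and_l (and_r b72))))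
theorem n1158 : ¬ TripleMatch 3000000000 (items (st 1001112111101111111211111100111110000)) 10 :=
  step (ws := ws) (ts0 := root) h0 (doms := [((st 1112111101111111211111100111000000), 9), ((st 1000112111101111111201111100111100000), 9), ((st 1001111111101111111111111100111100000), 9), ((st 1001112011100111111211111100111100000), 9)]) (fuel := 8) (doms_cons n1157 (doms_cons n1155 (doms_cons n896 (doms_cons n1093 doms_nil)))) (and_l (and_r (and_r (and_l (and_r b72)))))
theorem n1159 : ¬ TripleMatch 3000000000 (items (st 1001112111211111111211111100111111000)) 11 :=
  step (ws := ws) (ts0 := root) h0 (doms := [((st 1112111211111111211111100110110000), 10), ((st 1000112111211111111201111100111110000), 10), ((st 1001111111211111111111111100111110000), 10), ((st 1001112011210111111211111100111110000), 10), ((st 1001112111101111111211111100111110000), 10)]) (fuel := 8) (doms_cons n1153 (doms_cons n1156 (doms_cons n897 (doms_cons n1094 (doms_cons n1158 doms_nil))))) (and_l (and_r (and_r (and_r (and_l (and_r b72))))))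
theorem n1160 : ¬ TripleMatch 3000000000 (items (st 112111101111111201111110100000000)) 8 :=
  step (ws := ws) (ts0 := root) h0 (doms := [((st 111111101111111101111110000000000), 7), ((st 112011100111111201111110000000000), 7)]) (fuel := 8) (doms_cons n907 (doms_cons n1099 doms_nil)) (and_l (and_l (and_r (and_r b72))))
theorem n1161 : ¬ TripleMatch 3000000000 (items (st 112111211111111201111110100100000)) 9 :=
  step (ws := ws) (ts0 := root) h0 (doms := [((st 111111211111111101111110100000000), 8), ((st 112011210111111201111110100000000), 8), ((st 112111101111111201111110100000000), 8)]) (fuel := 8) (doms_cons n908 (doms_cons n1100 (doms_cons n1160 doms_nil))) (and_l (and_r (and_l (and_r (and_r b72)))))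
theorem n1162 : ¬ TripleMatch 3000000000 (items (st 100112111101111111201111110110100000)) 9 :=
  step (ws := ws) (ts0 := root) h0 (doms := [((st 112111101111111201111110100000000), 8), ((st 100111111101111111101111110110000000), 8), ((st 100112011100111111201111110110000000), 8)]) (fuel := 8) (doms_cons n1160 (doms_cons n913 (doms_cons n1102 doms_nil))) (and_l (and_r (and_r (and_l (and_r (and_r b72))))))
theorem n1163 : ¬ TripleMatch 3000000000 (items (st 100112111211111111201111110110110000)) 10 :=
  step (ws := ws) (ts0 := root) h0 (doms := [((st 112111211111111201111110100100000), 9), ((st 100111111211111111101111110110100000), 9), ((st 100112011210111111201111110110100000), 9), ((st 100112111101111111201111110110100000), 9)]) (fuel := 8) (doms_cons n1161 (doms_cons n914 (doms_cons n1103 (doms_cons n1162 doms_nil)))) (and_l (and_r (and_r (and_r (and_l (and_r (and_r b72)))))))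
theorem n1164 : ¬ TripleMatch 3000000000 (items (st 112111101111111201111110010000000)) 8 :=
  step (ws := ws) (ts0 := root) h0 (doms := [((st 111111101111111101111110000000000), 7), ((st 112011100111111201111110000000000), 7)]) (fuel := 8) (doms_cons n907 (doms_cons n1099 doms_nil)) (and_l (and_l (and_r (and_r (and_r b72)))))
theorem n1165 : ¬ TripleMatch 3000000000 (items (st 112111211111111201111110011000000)) 9 :=
  step (ws := ws) (ts0 := root) h0 (doms := [((st 111111211111111101111110010000000), 8), ((st 112011210111111201111110010000000), 8), ((st 112111101111111201111110010000000), 8)]) (fuel := 8) (doms_cons n917 (doms_cons n1105 (doms_cons n1164 doms_nil))) (and_l (and_r (and_l (and_r (and_r (and_r b72))))))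
theorem n1166 : ¬ TripleMatch 3000000000 (items (st 1000112111101111111201111110011100000)) 9 :=
  step (ws := ws) (ts0 := root) h0 (doms := [((st 112111101111111201111110010000000), 8), ((st 1000111111101111111101111110011000000), 8), ((st 1000112011100111111201111110011000000), 8)]) (fuel := 8) (doms_cons n1164 (doms_cons n922 (doms_cons n1107 doms_nil))) (and_l (and_r (and_r (and_l (and_r (and_r (and_r b72)))))))
theorem n1167 : ¬ TripleMatch 3000000000 (items (st 1000112111211111111201111110011110000)) 10 :=
  step (ws := ws) (ts0 := root) h0 (doms := [((st 112111211111111201111110011000000), 9), ((st 1000111111211111111101111110011100000), 9), ((st 1000112011210111111201111110011100000), 9), ((st 1000112111101111111201111110011100000), 9)]) (fuel := 8) (doms_cons n1165 (doms_cons n923 (doms_cons n1108 (doms_cons n1166 doms_nil)))) (and_l (and_r (and_r (and_r (and_l (and_r (and_r (and_r b72))))))))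
theorem n1168 : ¬ TripleMatch 3000000000 (items (st 100112111101111111201111110111000000)) 9 :=
  step (ws := ws) (ts0 := root) h0 (doms := [((st 112111101111111201111110100000000), 8), ((st 100111111101111111101111110110000000), 8), ((st 100112011100111111201111110110000000), 8)]) (fuel := 8) (doms_cons n1160 (doms_cons n913 (doms_cons n1102 doms_nil))) (and_l (and_l b73))
theorem n1169 : ¬ TripleMatch 3000000000 (items (st 1000112111101111111201111110110100000)) 9 :=
  step (ws := ws) (ts0 := root) h0 (doms := [((st 112111101111111201111110100000000), 8), ((st 1000111111101111111101111110110000000), 8), ((st 1000112011100111111201111110110000000), 8)]) (fuel := 8) (doms_cons n1160 (doms_cons n933 (doms_cons n1111 doms_nil))) (and_l (and_r (and_l b73)))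
theorem n1170 : ¬ TripleMatch 3000000000 (items (st 1100112111101111111201111110111110000)) 10 :=
  step (ws := ws) (ts0 := root) h0 (doms := [((st 100112111101111111201111110111000000), 9), ((st 1000112111101111111201111110110100000), 9), ((st 1100111111101111111101111110111100000), 9), ((st 1100112011100111111201111110111100000), 9)]) (fuel := 8) (doms_cons n1168 (doms_cons n1169 (doms_cons n935 (doms_cons n1113 doms_nil)))) (and_l (and_r (and_r (and_l b73))))
theorem n1171 : ¬ TripleMatch 3000000000 (items (st 1100112111211111111201111110111111000)) 11 :=
  step (ws := ws) (ts0 := root) h0 (doms := [((st 100112111211111111201111110110110000), 10), ((st 1000112111211111111201111110011110000), 10), ((st 1100111111211111111101111110111110000), 10), ((st 1100112011210111111201111110111110000), 10), ((st 1100112111101111111201111110111110000), 10)]) (fuel := 8) (doms_cons n1163 (doms_cons n1167 (doms_cons n936 (doms_cons n1114 (doms_cons n1170 doms_nil))))) (and_l (and_r (and_r (and_r (and_l b73)))))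
theorem n1172 : ¬ TripleMatch 3000000000 (items (st 1112111101111111211111110100100000)) 9 :=
  step (ws := ws) (ts0 := root) h0 (doms := [((st 112111101111111201111110100000000), 8), ((st 1111111101111111111111110100000000), 8), ((st 1112011100111111211111110100000000), 8)]) (fuel := 8) (doms_cons n1160 (doms_cons n970 (doms_cons n1116 doms_nil))) (and_l (and_l (and_r b73)))
theorem n1173 : ¬ TripleMatch 3000000000 (items (st 101112111101111111211111110110110000)) 10 :=
  step (ws := ws) (ts0 := root) h0 (doms := [((st 1112111101111111211111110100100000), 9), ((st 100112111101111111201111110110100000), 9), ((st 101111111101111111111111110110100000), 9), ((st 101112011100111111211111110110100000), 9)]) (fuel := 8) (doms_cons n1172 (doms_cons n1162 (doms_cons n972 (doms_cons n1118 doms_nil)))) (and_l (and_r (and_l (and_r b73))))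
theorem n1174 : ¬ TripleMatch 3000000000 (items (st 1112111101111111211111110011000000)) 9 :=
  step (ws := ws) (ts0 := root) h0 (doms := [((st 112111101111111201111110010000000), 8), ((st 1111111101111111111111110010000000), 8), ((st 1112011100111111211111110010000000), 8)]) (fuel := 8) (doms_cons n1164 (doms_cons n974 (doms_cons n1120 doms_nil))) (and_l (and_r (and_r (and_l (and_r b73)))))
theorem n1175 : ¬ TripleMatch 3000000000 (items (st 1001112111101111111211111110011110000)) 10 :=
  step (ws := ws) (ts0 := root) h0 (doms := [((st 1112111101111111211111110011000000), 9), ((st 1000112111101111111201111110011100000), 9), ((st 1001111111101111111111111110011100000), 9), ((st 1001112011100111111211111110011100000), 9)]) (fuel := 8) (doms_cons n1174 (doms_cons n1166 (doms_cons n976 (doms_cons n1122 doms_nil)))) (and_l (and_r (and_r (and_r (and_l (and_r b73))))))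
theorem n1176 : ¬ TripleMatch 3000000000 (items (st 1101112111101111111211111110111111000)) 11 :=
  step (ws := ws) (ts0 := root) h0 (doms := [((st 101112111101111111211111110110110000), 10), ((st 1001112111101111111211111110011110000), 10), ((st 1100112111101111111201111110111110000), 10), ((st 1101111111101111111111111110111110000), 10), ((st 1101112011100111111211111110111110000), 10)]) (fuel := 8) (doms_cons n1173 (doms_cons n1175 (doms_cons n1170 (doms_cons n980 (doms_cons n1126 doms_nil))))) (and_l (and_l (and_r (and_r b73))))
theorem n1177 : ¬ TripleMatch 3000000000 (items (st 1101112111211111111211111110111111100)) 12 :=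
  step (ws := ws) (ts0 := root) h0 (doms := [((st 1001112111211111111211111100111111000), 11), ((st 1100112111211111111201111110111111000), 11), ((st 1101111111211111111111111110111111000), 11), ((st 1101112011210111111211111110111111000), 11), ((st 1101112111101111111211111110111111000), 11)]) (fuel := 8) (doms_cons n1159 (doms_cons n1171 (doms_cons n981 (doms_cons n1127 (doms_cons n1176 doms_nil))))) (and_l (and_r (and_l (and_r (and_r b73)))))
theorem n1178 : ¬ TripleMatch 3000000000 (items (st 10112111101111111201111111100100000)) 9 :=
  step (ws := ws) (ts0 := root) h0 (doms := [((st 112111101111111201111110100000000), 8), ((st 10111111101111111101111111100000000), 8), ((st 10112011100111111201111111100000000), 8)]) (fuel := 8) (doms_cons n1160 (doms_cons n1010 (doms_cons n1129 doms_nil))) (and_l (and_r (and_r (and_l (and_r (and_r b73))))))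
theorem n1179 : ¬ TripleMatch 3000000000 (items (st 110112111101111111201111111110110000)) 10 :=
  step (ws := ws) (ts0 := root) h0 (doms := [((st 10112111101111111201111111100100000), 9), ((st 100112111101111111201111110110100000), 9), ((st 110111111101111111101111111110100000), 9), ((st 110112011100111111201111111110100000), 9)]) (fuel := 8) (doms_cons n1178 (doms_cons n1162 (doms_cons n1012 (doms_cons n1131 doms_nil)))) (and_l (and_r (and_r (and_r (and_l (and_r (and_r b73)))))))
theorem n1180 : ¬ TripleMatch 3000000000 (items (st 10112111101111111201111111011000000)) 9 :=
  step (ws := ws) (ts0 := root) h0 (doms := [((st 112111101111111201111110010000000), 8), ((st 10111111101111111101111111010000000), 8), ((st 10112011100111111201111111010000000), 8)]) (fuel := 8) (doms_cons n1164 (doms_cons n1014 (doms_cons n1133 doms_nil))) (and_l (and_l (and_r (and_r (and_r b73)))))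
theorem n1181 : ¬ TripleMatch 3000000000 (items (st 1010112111101111111201111111011110000)) 10 :=
  step (ws := ws) (ts0 := root) h0 (doms := [((st 10112111101111111201111111011000000), 9), ((st 1000112111101111111201111110011100000), 9), ((st 1010111111101111111101111111011100000), 9), ((st 1010112011100111111201111111011100000), 9)]) (fuel := 8) (doms_cons n1180 (doms_cons n1166 (doms_cons n1016 (doms_cons n1135 doms_nil)))) (and_l (and_r (and_l (and_r (and_r (and_r b73))))))
theorem n1182 : ¬ TripleMatch 3000000000 (items (st 1110112111101111111201111111111111000)) 11 :=
  step (ws := ws) (ts0 := root) h0 (doms := [((st 110112111101111111201111111110110000), 10), ((st 1010112111101111111201111111011110000), 10), ((st 1100112111101111111201111110111110000), 10), ((st 1110111111101111111101111111111110000), 10), ((st 1110112011100111111201111111111110000), 10)]) (fuel := 8) (doms_cons n1179 (doms_cons n1181 (doms_cons n1170 (doms_cons n1021 (doms_cons n1140 doms_nil))))) (and_l (and_r (and_r (and_l (and_r (and_r (and_r b73)))))))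
theorem n1183 : ¬ TripleMatch 3000000000 (items (st 1110112111211111111201111111111111100)) 12 :=
  step (ws := ws) (ts0 := root) h0 (doms := [((st 1100112111211111111201111110111111000), 11), ((st 1110111111211111111101111111111111000), 11), ((st 1110112011210111111201111111111111000), 11), ((st 1110112111101111111201111111111111000), 11)]) (fuel := 8) (doms_cons n1171 (doms_cons n1022 (doms_cons n1141 (doms_cons n1182 doms_nil)))) (and_l (and_r (and_r (and_r (and_l (and_r (and_r (and_r b73))))))))
theorem n1184 : ¬ TripleMatch 3000000000 (items (st 1111112111101111111211111111111111100)) 12 :=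
  step (ws := ws) (ts0 := root) h0 (doms := [((st 1101112111101111111211111110111111000), 11), ((st 1110112111101111111201111111111111000), 11), ((st 1111111111101111111111111111111111000), 11), ((st 1111112011100111111211111111111111000), 11)]) (fuel := 8) (doms_cons n1176 (doms_cons n1182 (doms_cons n1042 (doms_cons n1147 doms_nil)))) (and_l (and_l b74))
theorem n1185 : ¬ TripleMatch 3000000000 (items (st 1111112111211111111211111111111111110)) 13 :=
  step (ws := ws) (ts0 := root) h0 (doms := [((st 1101112111211111111211111110111111100), 12), ((st 1110112111211111111201111111111111100), 12), ((st 1111111111211111111111111111111111100), 12), ((st 1111112011210111111211111111111111100), 12), ((st 1111112111101111111211111111111111100), 12)]) (fuel := 8) (doms_cons n1177 (doms_cons n1183 (doms_cons n1043 (doms_cons n1148 (doms_cons n1184 doms_nil))))) (and_l (and_r (and_l b74)))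
theorem n1186 : ¬ TripleMatch 3000000000 (items (st 1111112111321111111211111111111111111)) 14 :=
  step (ws := ws) (ts0 := root) h0 (doms := [((st 1111111111321111111111111111111111110), 13), ((st 1111112011320111111211111111111111110), 13), ((st 1111112111211111111211111111111111110), 13)]) (fuel := 8) (doms_cons n1044 (doms_cons n1149 (doms_cons n1185 doms_nil))) (and_l (and_r (and_r (and_l b74))))
theorem n1187 : ¬ TripleMatch 3000000000 (items (st 112211102111111201111100110100000)) 9 :=
  step (ws := ws) (ts0 := root) h0 (doms := [((st 111211102111111101111100110000000), 8), ((st 112111101111111201111100110000000), 8)]) (fuel := 8) (doms_cons n1045 (doms_cons n1150 doms_nil)) (and_l (and_r (and_r (and_r (and_l b74)))))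
theorem n1188 : ¬ TripleMatch 3000000000 (items (st 1112211102111111211111100110110000)) 10 :=
  step (ws := ws) (ts0 := root) h0 (doms := [((st 112211102111111201111100110100000), 9), ((st 1111211102111111111111100110100000), 9), ((st 1112111101111111211111100110100000), 9)]) (fuel := 8) (doms_cons n1187 (doms_cons n1047 (doms_cons n1152 doms_nil))) (and_l (and_l (and_r b74)))
theorem n1189 : ¬ TripleMatch 3000000000 (items (st 112211102111111201111100111000000)) 9 :=
  step (ws := ws) (ts0 := root) h0 (doms := [((st 111211102111111101111100110000000), 8), ((st 112111101111111201111100110000000), 8)]) (fuel := 8) (doms_cons n1045 (doms_cons n1150 doms_nil)) (and_l (and_r (and_l (and_r b74))))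
theorem n1190 : ¬ TripleMatch 3000000000 (items (st 1000112211102111111201111100111110000)) 10 :=
  step (ws := ws) (ts0 := root) h0 (doms := [((st 112211102111111201111100111000000), 9), ((st 1000111211102111111101111100111100000), 9), ((st 1000112111101111111201111100111100000), 9)]) (fuel := 8) (doms_cons n1189 (doms_cons n1050 (doms_cons n1155 doms_nil))) (and_l (and_r (and_r (and_l (and_r b74)))))
theorem n1191 : ¬ TripleMatch 3000000000 (items (st 1001112211102111111211111100111111000)) 11 :=
  step (ws := ws) (ts0 := root) h0 (doms := [((st 1112211102111111211111100110110000), 10), ((st 1000112211102111111201111100111110000), 10), ((st 1001111211102111111111111100111110000), 10), ((st 1001112111101111111211111100111110000), 10)]) (fuel := 8) (doms_cons n1188 (doms_cons n1190 (doms_cons n1053 (doms_cons n1158 doms_nil)))) (and_l (and_r (and_r (and_r (and_l (and_r b74))))))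
theorem n1192 : ¬ TripleMatch 3000000000 (items (st 112211102111111201111110100100000)) 9 :=
  step (ws := ws) (ts0 := root) h0 (doms := [((st 111211102111111101111110100000000), 8), ((st 112111101111111201111110100000000), 8)]) (fuel := 8) (doms_cons n1055 (doms_cons n1160 doms_nil)) (and_l (and_l (and_r (and_r b74))))
theorem n1193 : ¬ TripleMatch 3000000000 (items (st 100112211102111111201111110110110000)) 10 :=
  step (ws := ws) (ts0 := root) h0 (doms := [((st 112211102111111201111110100100000), 9), ((st 100111211102111111101111110110100000), 9), ((st 100112111101111111201111110110100000), 9)]) (fuel := 8) (doms_cons n1192 (doms_cons n1057 (doms_cons n1162 doms_nil))) (and_l (and_r (and_l (and_r (and_r b74)))))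
theorem n1194 : ¬ TripleMatch 3000000000 (items (st 112211102111111201111110011000000)) 9 :=
  step (ws := ws) (ts0 := root) h0 (doms := [((st 111211102111111101111110010000000), 8), ((st 112111101111111201111110010000000), 8)]) (fuel := 8) (doms_cons n1059 (doms_cons n1164 doms_nil)) (and_l (and_r (and_r (and_l (and_r (and_r b74))))))
theorem n1195 : ¬ TripleMatch 3000000000 (items (st 1000112211102111111201111110011110000)) 10 :=
  step (ws := ws) (ts0 := root) h0 (doms := [((st 112211102111111201111110011000000), 9), ((st 1000111211102111111101111110011100000), 9), ((st 1000112111101111111201111110011100000), 9)]) (fuel := 8) (doms_cons n1194 (doms_cons n1061 (doms_cons n1166 doms_nil))) (and_l (and_r (and_r (and_r (and_l (and_r (and_r b74)))))))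
theorem n1196 : ¬ TripleMatch 3000000000 (items (st 1100112211102111111201111110111111000)) 11 :=
  step (ws := ws) (ts0 := root) h0 (doms := [((st 100112211102111111201111110110110000), 10), ((st 1000112211102111111201111110011110000), 10), ((st 1100111211102111111101111110111110000), 10), ((st 1100112111101111111201111110111110000), 10)]) (fuel := 8) (doms_cons n1193 (doms_cons n1195 (doms_cons n1065 (doms_cons n1170 doms_nil)))) (and_l (and_l (and_r (and_r (and_r b74)))))
theorem n1197 : ¬ TripleMatch 3000000000 (items (st 1101112211102111111211111110111111100)) 12 :=
  step (ws := ws) (ts0 := root) h0 (doms := [((st 1001112211102111111211111100111111000), 11), ((st 1100112211102111111201111110111111000), 11), ((st 1101111211102111111111111110111111000), 11), ((st 1101112111101111111211111110111111000), 11)]) (fuel := 8) (doms_cons n1191 (doms_cons n1196 (doms_cons n1071 (doms_cons n1176 doms_nil)))) (and_l (and_r (and_l (and_r (and_r (and_r b74))))))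
theorem n1198 : ¬ TripleMatch 3000000000 (items (st 1110112211102111111201111111111111100)) 12 :=
  step (ws := ws) (ts0 := root) h0 (doms := [((st 1100112211102111111201111110111111000), 11), ((st 1110111211102111111101111111111111000), 11), ((st 1110112111101111111201111111111111000), 11)]) (fuel := 8) (doms_cons n1196 (doms_cons n1077 (doms_cons n1182 doms_nil))) (and_l (and_r (and_r (and_l (and_r (and_r (and_r b74)))))))
theorem n1199 : ¬ TripleMatch 3000000000 (items (st 1111112211102111111211111111111111110)) 13 :=
  step (ws := ws) (ts0 := root) h0 (doms := [((st 1101112211102111111211111110111111100), 12), ((st 1110112211102111111201111111111111100), 12), ((st 1111111211102111111111111111111111100), 12), ((st 1111112111101111111211111111111111100), 12)]) (fuel := 8) (doms_cons n1197 (doms_cons n1198 (doms_cons n1079 (doms_cons n1184 doms_nil)))) (and_l (and_r (and_r (and_r (and_l (and_r (and_r (and_r b74))))))))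
theorem n1200 : ¬ TripleMatch 3000000000 (items (st 1111112211212111111211111111111111111)) 14 :=
  step (ws := ws) (ts0 := root) h0 (doms := [((st 1111111211212111111111111111111111110), 13), ((st 1111112111211111111211111111111111110), 13), ((st 1111112211102111111211111111111111110), 13)]) (fuel := 8) (doms_cons n1080 (doms_cons n1185 (doms_cons n1199 doms_nil))) (and_l (and_l b75))
theorem n1201 : ¬ TripleMatch 3000000000 (items (st 1111112211322111111211111111111111112)) 15 :=
  step (ws := ws) (ts0 := root) h0 (doms := [((st 1111111211322111111111111111111111111), 14), ((st 1111112111321111111211111111111111111), 14), ((st 1111112211212111111211111111111111111), 14)]) (fuel := 8) (doms_cons n1081 (doms_cons n1186 (doms_cons n1200 doms_nil))) (and_l (and_r (and_l b75)))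
theorem n1202 : ¬ TripleMatch 3000000000 (items (st 1111112211322111111211111111111111113)) 15 :=
  step (ws := ws) (ts0 := root) h0 (doms := [((st 1111112211322111111211111111111111112), 15)]) (fuel := 8) (doms_cons n1201 doms_nil) (and_l (and_r (and_r (and_l b75))))
theorem n1203 : ¬ TripleMatch 3000000000 (items (st 1111112211322111111211111111111111114)) 15 :=
  step (ws := ws) (ts0 := root) h0 (doms := [((st 1111112211322111111211111111111111113), 15)]) (fuel := 8) (doms_cons n1202 doms_nil) (and_l (and_r (and_r (and_r (and_l b75)))))
theorem n1204 : ¬ TripleMatch 3000000000 (items (st 1111112211322111111211111111111111115)) 15 :=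
  step (ws := ws) (ts0 := root) h0 (doms := [((st 1111112211322111111211111111111111114), 15)]) (fuel := 8) (doms_cons n1203 doms_nil) (and_l (and_l (and_r b75)))

/-- The root instance has no `15` disjoint fitting triples. -/
theorem hroot : ¬ TripleMatch 3000000000 (items root) 15 :=
  not_tripleMatch_of_alignSub (R := (st 1111112211322111111211111111111111115)) (by decide +kernel) n1204

end Vale.Agent.Lib.P302.helper2.BlkC2
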