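import Vale.Agent.Lib.P302.Bridge

/-!
Padding a bin packing instance with items of size `1`: every added item raises the optimum by
exactly one and the value of the configuration LP by at most one.  Hence an instance with a
given gap `OPT - LP` yields instances with every larger value of `OPT` and at least the same gap.
-/

namespace Vale.Agent.Lib.P302.helper2

open Finset Vale.Agent.Lib.P302

/-- The instance `a` with one more item, of size `1`. -/
def addUnit {n : ℕ} (a : Fin n → ℚ) : Fin (n + 1) → ℚ := Fin.snoc a 1

theorem addUnit_castSucc {n : ℕ} (a : Fin n → ℚ) (i : Fin n) : addUnit a i.castSucc = a i := by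
  simp [addUnit]

theorem addUnit_last {n : ℕ} (a : Fin n → ℚ) : addUnit a (Fin.last n) = 1 := by
  simp [addUnit]

theorem addUnit_bounds {n : ℕ} {a : Fin n → ℚ} (ha : ∀ i, 0 < a i ∧ a i ≤ 1) :
    ∀ i, 0 < addUnit a i ∧ addUnit a i ≤ 1 := by
  intro i
  induction i using Fin.lastCases with
  | last => rw [addUnit_last]; norm_num
  | cast i => rw [addUnit_castSucc]; exact ha i

theorem sum_filter_addUnit {n k : ℕ} (a : Fin n → ℚ) (f : Fin (n + 1) → Fin k) (j : Fin k) :
    (∑ i ∈ univ.filter (fun i => f i = j), addUnit a i) =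
      (∑ i ∈ univ.filter (fun i : Fin n => f i.castSucc = j), a i) +
        (if f (Fin.last n) = j then 1 else 0) := by
  rw [Finset.sum_filter, Fin.sum_univ_castSucc, Finset.sum_filter]
  simp only [addUnit_castSucc, addUnit_last]

/-- A packing of `a` into `k` bins extends to a packing of the padded instance into `k + 1`. -/
theorem packable_addUnit {n : ℕ} {a : Fin n → ℚ} {k : ℕ} (h : Packable a k) :
    Packable (addUnit a) (k + 1) := by
  obtain ⟨f, hf⟩ := h
  refine ⟨Fin.snoc (α := fun _ => Fin (k + 1)) (fun i => (f i).castSucc) (Fin.last k),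
    fun j => ?_⟩
  rw [sum_filter_addUnit]
  simp only [Fin.snoc_castSucc, Fin.snoc_last]
  induction j using Fin.lastCases with
  | last =>
    have h0 : (univ.filter (fun i : Fin n => (f i).castSucc = Fin.last k)) = ∅ := by
      ext i
      simp only [mem_filter, mem_univ, true_and, notMem_empty, iff_false]
      exact Fin.castSucc_ne_last (f i)
    rw [h0]
    simp
  | cast j =>
    have h0 : (univ.filter (fun i : Fin n => (f i).castSucc = j.castSucc)) =
        univ.filter (fun i => f i = j) := by
      ext i
      simp only [mem_filter, mem_univ, true_and, Fin.castSucc_inj]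
    rw [h0, if_neg (Fin.castSucc_ne_last j).symm, add_zero]
    exact hf j

/-- The item of size `1` fills a bin alone, so a packing of the padded instance into `k + 1`
bins gives a packing of `a` into `k` bins. -/
theorem packable_of_addUnit {n : ℕ} {a : Fin n → ℚ} (ha : ∀ i, 0 < a i) {k : ℕ}
    (h : Packable (addUnit a) (k + 1)) : Packable a k := by
  obtain ⟨f, hf⟩ := h
  have hne : ∀ i : Fin n, f i.castSucc ≠ f (Fin.last n) := by
    intro i hi
    have h1 := hf (f (Fin.last n))
    rw [sum_filter_addUnit, if_pos rfl] at h1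
    have h2 : a i ≤ ∑ i ∈ univ.filter (fun i : Fin n => f i.castSucc = f (Fin.last n)), a i :=
      Finset.single_le_sum (f := a) (fun x _ => (ha x).le) (by simp [hi])
    linarith [ha i]
  choose g hg using fun i => Fin.exists_succAbove_eq (hne i)
  refine ⟨g, fun j => ?_⟩
  have h1 := hf ((f (Fin.last n)).succAbove j)
  rw [sum_filter_addUnit] at h1
  have h2 : (univ.filter (fun i : Fin n => g i = j)) =
      univ.filter (fun i : Fin n => f i.castSucc = (f (Fin.last n)).succAbove j) := by
    ext i
    simp only [mem_filter, mem_univ, true_and]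
    rw [← hg i]
    exact ⟨fun h => by rw [h], fun h => Fin.succAbove_right_injective h⟩
  rw [h2]
  have h3 : (0 : ℚ) ≤ (if f (Fin.last n) = (f (Fin.last n)).succAbove j then (1 : ℚ) else 0) := by
    split_ifs <;> norm_num
  linarith

/-- Adding an item of size `1` raises the optimum by exactly one. -/
theorem OPT_addUnit {n : ℕ} {a : Fin n → ℚ} (ha : ∀ i, 0 < a i ∧ a i ≤ 1) :
    OPT (addUnit a) = OPT a + 1 := by
  have hb := addUnit_bounds ha
  have h1 : OPT a ∈ {k : ℕ | Packable a k} :=
    Nat.sInf_mem ⟨n, packable_self (fun i => (ha i).2)⟩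
  have h2 : OPT (addUnit a) ∈ {k : ℕ | Packable (addUnit a) k} :=
    Nat.sInf_mem ⟨n + 1, packable_self (fun i => (hb i).2)⟩
  apply le_antisymm
  · exact Nat.sInf_le (packable_addUnit h1)
  · rcases Nat.eq_zero_or_pos (OPT (addUnit a)) with h0 | hpos
    · rw [h0] at h2
      obtain ⟨f, _⟩ := h2
      exact (f (Fin.last n)).elim0
    · obtain ⟨q, hq⟩ := Nat.exists_eq_succ_of_ne_zero hpos.ne'
      rw [hq] at h2 ⊢
      have h3 : OPT a ≤ q := Nat.sInf_le (packable_of_addUnit (fun i => (ha i).1) h2)
      omega

/-- Every instance has a feasible fractional solution: one configuration for each item. -/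
theorem exists_fracSol {n : ℕ} {a : Fin n → ℚ} (ha : ∀ i, 0 < a i ∧ a i ≤ 1) :
    ∃ (m : ℕ) (c : Fin m → ℚ → ℕ) (z : Fin m → ℝ), IsFracSol a c z := by
  refine ⟨n, fun j s => if s = a j then 1 else 0, fun _ => 1, fun j => ?_, fun j => by norm_num,
    fun s hs => ?_⟩
  · rw [Finset.sum_eq_single (a j)]
    · simpa using (ha j).2
    · intro b _ hb
      simp [hb]
    · intro h
      exact absurd (Finset.mem_image_of_mem a (Finset.mem_univ j)) h
  · unfold mult
    rw [Finset.card_filter]
    push_cast
    apply le_of_eq
    apply Finset.sum_congr rfl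
    intro j _
    by_cases h : a j = s
    · simp [h]
    · have h' : ¬ s = a j := fun e => h e.symm
      simp [h, h']

/-- The configurations of a fractional solution may be assumed to use sizes of the instance
only. -/
theorem fracSol_restrict {n : ℕ} {a : Fin n → ℚ} {m : ℕ} {c : Fin m → ℚ → ℕ} {z : Fin m → ℝ}
    (h : IsFracSol a c z) :
    IsFracSol a (fun j s => if s ∈ univ.image a then c j s else 0) z := by
  obtain ⟨h1, h2, h3⟩ := h
  refine ⟨fun j => ?_, h2, fun s hs => ?_⟩
  · have e : (∑ s ∈ univ.image a, s * (((if s ∈ univ.image a then c j s else 0 : ℕ)) : ℚ)) =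
        ∑ s ∈ univ.image a, s * (c j s : ℚ) := by
      apply Finset.sum_congr rfl
      intro s hs
      rw [if_pos hs]
    rw [e]
    exact h1 j
  · have e : (∑ j, (((if s ∈ univ.image a then c j s else 0 : ℕ)) : ℝ) * z j) =
        ∑ j, (c j s : ℝ) * z j := by
      apply Finset.sum_congr rfl
      intro j _
      rw [if_pos hs]
    rw [e]
    exact h3 s hs

theorem mult_addUnit {n : ℕ} (a : Fin n → ℚ) (s : ℚ) :
    mult (addUnit a) s = mult a s + (if s = 1 then 1 else 0) := by
  unfold mult
  rw [Finset.card_filter, Fin.sum_univ_castSucc, Finset.card_filter]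
  simp only [addUnit_castSucc, addUnit_last]
  congr 1
  by_cases h : s = 1
  · simp [h]
  · have h' : ¬ (1 : ℚ) = s := fun e => h e.symm
    simp [h, h']

theorem image_addUnit {n : ℕ} (a : Fin n → ℚ) :
    univ.image (addUnit a) = insert 1 (univ.image a) := by
  ext s
  simp only [mem_image, mem_univ, true_and, mem_insert]
  constructor
  · rintro ⟨i, rfl⟩
    induction i using Fin.lastCases with
    | last => left; exact addUnit_last a
    | cast i => right; exact ⟨i, (addUnit_castSucc a i).symm⟩
  · rintro (rfl | ⟨i, rfl⟩)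
    · exact ⟨Fin.last n, addUnit_last a⟩
    · exact ⟨i.castSucc, addUnit_castSucc a i⟩

/-- Adding an item of size `1` raises the value of the configuration LP by at most one. -/
theorem LP_addUnit {n : ℕ} {a : Fin n → ℚ} (ha : ∀ i, 0 < a i ∧ a i ≤ 1) :
    LP (addUnit a) ≤ LP a + 1 := by
  have key : ∀ v ∈ {v : ℝ | ∃ (m : ℕ) (c : Fin m → ℚ → ℕ) (z : Fin m → ℝ),
      IsFracSol a c z ∧ v = ∑ j, z j}, LP (addUnit a) - 1 ≤ v := by
    rintro v ⟨m, c, z, hsol, rfl⟩
    obtain ⟨h1, h2, h3⟩ := fracSol_restrict hsol
    have hs : IsFracSol (addUnit a)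
        (Fin.snoc (α := fun _ => ℚ → ℕ) (fun j s => if s ∈ univ.image a then c j s else 0)
          (fun s => if s = 1 then 1 else 0))
        (Fin.snoc (α := fun _ => ℝ) z 1) := by
      refine ⟨fun j => ?_, fun j => ?_, fun s hs => ?_⟩
      · rw [image_addUnit]
        induction j using Fin.lastCases with
        | last =>
          simp only [Fin.snoc_last]
          rw [Finset.sum_eq_single (1 : ℚ)]
          · simp
          · intro b _ hb
            simp [hb]
          · intro h
            exact absurd (Finset.mem_insert_self _ _) h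
        | cast j =>
          simp only [Fin.snoc_castSucc]
          have e : (∑ s ∈ insert 1 (univ.image a),
              s * (((if s ∈ univ.image a then c j s else 0 : ℕ)) : ℚ)) =
              ∑ s ∈ univ.image a, s * (((if s ∈ univ.image a then c j s else 0 : ℕ)) : ℚ) := by
            symm
            apply Finset.sum_subset (Finset.subset_insert _ _)
            intro x _ hx
            simp [hx]
          rw [e]
          exact h1 j
      · induction j using Fin.lastCases with
        | last => simp
        | cast j =>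
          simp only [Fin.snoc_castSucc]
          exact h2 j
      · rw [mult_addUnit, Fin.sum_univ_castSucc]
        simp only [Fin.snoc_castSucc, Fin.snoc_last]
        by_cases hsa : s ∈ univ.image a
        · have h4 := h3 s hsa
          simp only [if_pos hsa] at h4 ⊢
          push_cast
          simp only [mul_one]
          linarith
        · have hs1 : s = 1 := by
            rw [image_addUnit] at hs
            rcases Finset.mem_insert.mp hs with h | h
            · exact h
            · exact absurd h hsa
          have hm : mult a s = 0 := by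
            unfold mult
            rw [Finset.card_eq_zero, Finset.filter_eq_empty_iff]
            intro i _ hi
            exact hsa (Finset.mem_image.mpr ⟨i, Finset.mem_univ _, hi⟩)
          rw [hm]
          simp only [if_neg hsa]
          simp [hs1]
    have h5 := LP_le hs
    rw [Fin.sum_univ_castSucc] at h5
    simp only [Fin.snoc_castSucc, Fin.snoc_last] at h5
    linarith
  have hne : {v : ℝ | ∃ (m : ℕ) (c : Fin m → ℚ → ℕ) (z : Fin m → ℝ),
      IsFracSol a c z ∧ v = ∑ j, z j}.Nonempty := by
    obtain ⟨m, c, z, h⟩ := exists_fracSol ha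
    exact ⟨_, m, c, z, h, rfl⟩
  have h6 : LP (addUnit a) - 1 ≤ LP a := le_csInf hne key
  linarith

/-- Padding with `m` items of size `1`: the optimum grows by exactly `m`, the LP value by at
most `m`. -/
theorem exists_pad {n : ℕ} (a : Fin n → ℚ) (ha : ∀ i, 0 < a i ∧ a i ≤ 1) (m : ℕ) :
    ∃ (n' : ℕ) (a' : Fin n' → ℚ), (∀ i, 0 < a' i ∧ a' i ≤ 1) ∧ OPT a' = OPT a + m ∧
      LP a' ≤ LP a + m := by
  induction m with
  | zero => exact ⟨n, a, ha, by simp, by simp⟩
  | succ m ih =>
    obtain ⟨n', a', h1, h2, h3⟩ := ih
    refine ⟨n' + 1, addUnit a', addUnit_bounds h1, ?_, ?_⟩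
    · rw [OPT_addUnit h1, h2]
      ring
    · have h4 := LP_addUnit h1
      push_cast
      linarith

/-- If an instance with `N0` items has gap `OPT - LP ≥ g`, then for every `N ≥ N0` there is an
instance whose optimum is exactly `N` and whose gap is at least `g`. -/
theorem gap_every_opt {n : ℕ} (a : Fin n → ℚ) (ha : ∀ i, 0 < a i ∧ a i ≤ 1) {g : ℝ}
    (hg : (OPT a : ℝ) - LP a ≥ g) (N : ℕ) (hN : n ≤ N) :
    ∃ (n' : ℕ) (a' : Fin n' → ℚ), (∀ i, 0 < a' i ∧ a' i ≤ 1) ∧ OPT a' = N ∧
      (OPT a' : ℝ) - LP a' ≥ g := by
  have hle : OPT a ≤ n := Nat.sInf_le (packable_self (fun i => (ha i).2))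
  obtain ⟨n', a', h1, h2, h3⟩ := exists_pad a ha (N - OPT a)
  refine ⟨n', a', h1, by omega, ?_⟩
  rw [h2]
  push_cast
  linarith

end Vale.Agent.Lib.P302.helper2
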