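import Vale.Agent.Lib.P302.helper90.Split

/-!
A variant of `helper90.not_packable_of_not_tripleMatch` in which the number of triples is given
explicitly, so that it is computed by the kernel.
-/

namespace Vale.Agent.Lib.P302.helper2

open Vale.Agent.Lib.P302.helper49

/-- If all items are longer than a quarter of the capacity, `T` is the number of items minus
`2 K`, and there are no `T` disjoint fitting triples, the items cannot be packed into `K` bins. -/
theorem not_packable_of_not_tripleMatch_eq {L : ℕ} {ts : List (ℕ × ℕ)} {K T : ℕ}
    (hbig : ts.all (fun t => Nat.blt L (4 * t.1)) = true) (hT : total ts - 2 * K = T)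
    (h : ¬ TripleMatch L (items ts) T) : ¬ Packable L (items ts) K := by
  subst hT
  exact Vale.Agent.Lib.P302.helper90.not_packable_of_not_tripleMatch hbig h

end Vale.Agent.Lib.P302.helper2
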