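import Vale.Agent.Lib.P302.helper92.Dom

/-!
A wrapper around the triple-matching refuter `refuteD` of `helper92` for refutations that are cut
into many small kernel computations: the covering weights are validated once for a root instance
`ts0`, and every cut state `ts` is a sub-instance of `ts0` with the same list of lengths.
-/

namespace Vale.Agent.Lib.P302.helper2

open Vale.Agent.Lib.P302.helper49 Vale.Agent.Lib.P302.helper92

/-- `alignSub ts R` holds iff the two type lists carry the same lengths in the same order, have
the same number of types, and every multiplicity of `ts` is at most the corresponding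
multiplicity of `R`. -/
def alignSub : List (ℕ × ℕ) → List (ℕ × ℕ) → Bool
  | [], [] => true
  | (s, n) :: r, (s', n') :: r' => Nat.beq s s' && (Nat.ble n n' && alignSub r r')
  | _, _ => false

theorem alignSub_fst : ∀ (ts R : List (ℕ × ℕ)), alignSub ts R = true →
    ts.map Prod.fst = R.map Prod.fst
  | [], [] => fun _ => rfl
  | [], _ :: _ => fun h => by simp [alignSub] at h
  | _ :: _, [] => fun h => by simp [alignSub] at h
  | (s, n) :: r, (s', n') :: r' => fun h => by
    simp only [alignSub, Bool.and_eq_true, Nat.beq_eq, Nat.ble_eq] at h
    obtain ⟨rfl, _, hr⟩ := h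
    rw [List.map_cons, List.map_cons, alignSub_fst r r' hr]

theorem alignSub_le : ∀ (ts R : List (ℕ × ℕ)), alignSub ts R = true → items ts ≤ items R
  | [], [] => fun _ => le_rfl
  | [], _ :: _ => fun h => by simp [alignSub] at h
  | _ :: _, [] => fun h => by simp [alignSub] at h
  | (s, n) :: r, (s', n') :: r' => fun h => by
    simp only [alignSub, Bool.and_eq_true, Nat.beq_eq, Nat.ble_eq] at h
    obtain ⟨rfl, hn, hr⟩ := h
    rw [items_cons, items_cons]
    exact add_le_add (Multiset.replicate_le_replicate s |>.mpr hn) (alignSub_le r r' hr)

/-- A sub-instance of an instance without `T` disjoint fitting triples has no `T` disjoint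
fitting triples. -/
theorem not_tripleMatch_of_alignSub {L T : ℕ} {ts R : List (ℕ × ℕ)} (h : alignSub ts R = true)
    (hR : ¬ TripleMatch L (items R) T) : ¬ TripleMatch L (items ts) T :=
  fun hT => hR (tripleMatch_mono hT (alignSub_le ts R h) le_rfl)

/-- One small step of a cut refutation: `ts` is a sub-instance of the root instance `ts0` (whose
covering weights `ws` have been validated), the instances in `doms` are already refuted, and the
search `refuteD` closes `ts`. -/
theorem step {L : ℕ} {ws : List (List ℕ × ℕ)} {ts0 : List (ℕ × ℕ)}
    (h0 : (sortedDesc ts0 && ws.all (fun wd => validC3 L ts0 wd)) = true)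
    {doms : List (List (ℕ × ℕ) × ℕ)} {ts : List (ℕ × ℕ)} {fuel T : ℕ}
    (hdoms : ∀ d ∈ doms, ¬ TripleMatch L (items d.1) d.2)
    (h : (alignSub ts ts0 && refuteD L ws doms fuel ts T) = true) :
    ¬ TripleMatch L (items ts) T := by
  simp only [Bool.and_eq_true, List.all_eq_true] at h0 h
  obtain ⟨hsd, hws⟩ := h0
  obtain ⟨hal, href⟩ := h
  have hsd' := sortedDesc_spec ts0 hsd
  have hnd : (ts0.map Prod.fst).Nodup := by
    apply List.Pairwise.imp _ hsd'
    intro a b hab
    omega
  exact refuteD_sound hsd' (fun wd hwd => validC3_sound hnd (hws wd hwd)) hdoms fuel ts T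
    (alignSub_fst ts ts0 hal) (alignSub_le ts ts0 hal) href

/-- First component of a Boolean conjunction. -/
theorem and_l {a b : Bool} (h : (a && b) = true) : a = true := by
  cases a
  · simp at h
  · rfl

/-- Second component of a Boolean conjunction. -/
theorem and_r {a b : Bool} (h : (a && b) = true) : b = true := by
  cases a
  · simp at h
  · simpa using h

end Vale.Agent.Lib.P302.helper2
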