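import Vale.Agent.Lib.P302.helper2.Step

/-!
Stripping the two mid items from the top block of a nested instance.

The top block consists of hosts (shorter than the mid length `V`), two mid items of length `V`,
`u` jokers of length `j` and guests (of length at least `glo`), with `V < j < glo`.  Three items
that are not short do not fit, and a mid item does not fit with a guest and one more long item.
Then `(number of hosts) + 2` disjoint fitting triples force both mid items to take two jokers
each, so the hosts, the guests and `u - 4` jokers contain `(number of hosts)` disjoint fitting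
triples.
-/

namespace Vale.Agent.Lib.P302.helper2

open Vale.Agent.Lib.P302.helper49

theorem countP_join_sum (p : ℕ → Prop) [DecidablePred p] (B : Multiset (Multiset ℕ)) :
    B.join.countP p = (B.map (fun b => b.countP p)).sum := by
  induction B using Multiset.induction_on with
  | empty => simp
  | cons b B ih =>
    rw [Multiset.join_cons, Multiset.countP_add, ih, Multiset.map_cons, Multiset.sum_cons]

theorem sum_map_const_of_forall {c : ℕ} (f : Multiset ℕ → ℕ) (B : Multiset (Multiset ℕ))
    (h : ∀ b ∈ B, f b = c) : (B.map f).sum = B.card * c := by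
  induction B using Multiset.induction_on with
  | empty => simp
  | cons b B ih =>
    rw [Multiset.map_cons, Multiset.sum_cons, Multiset.card_cons,
      ih (fun b' hb' => h b' (Multiset.mem_cons_of_mem hb')), h b (Multiset.mem_cons_self b B)]
    ring

/-- Stripping the mid items (multiset form). -/
theorem tripleMatch_strip {L V j glo u : ℕ} {G H : Multiset ℕ}
    (hG : ∀ x ∈ G, glo ≤ x) (hH : ∀ x ∈ H, x < V)
    (hVj : V < j) (hjg : j < glo) (h3 : L < 3 * j) (hV : L < V + glo + j)
    (h : TripleMatch L (G + Multiset.replicate u j + Multiset.replicate 2 V + H) (H.card + 2)) :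
    TripleMatch L (G + Multiset.replicate (u - 4) j + H) H.card := by
  obtain ⟨B, hBc, hBt, hBj⟩ := h
  generalize hM : G + Multiset.replicate u j + Multiset.replicate 2 V + H = M at hBj
  have hcls : ∀ x ∈ M, glo ≤ x ∨ x = j ∨ x = V ∨ x < V := by
    intro x hx
    rw [← hM] at hx
    simp only [Multiset.mem_add, Multiset.mem_replicate] at hx
    rcases hx with ((hx | hx) | hx) | hx
    · exact Or.inl (hG x hx)
    · exact Or.inr (Or.inl hx.2)
    · exact Or.inr (Or.inr (Or.inl hx.2))
    · exact Or.inr (Or.inr (Or.inr (hH x hx)))
  have hmemM : ∀ b ∈ B, ∀ x ∈ b, x ∈ M := fun b hb x hx =>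
    Multiset.mem_of_le hBj (Multiset.mem_join.mpr ⟨b, hb, hx⟩)
  -- counting facts about `M`
  have hG0 : ∀ p : ℕ → Prop, [DecidablePred p] → (∀ x, glo ≤ x → ¬ p x) → G.countP p = 0 := by
    intro p _ hp
    rw [Multiset.countP_eq_zero]
    exact fun x hx => hp x (hG x hx)
  have hH0 : ∀ p : ℕ → Prop, [DecidablePred p] → (∀ x, x < V → ¬ p x) → H.countP p = 0 := by
    intro p _ hp
    rw [Multiset.countP_eq_zero]
    exact fun x hx => hp x (hH x hx)
  have hR0 : ∀ (p : ℕ → Prop) [DecidablePred p] (n a : ℕ), ¬ p a →
      (Multiset.replicate n a).countP p = 0 := by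
    intro p _ n a hp
    rw [Multiset.countP_eq_zero]
    intro x hx
    rw [Multiset.eq_of_mem_replicate hx]
    exact hp
  have hR1 : ∀ (p : ℕ → Prop) [DecidablePred p] (n a : ℕ), p a →
      (Multiset.replicate n a).countP p = n := by
    intro p _ n a hp
    rw [Multiset.countP_eq_card.mpr, Multiset.card_replicate]
    intro x hx
    rw [Multiset.eq_of_mem_replicate hx]
    exact hp
  have hMs : M.countP (fun x => x ≤ V) = H.card + 2 := by
    rw [← hM, Multiset.countP_add, Multiset.countP_add, Multiset.countP_add,
      hG0 (fun x => x ≤ V) (fun x hx => by omega), hR0 (fun x => x ≤ V) u j (by omega),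
      hR1 (fun x => x ≤ V) 2 V (le_refl V),
      Multiset.countP_eq_card.mpr (fun x hx => le_of_lt (hH x hx))]
    omega
  have hMh : M.countP (fun x => x < V) = H.card := by
    rw [← hM, Multiset.countP_add, Multiset.countP_add, Multiset.countP_add,
      hG0 (fun x => x < V) (fun x hx => by omega), hR0 (fun x => x < V) u j (by omega),
      hR0 (fun x => x < V) 2 V (lt_irrefl V),
      Multiset.countP_eq_card.mpr (fun x hx => hH x hx)]
    omega
  have hMV : M.countP (fun x => x = V) = 2 := by
    rw [← hM, Multiset.countP_add, Multiset.countP_add, Multiset.countP_add,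
      hG0 (fun x => x = V) (fun x hx => by omega), hR0 (fun x => x = V) u j (by omega),
      hR1 (fun x => x = V) 2 V rfl, hH0 (fun x => x = V) (fun x hx => by omega)]
  have hMj : M.countP (fun x => x = j) = u := by
    rw [← hM, Multiset.countP_add, Multiset.countP_add, Multiset.countP_add,
      hG0 (fun x => x = j) (fun x hx => by omega), hR1 (fun x => x = j) u j rfl,
      hR0 (fun x => x = j) 2 V (by omega), hH0 (fun x => x = j) (fun x hx => by omega)]
    omega
  -- every triple contains a short item
  have hone : ∀ b ∈ B, 1 ≤ b.countP (fun x => x ≤ V) := by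
    intro b hb
    by_contra hcon
    have h0 : b.countP (fun x => x ≤ V) = 0 := by omega
    rw [Multiset.countP_eq_zero] at h0
    obtain ⟨hb3, hbs⟩ := hBt b hb
    have hge : ∀ x ∈ b, j ≤ x := by
      intro x hx
      have hx0 := h0 x hx
      rcases hcls x (hmemM b hb x hx) with h | h | h | h <;> omega
    have hsum := Multiset.card_nsmul_le_sum hge
    rw [hb3, smul_eq_mul] at hsum
    omega
  have hjoinle : B.join.countP (fun x => x ≤ V) ≤ H.card + 2 := by
    rw [← hMs]
    exact Multiset.countP_le_of_le _ hBj
  have hcardle : B.card ≤ (B.map (fun b => b.countP (fun x => x ≤ V))).sum := by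
    have hh := Multiset.card_nsmul_le_sum (s := B.map (fun b => b.countP (fun x => x ≤ V)))
      (a := 1) (by
        intro x hx
        obtain ⟨b, hb, rfl⟩ := Multiset.mem_map.mp hx
        exact hone b hb)
    rw [Multiset.card_map, smul_eq_mul, mul_one] at hh
    exact hh
  rw [countP_join_sum] at hjoinle
  have hBcard : B.card = H.card + 2 := by omega
  -- every triple contains exactly one short item
  have hexact : ∀ b ∈ B, b.countP (fun x => x ≤ V) = 1 := by
    intro b hb
    by_contra hne
    have hlt : 1 < b.countP (fun x => x ≤ V) := lt_of_le_of_ne (hone b hb) (Ne.symm hne)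
    have hs := Multiset.sum_lt_sum (s := B) (f := fun _ => 1)
      (g := fun b => b.countP (fun x => x ≤ V)) (fun b hb => hone b hb) ⟨b, hb, hlt⟩
    rw [Multiset.map_const', Multiset.sum_replicate, smul_eq_mul, mul_one] at hs
    omega
  -- a triple with a mid item consists of the mid item and two jokers
  have hVtri : ∀ b ∈ B, V ∈ b → b.countP (fun x => x = V) = 1 ∧ b.countP (fun x => x = j) = 2 := by
    intro b hb hVb
    obtain ⟨hb3, hbs⟩ := hBt b hb
    obtain ⟨c, rfl⟩ := Multiset.exists_cons_of_mem hVb
    have hc2 : c.card = 2 := by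
      rw [Multiset.card_cons] at hb3
      omega
    have hex := hexact _ hb
    have hex' : (V ::ₘ c).countP (fun x => x ≤ V) = c.countP (fun x => x ≤ V) + 1 :=
      Multiset.countP_cons_of_pos (p := fun x => x ≤ V) c (le_refl V)
    rw [hex'] at hex
    have hc0 : c.countP (fun x => x ≤ V) = 0 := by omega
    rw [Multiset.countP_eq_zero] at hc0
    obtain ⟨x, y, rfl⟩ := Multiset.card_eq_two.mp hc2
    have hxM := hmemM _ hb x (by simp)
    have hyM := hmemM _ hb y (by simp)
    have hx0 := hc0 x (by simp)
    have hy0 := hc0 y (by simp)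
    have hsum : V + (x + y) ≤ L := by
      have e : (V ::ₘ ({x, y} : Multiset ℕ)).sum = V + (x + y) := by
        simp [Multiset.insert_eq_cons]
      rw [e] at hbs
      exact hbs
    have hxj : x = j := by
      rcases hcls x hxM with h | h | h | h
      · rcases hcls y hyM with h' | h' | h' | h' <;> omega
      · exact h
      · omega
      · omega
    have hyj : y = j := by
      rcases hcls y hyM with h | h | h | h
      · omega
      · exact h
      · omega
      · omega
    have hjV : ¬ j = V := by omega
    have hVj' : ¬ V = j := by omega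
    rw [hxj, hyj]
    constructor
    · have e : ({j} : Multiset ℕ).countP (fun x => x = V) = 0 := by
        rw [Multiset.countP_eq_zero]
        intro a ha
        rw [Multiset.mem_singleton] at ha
        omega
      simp [Multiset.insert_eq_cons, hjV, e]
    · have e : ({j} : Multiset ℕ).countP (fun x => x = j) = 1 := by
        rw [Multiset.countP_eq_card.mpr (fun a ha => Multiset.mem_singleton.mp ha)]
        simp
      simp [Multiset.insert_eq_cons, hVj', e]
  -- split the triples
  obtain ⟨BV, hBVdef⟩ : ∃ BV, BV = B.filter (fun b => 0 < Multiset.count V b) := ⟨_, rfl⟩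
  obtain ⟨B', hB'def⟩ : ∃ B', B' = B.filter (fun b => ¬ 0 < Multiset.count V b) := ⟨_, rfl⟩
  have hsplit : BV + B' = B := by
    rw [hBVdef, hB'def]
    exact Multiset.filter_add_not _ B
  have hBVmem : ∀ b ∈ BV, b ∈ B ∧ V ∈ b := by
    intro b hb
    rw [hBVdef] at hb
    obtain ⟨h1, h2⟩ := Multiset.mem_filter.mp hb
    exact ⟨h1, Multiset.count_pos.mp h2⟩
  have hB'mem : ∀ b ∈ B', b ∈ B ∧ ¬ V ∈ b := by
    intro b hb
    rw [hB'def] at hb
    obtain ⟨h1, h2⟩ := Multiset.mem_filter.mp hb
    exact ⟨h1, fun hm => h2 (Multiset.count_pos.mpr hm)⟩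
  have hjoin : B.join = BV.join + B'.join := by rw [← hsplit, Multiset.join_add]
  have hcards : BV.card + B'.card = H.card + 2 := by
    rw [← hBcard, ← hsplit, Multiset.card_add]
  -- the triples with a mid item
  have hBVV : BV.join.countP (fun x => x = V) = BV.card := by
    rw [countP_join_sum, sum_map_const_of_forall _ BV
      (fun b hb => (hVtri b (hBVmem b hb).1 (hBVmem b hb).2).1), mul_one]
  have hBVj : BV.join.countP (fun x => x = j) = BV.card * 2 := by
    rw [countP_join_sum, sum_map_const_of_forall _ BV
      (fun b hb => (hVtri b (hBVmem b hb).1 (hBVmem b hb).2).2)]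
  have hBV2 : BV.card ≤ 2 := by
    have h1 : BV.join ≤ M := le_trans (by rw [hjoin]; exact Multiset.le_add_right _ _) hBj
    have h2 := Multiset.countP_le_of_le (fun x => x = V) h1
    omega
  -- the triples without a mid item contain exactly one host each
  have hB'h : ∀ b ∈ B', b.countP (fun x => x < V) = 1 := by
    intro b hb
    obtain ⟨hbB, hVb⟩ := hB'mem b hb
    rw [← hexact b hbB]
    apply Multiset.countP_congr rfl
    intro x hx
    have hxV : x ≠ V := fun e => hVb (e ▸ hx)
    simp only [eq_iff_iff]
    constructor
    · exact fun h => le_of_lt h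
    · exact fun h => lt_of_le_of_ne h hxV
  have hB'le : B'.join ≤ M := le_trans (by rw [hjoin]; exact Multiset.le_add_left _ _) hBj
  have hB'card : B'.card ≤ H.card := by
    have h1 := Multiset.countP_le_of_le (fun x => x < V) hB'le
    rw [countP_join_sum, sum_map_const_of_forall _ B' hB'h, mul_one, hMh] at h1
    exact h1
  have hBVc : BV.card = 2 := by omega
  have hB'c : B'.card = H.card := by omega
  have hB'V : ∀ x ∈ B'.join, x ≠ V := by
    intro x hx
    obtain ⟨b, hb, hxb⟩ := Multiset.mem_join.mp hx
    exact fun e => (hB'mem b hb).2 (e ▸ hxb)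
  have hcj : B'.join.countP (fun x => x = j) + 4 ≤ u := by
    have h1 := Multiset.countP_le_of_le (fun x => x = j) hBj
    rw [hjoin, Multiset.countP_add, hBVj, hBVc, hMj] at h1
    omega
  refine ⟨B', le_of_eq hB'c.symm, fun b hb => hBt b (hB'mem b hb).1, ?_⟩
  rw [Multiset.le_iff_count]
  intro x
  have hcnt : ∀ (s : Multiset ℕ), Multiset.count x s = s.countP (fun y => y = x) := by
    intro s
    rw [Multiset.count]
    apply Multiset.countP_congr rfl
    intro y _
    simp only [eq_iff_iff]
    exact eq_comm
  by_cases hxV : x = V
  · have h0 : Multiset.count x B'.join = 0 := by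
      rw [Multiset.count_eq_zero]
      exact fun hx => hB'V x hx hxV
    omega
  · by_cases hxj : x = j
    · subst hxj
      rw [hcnt, Multiset.count_add, Multiset.count_add, Multiset.count_replicate_self]
      omega
    · have h1 := Multiset.le_iff_count.mp hB'le x
      rw [← hM, Multiset.count_add, Multiset.count_add, Multiset.count_add,
        Multiset.count_replicate, Multiset.count_replicate, if_neg (Ne.symm hxj),
        if_neg (Ne.symm hxV)] at h1
      rw [Multiset.count_add, Multiset.count_add, Multiset.count_replicate,
        if_neg (Ne.symm hxj)]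
      omega

theorem items_append_add (l1 l2 : List (ℕ × ℕ)) : items (l1 ++ l2) = items l1 + items l2 := by
  induction l1 with
  | nil => simp
  | cons t l ih => rw [List.cons_append, items_cons, items_cons, ih, add_assoc]

/-- Stripping the mid items (list form): if the hosts, the guests and `u - 4` jokers do not
contain `nH` disjoint fitting triples, then the whole top block with `u` jokers does not contain
`nH + 2` disjoint fitting triples. -/
theorem not_tripleMatch_of_strip {L V j glo nH u : ℕ} {tsG tsH : List (ℕ × ℕ)}
    (hG : tsG.all (fun t => Nat.ble glo t.1) = true)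
    (hH : tsH.all (fun t => Nat.blt t.1 V) = true)
    (hVj : V < j) (hjg : j < glo) (h3 : L < 3 * j) (hV : L < V + glo + j)
    (hn : total tsH = nH)
    (hPP : ¬ TripleMatch L (items (tsG ++ (j, u - 4) :: tsH)) nH) :
    ¬ TripleMatch L (items (tsG ++ (j, u) :: (V, 2) :: tsH)) (nH + 2) := by
  intro h
  apply hPP
  have hG' : ∀ x ∈ items tsG, glo ≤ x := by
    intro x hx
    obtain ⟨t, ht, rfl⟩ := List.mem_map.mp (mem_items hx)
    exact Nat.ble_eq.mp (List.all_eq_true.mp hG t ht)
  have hH' : ∀ x ∈ items tsH, x < V := by
    intro x hx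
    obtain ⟨t, ht, rfl⟩ := List.mem_map.mp (mem_items hx)
    exact Nat.blt_eq.mp (List.all_eq_true.mp hH t ht)
  have hcard : (items tsH).card = nH := by rw [← total_eq_card, hn]
  have e1 : items (tsG ++ (j, u) :: (V, 2) :: tsH) =
      items tsG + Multiset.replicate u j + Multiset.replicate 2 V + items tsH := by
    rw [items_append_add, items_cons, items_cons]
    simp only [add_assoc]
  have e2 : items (tsG ++ (j, u - 4) :: tsH) =
      items tsG + Multiset.replicate (u - 4) j + items tsH := by
    rw [items_append_add, items_cons]
    simp only [add_assoc]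
  rw [e1, ← hcard] at h
  rw [e2, ← hcard]
  exact tripleMatch_strip hG' hH' hVj hjg h3 hV h

end Vale.Agent.Lib.P302.helper2
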